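import Vale.Agent.P140.Defs

/-!
# P140: collision invariance and the weighted bounds for the gain and the frequency

For every direction the collision map is a linear involution of the pairs of velocities, so it keeps
the Lebesgue measure; it changes the sign of the rate and keeps the mass and the energy.
-/

noncomputable section

namespace Vale.Agent.P140

open MeasureTheory Set
open scoped ENNReal InnerProductSpace

lemma norm_sph (o : Sph) : ‖(o : Vel)‖ = 1 := by
  simp

lemma inner_sph (o : Sph) : ⟪(o : Vel), (o : Vel)⟫_ℝ = 1 := by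
  rw [real_inner_self_eq_norm_sq, norm_sph, one_pow]

lemma rate_post (v u : Vel) (o : Sph) :
    rate (post v u o).1 (post v u o).2 o = -rate v u o := by
  simp only [rate, post, inner_sub_left, inner_add_left, real_inner_smul_left, inner_sph]
  ring

lemma rate_swap (v u : Vel) (o : Sph) : rate u v o = -rate v u o := by
  simp only [rate, inner_sub_left]
  ring

lemma post_swap (v u : Vel) (o : Sph) : post u v o = ((post v u o).2, (post v u o).1) := by
  simp only [post, rate_swap v u o, neg_smul, sub_neg_eq_add, ← sub_eq_add_neg]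

lemma post_post (v u : Vel) (o : Sph) : post (post v u o).1 (post v u o).2 o = (v, u) := by
  conv_lhs => rw [post, rate_post]
  simp only [post, neg_smul, sub_neg_eq_add, sub_add_cancel, add_neg_cancel_right]

lemma norm_sq_post (v u : Vel) (o : Sph) :
    ‖(post v u o).1‖ ^ 2 + ‖(post v u o).2‖ ^ 2 = ‖v‖ ^ 2 + ‖u‖ ^ 2 := by
  simp only [post, norm_sub_sq_real, norm_add_sq_real, real_inner_smul_right, norm_smul, norm_sph,
    mul_one, Real.norm_eq_abs, sq_abs]
  have : rate v u o = ⟪v, (o : Vel)⟫_ℝ - ⟪u, (o : Vel)⟫_ℝ := inner_sub_left _ _ _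
  rw [this]
  ring

lemma weight_post (v u : Vel) (o : Sph) :
    weight (post v u o).1 + weight (post v u o).2 = weight v + weight u := by
  simp only [weight]
  linarith [norm_sq_post v u o]

lemma weight_pos (v : Vel) : 0 < weight v := by unfold weight; positivity

lemma one_add_norm_le_weight (v : Vel) : 1 + ‖v‖ ≤ 2 * weight v := by
  unfold weight
  nlinarith [sq_nonneg (‖v‖ - 1)]

lemma one_add_norm_mul_weight_le (v : Vel) : (1 + ‖v‖) * weight v ≤ 4 * (1 + ‖v‖ ^ 3) := by
  unfold weight
  nlinarith [norm_nonneg v, mul_nonneg (norm_nonneg v) (sq_nonneg (‖v‖ - 1)), sq_nonneg (‖v‖ - 1)]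

lemma continuous_weight : Continuous weight := by unfold weight; fun_prop

lemma measurable_weight : Measurable weight := continuous_weight.measurable

/-- The collision map for one direction, as a linear map. -/
def collMap (o : Sph) : Vel × Vel →ₗ[ℝ] Vel × Vel where
  toFun p := post p.1 p.2 o
  map_add' p q := by
    simp only [post, rate, Prod.fst_add, Prod.snd_add, inner_sub_left, inner_add_left, Prod.mk_add_mk,
      Prod.mk.injEq]
    constructor <;> module
  map_smul' c p := by
    simp only [post, rate, Prod.smul_fst, Prod.smul_snd, inner_sub_left, real_inner_smul_left,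
      RingHom.id_apply, Prod.smul_mk, Prod.mk.injEq]
    constructor <;> module

lemma collMap_apply (o : Sph) (p : Vel × Vel) : collMap o p = post p.1 p.2 o := rfl

lemma abs_det_collMap (o : Sph) : |LinearMap.det (collMap o)| = 1 := by
  have h : collMap o ∘ₗ collMap o = LinearMap.id :=
    LinearMap.ext fun p => by simp [collMap_apply, post_post]
  have h2 := congrArg LinearMap.det h
  rw [LinearMap.det_comp, LinearMap.det_id] at h2
  rcases mul_self_eq_one_iff.1 h2 with e | e <;> simp [e]

lemma map_collMap (o : Sph) :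
    Measure.map (collMap o) (volume : Measure (Vel × Vel)) = volume := by
  have hd : LinearMap.det (collMap o) ≠ 0 := fun h => by
    have := abs_det_collMap o; simp [h] at this
  have : (volume : Measure (Vel × Vel)).IsAddHaarMeasure := by
    rw [Measure.volume_eq_prod]; infer_instance
  rw [Measure.map_linearMap_addHaar_eq_smul_addHaar volume hd, abs_inv, abs_det_collMap o, inv_one,
    ENNReal.ofReal_one, one_smul]

lemma measurePreserving_collMap (o : Sph) :
    MeasurePreserving (fun p : Vel × Vel => post p.1 p.2 o) volume volume :=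
  ⟨(collMap o).continuous_of_finiteDimensional.measurable, map_collMap o⟩

instance : IsFiniteMeasure surf := by unfold surf; infer_instance

lemma continuous_rate : Continuous fun p : Vel × Vel × Sph => rate p.1 p.2.1 p.2.2 := by
  unfold rate; fun_prop

lemma continuous_post : Continuous fun p : Vel × Vel × Sph => post p.1 p.2.1 p.2.2 := by
  unfold post rate; fun_prop

/-- The collision measure. -/
def collInt (Φ : Vel → Vel → Sph → ℝ≥0∞) : ℝ≥0∞ :=
  ∫⁻ v, ∫⁻ u, ∫⁻ o, ENNReal.ofReal |rate v u o| * Φ v u o ∂surf

lemma collInt_eq {Φ : Vel → Vel → Sph → ℝ≥0∞}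
    (hΦ : Measurable fun p : Vel × Vel × Sph => Φ p.1 p.2.1 p.2.2) :
    collInt Φ = ∫⁻ o, (∫⁻ p : Vel × Vel, ENNReal.ofReal |rate p.1 p.2 o| * Φ p.1 p.2 o) ∂surf := by
  have hm : Measurable fun p : (Vel × Vel) × Sph =>
      ENNReal.ofReal |rate p.1.1 p.1.2 p.2| * Φ p.1.1 p.1.2 p.2 :=
    (((continuous_rate.abs.measurable).ennreal_ofReal.mul hΦ).comp
      (f := fun p : (Vel × Vel) × Sph => (p.1.1, p.1.2, p.2)) (by fun_prop))
  rw [collInt, lintegral_lintegral_swap (f := fun o (p : Vel × Vel) =>
    ENNReal.ofReal |rate p.1 p.2 o| * Φ p.1 p.2 o) (hm.comp measurable_swap).aemeasurable,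
    Measure.volume_eq_prod, lintegral_prod _ hm.lintegral_prod_right'.aemeasurable]

/-- The change of variables. -/
lemma collInt_post {Φ : Vel → Vel → Sph → ℝ≥0∞}
    (hΦ : Measurable fun p : Vel × Vel × Sph => Φ p.1 p.2.1 p.2.2) :
    collInt (fun v u o => Φ (post v u o).1 (post v u o).2 o) = collInt Φ := by
  have hm : Measurable fun p : Vel × Vel × Sph => Φ (post p.1 p.2.1 p.2.2).1
      (post p.1 p.2.1 p.2.2).2 p.2.2 :=
    hΦ.comp (((continuous_post.fst).prodMk ((continuous_post.snd).prodMk (by fun_prop))).measurable)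
  rw [collInt_eq hm, collInt_eq hΦ]
  refine lintegral_congr fun o => ?_
  have hf : Measurable fun p : Vel × Vel => ENNReal.ofReal |rate p.1 p.2 o| * Φ p.1 p.2 o :=
    ((continuous_rate.abs.measurable.ennreal_ofReal.mul hΦ).comp
      (f := fun p : Vel × Vel => (p.1, p.2, o)) (by fun_prop))
  rw [← (measurePreserving_collMap o).lintegral_comp hf]
  refine lintegral_congr fun p => ?_
  rw [rate_post, abs_neg]

lemma collInt_swap {Φ : Vel → Vel → Sph → ℝ≥0∞}
    (hΦ : Measurable fun p : Vel × Vel × Sph => Φ p.1 p.2.1 p.2.2) :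
    collInt (fun v u o => Φ u v o) = collInt Φ := by
  have hm : Measurable fun p : Vel × Vel => ∫⁻ o, ENNReal.ofReal |rate p.1 p.2 o| * Φ p.2 p.1 o ∂surf :=
    (((continuous_rate.abs.measurable).ennreal_ofReal.mul (hΦ.comp
      (f := fun p : Vel × Vel × Sph => (p.2.1, p.1, p.2.2)) (by fun_prop))).comp
      (f := fun p : (Vel × Vel) × Sph => (p.1.1, p.1.2, p.2)) (by fun_prop)).lintegral_prod_right'
  unfold collInt
  rw [lintegral_lintegral_swap hm.aemeasurable]
  exact lintegral_congr fun u => lintegral_congr fun v => lintegral_congr fun o => by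
    rw [rate_swap, abs_neg]

variable {f g : Vel → ℝ}

lemma measurable_gainKernel (hf : Measurable f) (hg : Measurable g) :
    Measurable fun p : Vel × Vel × Sph => ENNReal.ofReal (f (post p.1 p.2.1 p.2.2).1) *
      ENNReal.ofReal (g (post p.1 p.2.1 p.2.2).2) :=
  (hf.comp continuous_post.fst.measurable).ennreal_ofReal.mul
    (hg.comp continuous_post.snd.measurable).ennreal_ofReal

lemma lintegral_mul_gain {Φ : Vel → ℝ≥0∞} (hΦ : Measurable Φ) (hf : Measurable f)
    (hg : Measurable g) :
    ∫⁻ v, Φ v * gain f g v =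
      collInt fun v u o => Φ (post v u o).1 * (ENNReal.ofReal (f v) * ENNReal.ofReal (g u)) := by
  have hm : Measurable fun p : Vel × Vel × Sph =>
      Φ (post p.1 p.2.1 p.2.2).1 * (ENNReal.ofReal (f p.1) * ENNReal.ofReal (g p.2.1)) :=
    (hΦ.comp continuous_post.fst.measurable).mul
      ((hf.comp measurable_fst).ennreal_ofReal.mul (hg.comp (measurable_fst.comp measurable_snd)).ennreal_ofReal)
  rw [← collInt_post hm]
  refine lintegral_congr fun v => ?_
  have hk : Measurable fun p : Vel × Sph => ENNReal.ofReal |rate v p.1 p.2| *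
      ENNReal.ofReal (f (post v p.1 p.2).1) * ENNReal.ofReal (g (post v p.1 p.2).2) :=
    ((continuous_rate.abs.measurable.ennreal_ofReal.mul
      (hf.comp continuous_post.fst.measurable).ennreal_ofReal).mul
      (hg.comp continuous_post.snd.measurable).ennreal_ofReal).comp
      (f := fun p : Vel × Sph => (v, p.1, p.2)) (by fun_prop)
  rw [gain, ← lintegral_const_mul _ hk.lintegral_prod_right']
  refine lintegral_congr fun u => ?_
  rw [← lintegral_const_mul _ (f := fun o => ENNReal.ofReal |rate v u o| *
      ENNReal.ofReal (f (post v u o).1) * ENNReal.ofReal (g (post v u o).2))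
      (hk.comp (f := fun o : Sph => (u, o)) (by fun_prop))]
  refine lintegral_congr fun o => ?_
  simp only [post_post]
  ring

lemma lintegral_mul_freq {Φ : Vel → ℝ≥0∞} (hg : Measurable g) :
    ∫⁻ v, Φ v * freq g v = collInt fun v u _ => Φ v * ENNReal.ofReal (g u) := by
  refine lintegral_congr fun v => ?_
  have hk : Measurable fun p : Vel × Sph => ENNReal.ofReal |rate v p.1 p.2| * ENNReal.ofReal (g p.1) :=
    ((continuous_rate.abs.measurable.ennreal_ofReal.comp
      (f := fun p : Vel × Sph => (v, p.1, p.2)) (by fun_prop))).mul (hg.comp measurable_fst).ennreal_ofReal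
  rw [freq, ← lintegral_const_mul _ hk.lintegral_prod_right']
  refine lintegral_congr fun u => ?_
  rw [← lintegral_const_mul _ (f := fun o => ENNReal.ofReal |rate v u o| * ENNReal.ofReal (g u))
    (hk.comp (f := fun o : Sph => (u, o)) (by fun_prop))]
  exact lintegral_congr fun o => by ring

/-- The collision measure is additive. -/
lemma collInt_add {A B : Vel → Vel → Sph → ℝ≥0∞}
    (hA : Measurable fun p : Vel × Vel × Sph => A p.1 p.2.1 p.2.2) :
    collInt A + collInt B = collInt fun v u o => A v u o + B v u o := by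
  have m1 : Measurable fun p : (Vel × Vel) × Sph =>
      ENNReal.ofReal |rate p.1.1 p.1.2 p.2| * A p.1.1 p.1.2 p.2 :=
    (continuous_rate.abs.measurable.ennreal_ofReal.mul hA).comp
      (f := fun p : (Vel × Vel) × Sph => (p.1.1, p.1.2, p.2)) (by fun_prop)
  have m2 : Measurable fun q : Vel × Vel => ∫⁻ o, ENNReal.ofReal |rate q.1 q.2 o| * A q.1 q.2 o ∂surf :=
    Measurable.lintegral_prod_right' m1
  have m3 : Measurable fun v => ∫⁻ u, ∫⁻ o, ENNReal.ofReal |rate v u o| * A v u o ∂surf :=
    Measurable.lintegral_prod_right'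
      (f := fun q : Vel × Vel => ∫⁻ o, ENNReal.ofReal |rate q.1 q.2 o| * A q.1 q.2 o ∂surf) m2
  unfold collInt
  rw [← lintegral_add_left m3]
  refine lintegral_congr fun v => ?_
  have m2' : Measurable fun u => ∫⁻ o, ENNReal.ofReal |rate v u o| * A v u o ∂surf :=
    m2.comp (f := fun u : Vel => (v, u)) measurable_prodMk_left
  rw [← lintegral_add_left m2']
  refine lintegral_congr fun u => ?_
  have m4 : Measurable fun o => ENNReal.ofReal |rate v u o| * A v u o :=
    m1.comp (f := fun o : Sph => ((v, u), o)) measurable_prodMk_left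
  rw [← lintegral_add_left m4]
  exact lintegral_congr fun o => (mul_add _ _ _).symm

/-- The gain in both orders, with the weight, is the loss with the weight of both velocities. -/
lemma lintegral_weight_gain_add (hf : Measurable f) (hg : Measurable g) :
    (∫⁻ v, ENNReal.ofReal (weight v) * gain f g v) + ∫⁻ v, ENNReal.ofReal (weight v) * gain g f v =
      (collInt fun v u _ => ENNReal.ofReal (weight v) * (ENNReal.ofReal (f v) * ENNReal.ofReal (g u))) +
        collInt fun v u _ => ENNReal.ofReal (weight u) * (ENNReal.ofReal (f v) * ENNReal.ofReal (g u)) := by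
  have hw := measurable_weight.ennreal_ofReal
  have hp : Measurable fun p : Vel × Vel × Sph => ENNReal.ofReal (f p.1) * ENNReal.ofReal (g p.2.1) :=
    (hf.comp measurable_fst).ennreal_ofReal.mul (hg.comp (measurable_fst.comp measurable_snd)).ennreal_ofReal
  have h1 : Measurable fun p : Vel × Vel × Sph =>
      ENNReal.ofReal (weight (post p.1 p.2.1 p.2.2).2) *
        (ENNReal.ofReal (f p.1) * ENNReal.ofReal (g p.2.1)) :=
    (hw.comp continuous_post.snd.measurable).mul hp
  rw [lintegral_mul_gain hw hf hg, lintegral_mul_gain hw hg hf]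
  have e : (collInt fun v u o => ENNReal.ofReal (weight (post v u o).1) *
      (ENNReal.ofReal (g v) * ENNReal.ofReal (f u))) =
      collInt fun v u o => ENNReal.ofReal (weight (post v u o).2) *
        (ENNReal.ofReal (f v) * ENNReal.ofReal (g u)) := by
    refine Eq.trans ?_ (collInt_swap (Φ := fun v u o => ENNReal.ofReal (weight (post v u o).2) *
      (ENNReal.ofReal (f v) * ENNReal.ofReal (g u))) h1)
    refine congrArg collInt (funext fun v => funext fun u => funext fun o => ?_)
    rw [post_swap v u o, mul_comm (ENNReal.ofReal (g v))]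
  rw [e]
  rw [collInt_add ((hw.comp continuous_post.fst.measurable).mul hp),
    collInt_add ((hw.comp measurable_fst).mul hp)]
  unfold collInt
  refine lintegral_congr fun v => lintegral_congr fun u => lintegral_congr fun o => ?_
  have hn := fun y => (weight_pos y).le
  simp only
  rw [← add_mul, ← add_mul, ← ENNReal.ofReal_add (hn _) (hn _), ← ENNReal.ofReal_add (hn _) (hn _),
    weight_post]

/-- A product bound for collision integrals without post velocities. -/
lemma collInt_prod_le {p q : Vel → ℝ≥0∞} (hp : Measurable p) (hq : Measurable q) :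
    (collInt fun v u _ => p v * q u) ≤
      surf univ * ((∫⁻ v, ENNReal.ofReal (1 + ‖v‖) * p v) * ∫⁻ u, ENNReal.ofReal (1 + ‖u‖) * q u) := by
  have hm1 : Measurable fun v : Vel => ENNReal.ofReal (1 + ‖v‖) * p v :=
    (by fun_prop : Measurable fun v : Vel => 1 + ‖v‖).ennreal_ofReal.mul hp
  have hm2 : Measurable fun v : Vel => ENNReal.ofReal (1 + ‖v‖) * q v :=
    (by fun_prop : Measurable fun v : Vel => 1 + ‖v‖).ennreal_ofReal.mul hq
  rw [← lintegral_mul_const _ hm1, ← lintegral_const_mul _ (hm1.mul_const _)]
  refine lintegral_mono fun v => ?_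
  rw [← lintegral_const_mul _ hm2, ← lintegral_const_mul _ (hm2.const_mul _)]
  refine lintegral_mono fun u => ?_
  rw [mul_comm (surf univ), ← lintegral_const]
  refine lintegral_mono fun o => ?_
  have h : |rate v u o| ≤ (1 + ‖v‖) * (1 + ‖u‖) := by
    refine (abs_real_inner_le_norm _ _).trans ?_
    rw [norm_sph, mul_one]
    nlinarith [norm_sub_le v u, norm_nonneg v, norm_nonneg u, mul_nonneg (norm_nonneg v) (norm_nonneg u)]
  calc ENNReal.ofReal |rate v u o| * (p v * q u)
      ≤ ENNReal.ofReal ((1 + ‖v‖) * (1 + ‖u‖)) * (p v * q u) := by gcongr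
    _ = _ := by rw [ENNReal.ofReal_mul (by positivity)]; ring

lemma freq_le (hg : Measurable g) (v : Vel) :
    freq g v ≤ surf univ * ENNReal.ofReal (1 + ‖v‖) *
      ∫⁻ u, ENNReal.ofReal (1 + ‖u‖) * ENNReal.ofReal (g u) := by
  have hm : Measurable fun u : Vel => ENNReal.ofReal (1 + ‖u‖) * ENNReal.ofReal (g u) :=
    (by fun_prop : Measurable fun v : Vel => 1 + ‖v‖).ennreal_ofReal.mul hg.ennreal_ofReal
  rw [← lintegral_const_mul _ hm]
  refine lintegral_mono fun u => ?_
  rw [mul_comm (surf univ), mul_assoc, mul_comm (surf univ), ← mul_assoc, ← lintegral_const]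
  refine lintegral_mono fun o => ?_
  have h : |rate v u o| ≤ (1 + ‖v‖) * (1 + ‖u‖) := by
    refine (abs_real_inner_le_norm _ _).trans ?_
    rw [norm_sph, mul_one]
    nlinarith [norm_sub_le v u, norm_nonneg v, norm_nonneg u, mul_nonneg (norm_nonneg v) (norm_nonneg u)]
  calc ENNReal.ofReal |rate v u o| * ENNReal.ofReal (g u)
      ≤ ENNReal.ofReal ((1 + ‖v‖) * (1 + ‖u‖)) * ENNReal.ofReal (g u) := by gcongr
    _ = _ := by rw [ENNReal.ofReal_mul (by positivity : (0 : ℝ) ≤ 1 + ‖v‖)]; ring

section Joint

variable {α : Type*} [MeasurableSpace α] {A B : α → Vel → ℝ}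

lemma measurable_gain (hA : Measurable fun p : α × Vel => A p.1 p.2)
    (hB : Measurable fun p : α × Vel => B p.1 p.2) :
    Measurable fun p : α × Vel => gain (A p.1) (B p.1) p.2 := by
  have h : Measurable fun p : ((α × Vel) × Vel) × Sph =>
      ENNReal.ofReal |rate p.1.1.2 p.1.2 p.2| *
        ENNReal.ofReal (A p.1.1.1 (post p.1.1.2 p.1.2 p.2).1) *
        ENNReal.ofReal (B p.1.1.1 (post p.1.1.2 p.1.2 p.2).2) := by
    have hq : Measurable fun p : ((α × Vel) × Vel) × Sph => (p.1.1.2, p.1.2, p.2) := by fun_prop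
    exact ((continuous_rate.abs.measurable.comp hq).ennreal_ofReal.mul
      (hA.comp ((measurable_fst.comp (measurable_fst.comp measurable_fst)).prodMk
        (continuous_post.fst.measurable.comp hq))).ennreal_ofReal).mul
      (hB.comp ((measurable_fst.comp (measurable_fst.comp measurable_fst)).prodMk
        (continuous_post.snd.measurable.comp hq))).ennreal_ofReal
  exact h.lintegral_prod_right'.lintegral_prod_right'

lemma measurable_freq (hB : Measurable fun p : α × Vel => B p.1 p.2) :
    Measurable fun p : α × Vel => freq (B p.1) p.2 := by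
  have h : Measurable fun p : ((α × Vel) × Vel) × Sph =>
      ENNReal.ofReal |rate p.1.1.2 p.1.2 p.2| * ENNReal.ofReal (B p.1.1.1 p.1.2) := by
    have hq : Measurable fun p : ((α × Vel) × Vel) × Sph => (p.1.1.2, p.1.2, p.2) := by fun_prop
    exact (continuous_rate.abs.measurable.comp hq).ennreal_ofReal.mul
      (hB.comp ((measurable_fst.comp (measurable_fst.comp measurable_fst)).prodMk
        (measurable_snd.comp measurable_fst))).ennreal_ofReal
  exact h.lintegral_prod_right'.lintegral_prod_right'

end Joint

lemma gain_mono {f' g' : Vel → ℝ} (hf : ∀ v, f v ≤ f' v) (hg : ∀ v, g v ≤ g' v) (v : Vel) :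
    gain f g v ≤ gain f' g' v :=
  lintegral_mono fun _ => lintegral_mono fun _ =>
    mul_le_mul' (mul_le_mul' le_rfl (ENNReal.ofReal_le_ofReal (hf _))) (ENNReal.ofReal_le_ofReal (hg _))

end Vale.Agent.P140
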