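import Vale.Agent.P140.Rates

/-!
# P140: weak-strong uniqueness for hard spheres

Along the lines the positive part of `g - M β_δ(F/M)` is controlled by its slope; as `δ → 0` this
bounds the weighted mass of `(g - F)₊` by its own time integral against the third moment of `g`.
-/

noncomputable section

namespace Vale.Agent.P140

open MeasureTheory Set Filter
open scoped Topology ENNReal

variable {T δ : ℝ} {F₀ g₀ : Phase → ℝ} {F g : ℝ → Phase → ℝ} {φ : Vel → ℝ≥0∞}

/-- The slope of the difference at a point of the slab. -/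
def slopeAt (δ : ℝ) (F g : ℝ → Phase → ℝ) (p : ℝ × Phase) : ℝ :=
  slopeδ δ (prof F p) (prof g p) p.2.2

lemma measurable_slopeAt (hF : Measurable fun p : ℝ × Phase => F p.1 p.2)
    (hg : Measurable fun p : ℝ × Phase => g p.1 p.2) (δ : ℝ) : Measurable (slopeAt δ F g) := by
  have hd : Measurable fun p : ℝ × Phase => dampδ δ (F p.1 p.2) p.2.2 :=
    (measurable_const.add ((hF.div
      (continuous_stdMax.measurable.comp measurable_snd.snd)).const_mul δ)).inv
  exact measurable_posSlope.comp ((hg.sub (measurable_renδ hF δ)).prodMk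
    ((measurable_collisionAt hg).sub (hd.mul (measurable_collisionAt hF))))

/-- The gap `∫ φ (g - f_δ)₊` for a weight `φ`. -/
def gapδ (φ : Vel → ℝ≥0∞) (δ : ℝ) (F g : ℝ → Phase → ℝ) (t : ℝ) : ℝ≥0∞ :=
  ∫⁻ z, φ z.2 * ENNReal.ofReal (max (g t z - renδ δ (F t z) z.2) 0)

/-- The gap between the dominating rate and the slope. -/
def surplus (δ : ℝ) (F g : ℝ → Phase → ℝ) (p : ℝ × Phase) : ℝ≥0∞ :=
  ENNReal.ofReal ((domRate (prof F p) (prof g p) p.2.2).toReal - slopeAt δ F g p)

lemma measurable_domRate (hF : Measurable fun p : ℝ × Phase => F p.1 p.2)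
    (hg : Measurable fun p : ℝ × Phase => g p.1 p.2) :
    Measurable fun p : ℝ × Phase => domRate (prof F p) (prof g p) p.2.2 :=
  (measurable_gainPair hg hg).add (measurable_lossPair hg hF)

/-- The inequality along one line. -/
lemma line_le {t : ℝ} (ht : 0 ≤ t) {σ D J : ℝ → ℝ} {u₀ : ℝ}
    (hσ : IntegrableOn σ (Ioc 0 t)) (hD : IntegrableOn D (Ioc 0 t))
    (hJm : AEStronglyMeasurable J (volume.restrict (Ioc 0 t)))
    (hJ : ∀ᵐ s ∂volume.restrict (Ioc 0 t), J s = posSlope (u₀ + ∫ r in (0 : ℝ)..s, σ r) (σ s))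
    (hJD : ∀ᵐ s ∂volume.restrict (Ioc 0 t), 0 ≤ D s ∧ J s ≤ D s) :
    ENNReal.ofReal (max (u₀ + ∫ r in (0 : ℝ)..t, σ r) 0) +
        ∫⁻ s in Ioc 0 t, ENNReal.ofReal (D s - J s) ≤
      ENNReal.ofReal (max u₀ 0) + ∫⁻ s in Ioc 0 t, ENNReal.ofReal (D s) := by
  have hJi : IntegrableOn J (Ioc 0 t) := by
    refine hσ.norm.mono' hJm ?_
    filter_upwards [hJ] with s hs
    rw [hs, Real.norm_eq_abs, Real.norm_eq_abs]
    exact abs_posSlope_le _ _
  have key := posPart_primitive_le ht
    ((intervalIntegrable_iff_integrableOn_Ioc_of_le ht).2 hσ) u₀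
  have e : ∫ s in (0 : ℝ)..t, posSlope (u₀ + ∫ r in (0 : ℝ)..s, σ r) (σ s) = ∫ s in Ioc 0 t, J s := by
    rw [intervalIntegral.integral_of_le ht]
    exact integral_congr_ae (hJ.mono fun s hs => hs.symm)
  rw [e] at key
  have hdiff : IntegrableOn (fun s => D s - J s) (Ioc 0 t) := hD.sub hJi
  rw [← ofReal_integral_eq_lintegral_ofReal hdiff (hJD.mono fun s hs => sub_nonneg.2 hs.2),
    ← ofReal_integral_eq_lintegral_ofReal hD (hJD.mono fun s hs => hs.1),
    ← ENNReal.ofReal_add (le_max_right _ _) (integral_nonneg_of_ae (hJD.mono fun s hs => sub_nonneg.2 hs.2)),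
    ← ENNReal.ofReal_add (le_max_right _ _) (integral_nonneg_of_ae (hJD.mono fun s hs => hs.1)),
    integral_sub hD hJi]
  exact ENNReal.ofReal_le_ofReal (by linarith)

/-- **The renormalized inequality.** -/
lemma gapδ_le (hF : RenSolution F₀ F) (hg : StrongSolution T g₀ g) (hT : 0 < T) (hδ : 0 < δ)
    (hφ : Measurable φ) :
    ∀ᵐ t ∂volume.restrict (Ioc 0 T),
      gapδ φ δ F g t + ∫⁻ p, φ p.2.2 * surplus δ F g p ∂slab t ≤
        gapδ φ δ F g 0 + ∫⁻ p, φ p.2.2 * domRate (prof F p) (prof g p) p.2.2 ∂slab t := by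
  set μ := (volume : Measure ℝ).restrict (Ioc 0 T) with hμ
  have hflow := measurePreserving_flow μ
  set σ : ℝ → Phase → ℝ := fun s y => collision (prof g (s, shift s y)) y.2 -
    dampδ δ (F s (shift s y)) y.2 * collision (prof F (s, shift s y)) y.2 with hσ
  set u : ℝ → Phase → ℝ := fun s y => g s (shift s y) - renδ δ (F s (shift s y)) y.2 with hu
  have hσ1 : Integrable (fun p : ℝ × Phase => collision (prof g (p.1, shift p.1 p.2)) p.2.2)
      (μ.prod volume) := hflow.integrable_comp_of_integrable (integrable_collisionAt hg)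
  have hσ2 : Integrable (fun p : ℝ × Phase => dampδ δ (F p.1 (shift p.1 p.2)) p.2.2 *
      collision (prof F (p.1, shift p.1 p.2)) p.2.2) (μ.prod volume) :=
    hflow.integrable_comp_of_integrable (integrable_dampedAt hF hδ T)
  have hU : ∀ᵐ t ∂μ, ∀ᵐ y : Phase, u t y = u 0 y + ∫ s in (0 : ℝ)..t, σ s y := by
    filter_upwards [hF.mild hT hδ, ae_restrict_mem measurableSet_Ioc] with t ht htm
    filter_upwards [ht, hg.mild t (Ioc_subset_Icc_self htm), hσ1.prod_left_ae, hσ2.prod_left_ae]
      with y hy hgy hi1 hi2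
    have j1 : IntervalIntegrable (fun s => collision (prof g (s, shift s y)) y.2) volume 0 t :=
      (intervalIntegrable_iff_integrableOn_Ioc_of_le htm.1.le).2
        (IntegrableOn.mono_set (show IntegrableOn _ (Ioc 0 T) volume from hi1) (Ioc_subset_Ioc_right htm.2))
    have j2 : IntervalIntegrable (fun s => dampδ δ (F s (shift s y)) y.2 *
        collision (prof F (s, shift s y)) y.2) volume 0 t :=
      (intervalIntegrable_iff_integrableOn_Ioc_of_le htm.1.le).2
        (IntegrableOn.mono_set (show IntegrableOn _ (Ioc 0 T) volume from hi2) (Ioc_subset_Ioc_right htm.2))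
    simp only [hu, hσ, intervalIntegral.integral_sub j1 j2, shift_zero]
    rw [hy, hgy]
    simp only [prof]
    ring
  have hmu : Measurable fun p : ℝ × Phase => u p.1 p.2 :=
    (hg.measurable.sub (measurable_renδ hF.measurable δ)).comp hflow.measurable
  have hswap : ∀ᵐ y : Phase, ∀ᵐ s ∂μ, u s y = u 0 y + ∫ r in (0 : ℝ)..s, σ r y := by
    have hP := integrable_primitive (T := T) (b := σ) (hσ1.sub hσ2)
    have hu0 : Measurable fun p : ℝ × Phase => u 0 p.2 :=
      hmu.comp (f := fun p : ℝ × Phase => (0, p.2)) (by fun_prop)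
    set R : ℝ × Phase → ℝ≥0∞ := fun p => ‖u p.1 p.2 - (u 0 p.2 + ∫ r in (0 : ℝ)..p.1, σ r p.2)‖ₑ
    have hRm : AEMeasurable R (μ.prod volume) :=
      (hmu.aemeasurable.sub (hu0.aemeasurable.add hP.aemeasurable)).enorm
    have hR0 : R =ᵐ[μ.prod volume] 0 := by
      rw [← lintegral_eq_zero_iff' hRm, lintegral_prod _ hRm]
      refine (lintegral_congr_ae (hU.mono fun t ht => ?_)).trans lintegral_zero
      refine (lintegral_congr_ae (ht.mono fun y hy => ?_)).trans lintegral_zero
      simp [R, hy]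
    have := Measure.ae_ae_of_ae_prod (Measure.measurePreserving_swap.quasiMeasurePreserving.ae hR0)
    filter_upwards [this] with y hy
    filter_upwards [hy] with s hs
    simpa [R, sub_eq_zero] using hs
  have hdom : Measurable fun p : ℝ × Phase => domRate (prof F p) (prof g p) p.2.2 :=
    measurable_domRate hF.measurable hg.measurable
  have hdomi : Integrable (fun p : ℝ × Phase => (domRate (prof F p) (prof g p) p.2.2).toReal) (slab T) :=
    integrable_toReal_of_lintegral_ne_top hdom.aemeasurable (ne_top_of_le_ne_top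
      (lintegral_domRate_lt_top hF hg).ne
      (lintegral_mono fun p => le_mul_of_one_le_left zero_le (one_le_ew _)))
  have hdomf := hflow.integrable_comp_of_integrable (g := fun p : ℝ × Phase =>
    (domRate (prof F p) (prof g p) p.2.2).toReal) hdomi
  have hfin := Measure.ae_ae_of_ae_prod (Measure.measurePreserving_swap.quasiMeasurePreserving.ae
    (hflow.quasiMeasurePreserving.ae (finite_ae hF hg)))
  filter_upwards [hU, ae_restrict_mem measurableSet_Ioc] with t ht htm
  have hsub : (volume : Measure ℝ).restrict (Ioc 0 t) ≤ μ :=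
    Measure.restrict_mono (Ioc_subset_Ioc_right htm.2) le_rfl
  have hflowt := measurePreserving_flow ((volume : Measure ℝ).restrict (Ioc 0 t))
  have hsm : Measurable (surplus δ F g) :=
    (hdom.ennreal_toReal.sub (measurable_slopeAt hF.measurable hg.measurable δ)).ennreal_ofReal
  have hA : gapδ φ δ F g t = ∫⁻ y : Phase, φ y.2 * ENNReal.ofReal (max (u t y) 0) :=
    (lintegral_comp_shift t fun z : Phase =>
      φ z.2 * ENNReal.ofReal (max (g t z - renδ δ (F t z) z.2) 0)).symm
  have hA0 : gapδ φ δ F g 0 = ∫⁻ y : Phase, φ y.2 * ENNReal.ofReal (max (u 0 y) 0) := by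
    simp only [gapδ, hu, shift_zero]
  have htrans : ∀ Φ : ℝ × Phase → ℝ≥0∞, Measurable Φ → ∫⁻ p, φ p.2.2 * Φ p ∂slab t =
      ∫⁻ y : Phase, φ y.2 * ∫⁻ s in Ioc 0 t, Φ (s, shift s y) := by
    intro Φ hΦ
    have hm : Measurable fun p : ℝ × Phase => φ p.2.2 * Φ p := (hφ.comp measurable_snd.snd).mul hΦ
    have hm' : Measurable fun q : ℝ × Phase => φ q.2.2 * Φ (q.1, shift q.1 q.2) :=
      hm.comp hflowt.measurable
    rw [slab, ← hflowt.lintegral_comp hm]
    refine (lintegral_prod_symm' _ hm').trans ?_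
    refine lintegral_congr fun y => ?_
    rw [← lintegral_const_mul _ (f := fun s => Φ (s, shift s y))
      (hΦ.comp (hflowt.measurable.comp measurable_prodMk_right))]
  have hmy : ∀ s : ℝ, Measurable fun y : Phase => φ y.2 * ENNReal.ofReal (max (u s y) 0) := fun s =>
    (hφ.comp measurable_snd).mul
      ((hmu.comp measurable_prodMk_left).max measurable_const).ennreal_ofReal
  rw [hA, hA0, htrans _ hsm, htrans _ hdom, ← lintegral_add_left (hmy t), ← lintegral_add_left (hmy 0)]
  refine lintegral_mono_ae ?_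
  filter_upwards [ht, hswap, hσ1.prod_left_ae, hσ2.prod_left_ae, hdomf.prod_left_ae, hfin]
    with y hty hsy hi1 hi2 hi3 hy
  rw [← mul_add, ← mul_add]
  refine mul_le_mul' le_rfl ?_
  rw [hty]
  have hfy := ae_mono hsub hy
  have hJ : ∀ᵐ s ∂volume.restrict (Ioc 0 t), slopeAt δ F g (s, shift s y) =
      posSlope (u 0 y + ∫ r in (0 : ℝ)..s, σ r y) (σ s y) := by
    filter_upwards [ae_mono hsub hsy] with s hs
    rw [← hs]
    rfl
  have hJm : AEStronglyMeasurable (fun s => slopeAt δ F g (s, shift s y)) (volume.restrict (Ioc 0 t)) :=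
    ((measurable_slopeAt hF.measurable hg.measurable δ).comp
      (hflowt.measurable.comp (measurable_prodMk_right (y := y)))).aestronglyMeasurable
  refine le_trans (le_of_eq ?_) ((line_le htm.1.le (σ := fun s => σ s y)
    (D := fun s => (domRate (prof F (s, shift s y)) (prof g (s, shift s y)) y.2).toReal)
    ((hi1.sub hi2).mono_measure hsub) (hi3.mono_measure hsub) hJm hJ ?_).trans_eq ?_)
  · rfl
  · filter_upwards [hfy] with s hs
    exact ⟨ENNReal.toReal_nonneg, slopeδ_le hδ (fun v => hF.nonneg s _) hs⟩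
  · congr 1
    refine lintegral_congr_ae ?_
    filter_upwards [hfy] with s hs
    exact ENNReal.ofReal_toReal hs.dom

/-- The mass of the difference for a weight `φ`. -/
def gapW (φ : Vel → ℝ≥0∞) (A B : ℝ → Phase → ℝ) (t : ℝ) : ℝ≥0∞ :=
  ∫⁻ z, φ z.2 * ENNReal.ofReal (max (B t z - A t z) 0)

/-- The weighted mass of the difference. -/
def gap (A B : ℝ → Phase → ℝ) (t : ℝ) : ℝ≥0∞ :=
  ∫⁻ z, ew z.2 * ENNReal.ofReal (max (B t z - A t z) 0)

lemma gap_le_wtot (hF : RenSolution F₀ F) (hg : StrongSolution T g₀ g) (t : ℝ) :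
    gap F g t ≤ wtot g t := by
  refine lintegral_mono fun z => ?_
  rw [ew, ← ENNReal.ofReal_mul (weight_pos z.2).le]
  exact ENNReal.ofReal_le_ofReal (mul_le_mul_of_nonneg_left
    (max_le (by linarith [hF.nonneg t z]) (hg.nonneg t z)) (weight_pos z.2).le)

lemma wtot_init (hF : RenSolution F₀ F) (hg : StrongSolution T F₀ g) : wtot F 0 = wtot g 0 := by
  refine lintegral_congr_ae ?_
  filter_upwards [hF.init, hg.init] with z h1 h2
  rw [h1, h2]

lemma gap_swap_le (hF : RenSolution F₀ F) (hg : StrongSolution T F₀ g) {t : ℝ} (ht : t ∈ Icc 0 T) :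
    gap g F t ≤ gap F g t := by
  have h1 : wtot F t ≤ wtot g t :=
    ((hF.wtot_le ht.1).trans_eq (wtot_init hF hg)).trans_eq (hg.energy_eq t ht).symm
  have hfin : wtot g t ≠ ⊤ := by
    obtain ⟨C, hC⟩ := hg.energy_bound
    exact ne_top_of_le_ne_top ENNReal.ofReal_ne_top (hC t ht)
  have hm : ∀ {A : ℝ → Phase → ℝ}, (Measurable fun p : ℝ × Phase => A p.1 p.2) →
      Measurable fun z : Phase => ENNReal.ofReal (weight z.2 * A t z) := fun hA =>
    ((measurable_weight.comp measurable_snd).mul (measurable_apply hA t)).ennreal_ofReal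
  have e : wtot g t + gap g F t = wtot F t + gap F g t := by
    rw [wtot, gap, wtot, gap, ← lintegral_add_left (hm hg.measurable),
      ← lintegral_add_left (hm hF.measurable)]
    refine lintegral_congr fun z => ?_
    have hw := (weight_pos z.2).le
    rw [ew, ← ENNReal.ofReal_mul hw, ← ENNReal.ofReal_mul hw,
      ← ENNReal.ofReal_add (mul_nonneg hw (hg.nonneg t z)) (mul_nonneg hw (le_max_right _ _)),
      ← ENNReal.ofReal_add (mul_nonneg hw (hF.nonneg t z)) (mul_nonneg hw (le_max_right _ _)),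
      ← mul_add, ← mul_add]
    congr 2
    rcases le_total (g t z) (F t z) with h | h
    · rw [max_eq_left (sub_nonneg.2 h), max_eq_right (sub_nonpos.2 h)]; ring
    · rw [max_eq_right (sub_nonpos.2 h), max_eq_left (sub_nonneg.2 h)]; ring
  refine (ENNReal.add_le_add_iff_left hfin).1 ?_
  rw [e]
  exact add_le_add h1 le_rfl

lemma one_div_succ_pos (n : ℕ) : (0 : ℝ) < 1 / ((n : ℝ) + 1) := by positivity

lemma slab_mono {t T : ℝ} (h : t ≤ T) : slab t ≤ slab T := by
  rw [slab_eq, slab_eq]
  exact Measure.restrict_mono (prod_mono (Ioc_subset_Ioc_right h) subset_rfl) le_rfl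

/-- The dominating rate at a point of the slab. -/
def domAt (F g : ℝ → Phase → ℝ) (p : ℝ × Phase) : ℝ≥0∞ := domRate (prof F p) (prof g p) p.2.2

/-- The positive part of the limiting rate at a point of the slab. -/
def upAt (F g : ℝ → Phase → ℝ) (p : ℝ × Phase) : ℝ≥0∞ := upRate (prof F p) (prof g p) p.2.2

/-- The negative part of the limiting rate at a point of the slab. -/
def downAt (F g : ℝ → Phase → ℝ) (p : ℝ × Phase) : ℝ≥0∞ := downRate (prof F p) (prof g p) p.2.2

/-- The limit of the surplus. -/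
def limSurplus (F g : ℝ → Phase → ℝ) (p : ℝ × Phase) : ℝ≥0∞ :=
  liminf (fun n : ℕ => surplus (1 / ((n : ℝ) + 1)) F g p) atTop

lemma measurable_pos_sub {A B : ℝ → Phase → ℝ} (hA : Measurable fun p : ℝ × Phase => A p.1 p.2)
    (hB : Measurable fun p : ℝ × Phase => B p.1 p.2) :
    Measurable fun p : ℝ × Phase => max (B p.1 p.2 - A p.1 p.2) 0 :=
  (hB.sub hA).max measurable_const

lemma measurable_surplus (hF : Measurable fun p : ℝ × Phase => F p.1 p.2)
    (hg : Measurable fun p : ℝ × Phase => g p.1 p.2) (δ : ℝ) : Measurable (surplus δ F g) :=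
  ((measurable_domRate hF hg).ennreal_toReal.sub (measurable_slopeAt hF hg δ)).ennreal_ofReal

lemma measurable_limSurplus (hF : Measurable fun p : ℝ × Phase => F p.1 p.2)
    (hg : Measurable fun p : ℝ × Phase => g p.1 p.2) : Measurable (limSurplus F g) :=
  .liminf fun _ => measurable_surplus hF hg _

lemma measurable_upAt (hF : Measurable fun p : ℝ × Phase => F p.1 p.2)
    (hg : Measurable fun p : ℝ × Phase => g p.1 p.2) : Measurable (upAt F g) :=
  ((measurable_gainPair (A := fun s z => max (g s z - F s z) 0) (B := g) (measurable_pos_sub hF hg) hg).add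
    (measurable_gainPair (A := g) (B := fun s z => max (g s z - F s z) 0) hg
      (measurable_pos_sub hF hg))).add
    (measurable_lossPair (A := g) (B := fun s z => max (F s z - g s z) 0) hg (measurable_pos_sub hg hF))

lemma measurable_downAt (hF : Measurable fun p : ℝ × Phase => F p.1 p.2)
    (hg : Measurable fun p : ℝ × Phase => g p.1 p.2) : Measurable (downAt F g) :=
  measurable_lossPair (A := fun s z => max (g s z - F s z) 0) (B := g) (measurable_pos_sub hF hg) hg

lemma tendsto_gapδ (hF : RenSolution F₀ F) (hg : StrongSolution T g₀ g) (hφ : Measurable φ)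
    (hφw : ∀ v, φ v ≤ ew v) {s : ℝ} (hs : s ∈ Icc 0 T) :
    Tendsto (fun n : ℕ => gapδ φ (1 / ((n : ℝ) + 1)) F g s) atTop (𝓝 (gapW φ F g s)) := by
  obtain ⟨C, hC⟩ := hg.energy_bound
  refine tendsto_lintegral_of_dominated_convergence
    (fun z : Phase => ENNReal.ofReal (weight z.2 * g s z)) (fun n => ?_) (fun n => ?_)
    (ne_top_of_le_ne_top ENNReal.ofReal_ne_top (hC s hs)) (ae_of_all _ fun z => ?_)
  · exact (hφ.comp measurable_snd).mul
      (((measurable_apply hg.measurable s).sub
        ((measurable_renδ hF.measurable _).comp measurable_prodMk_left)).max measurable_const).ennreal_ofReal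
  · refine ae_of_all _ fun z => (mul_le_mul' (hφw z.2) le_rfl).trans ?_
    simp only [ew]
    rw [← ENNReal.ofReal_mul (weight_pos z.2).le]
    refine ENNReal.ofReal_le_ofReal (mul_le_mul_of_nonneg_left (max_le ?_ (hg.nonneg s z))
      (weight_pos z.2).le)
    linarith [renδ_nonneg (v := z.2) (one_div_succ_pos n) (hF.nonneg s z)]
  · exact ENNReal.Tendsto.const_mul ((ENNReal.continuous_ofReal.tendsto _).comp
      (((tendsto_renδ (v := z.2) (hF.nonneg s z)).const_sub (g s z)).max tendsto_const_nhds))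
      (Or.inr (ne_top_of_le_ne_top ENNReal.ofReal_ne_top (hφw z.2)))

lemma dom_add_down_le (hF : RenSolution F₀ F) (hg : StrongSolution T g₀ g) {t : ℝ} (ht : t ≤ T) :
    ∀ᵐ p ∂slab t, domAt F g p + downAt F g p ≤ limSurplus F g p + upAt F g p := by
  filter_upwards [ae_mono (slab_mono ht) (finite_ae hF hg)] with p hp
  have hfm := measurable_slice hF.measurable p.1 p.2.1
  have hgm := measurable_slice hg.measurable p.1 p.2.1
  obtain ⟨L, hL, hL'⟩ := exists_slope_limit (f := prof F p) (g := prof g p) hfm hgm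
    (fun v => hF.nonneg _ _) (fun v => hg.nonneg _ _) hp
  have hPp : limSurplus F g p = ENNReal.ofReal ((domAt F g p).toReal - L) :=
    ((ENNReal.continuous_ofReal.tendsto _).comp (hL.const_sub _)).liminf_eq
  have hUp : upAt F g p ≠ ⊤ := ne_top_of_le_ne_top
    (ENNReal.add_ne_top.2 ⟨ENNReal.add_ne_top.2 ⟨hp.gg, hp.gg⟩, hp.lgf⟩)
    (upRate_le (fun v => hF.nonneg _ _) (fun v => hg.nonneg _ _) _)
  have hDown : downAt F g p ≠ ⊤ := ne_top_of_le_ne_top hp.lg
    (downRate_le (fun v => hF.nonneg _ _) (fun v => hg.nonneg _ _) _)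
  rw [hPp, ← ENNReal.ofReal_toReal hUp, ← ENNReal.ofReal_toReal hDown,
    ← ENNReal.ofReal_toReal (show domAt F g p ≠ ⊤ from hp.dom),
    ← ENNReal.ofReal_add ENNReal.toReal_nonneg ENNReal.toReal_nonneg,
    ENNReal.toReal_ofReal ENNReal.toReal_nonneg]
  refine (ENNReal.ofReal_le_ofReal ?_).trans ENNReal.ofReal_add_le
  have : (downAt F g p).toReal + L ≤ (upAt F g p).toReal := by
    simp only [upAt, downAt]; linarith [hL']
  linarith

lemma lintegral_slab_dom_lt_top (hF : RenSolution F₀ F) (hg : StrongSolution T g₀ g) {t : ℝ}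
    (ht : t ≤ T) (hφw : ∀ v, φ v ≤ ew v) : ∫⁻ p, φ p.2.2 * domAt F g p ∂slab t ≠ ⊤ :=
  ne_top_of_le_ne_top (lintegral_domRate_lt_top hF hg).ne
    ((lintegral_mono' (slab_mono ht) le_rfl).trans
      (lintegral_mono fun p => mul_le_mul' (hφw _) le_rfl))

/-- The limit of the renormalized inequality, for data with `g ≤ F` at the time zero. -/
lemma gap_add_surplus_le (hF : RenSolution F₀ F) (hg : StrongSolution T g₀ g) (hT : 0 < T)
    (hle : g 0 ≤ᵐ[volume] F 0) (hφ : Measurable φ) (hφw : ∀ v, φ v ≤ ew v) :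
    ∀ᵐ t ∂volume.restrict (Ioc 0 T),
      gapW φ F g t + ∫⁻ p, φ p.2.2 * limSurplus F g p ∂slab t ≤
        ∫⁻ p, φ p.2.2 * domAt F g p ∂slab t := by
  filter_upwards [ae_all_iff.2 fun n : ℕ => gapδ_le hF hg hT (one_div_succ_pos n) hφ,
    ae_restrict_mem measurableSet_Ioc] with t ht htm
  set R := ∫⁻ p, φ p.2.2 * domAt F g p ∂slab t with hR
  have hRfin : R ≠ ⊤ := lintegral_slab_dom_lt_top hF hg htm.2 hφw
  have h0 : gapW φ F g 0 = 0 := by
    refine (lintegral_congr_ae ?_).trans lintegral_zero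
    filter_upwards [hle] with z hz
    simp [hz]
  have hA := tendsto_gapδ hF hg hφ hφw (Ioc_subset_Icc_self htm)
  have hA0 := (tendsto_gapδ hF hg hφ hφw (left_mem_Icc.2 hT.le)).add_const R
  rw [h0, zero_add] at hA0
  have hAle : gapW φ F g t ≤ R :=
    le_of_tendsto_of_tendsto hA hA0 (Eventually.of_forall fun n => le_self_add.trans (ht n))
  have hlim := ENNReal.Tendsto.sub hA0 hA (Or.inl hRfin)
  have hlow : ∫⁻ p, φ p.2.2 * limSurplus F g p ∂slab t ≤
      liminf (fun n : ℕ => ∫⁻ p, φ p.2.2 * surplus (1 / ((n : ℝ) + 1)) F g p ∂slab t) atTop := by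
    refine le_of_eq_of_le (lintegral_congr fun p => ?_)
      (lintegral_liminf_le fun n =>
        (hφ.comp measurable_snd.snd).mul (measurable_surplus hF.measurable hg.measurable _))
    exact Monotone.map_liminf_of_continuousAt (f := fun x => φ p.2.2 * x)
      (fun a b h => mul_le_mul' le_rfl h) (fun n : ℕ => surplus (1 / ((n : ℝ) + 1)) F g p)
      (ENNReal.continuous_const_mul (ne_top_of_le_ne_top ENNReal.ofReal_ne_top (hφw _))).continuousAt
  have hev : ∀ᶠ n : ℕ in atTop, ∫⁻ p, φ p.2.2 * surplus (1 / ((n : ℝ) + 1)) F g p ∂slab t ≤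
      gapδ φ (1 / ((n : ℝ) + 1)) F g 0 + R - gapδ φ (1 / ((n : ℝ) + 1)) F g t := by
    filter_upwards [hA.eventually (gt_mem_nhds (hAle.trans_lt hRfin.lt_top))] with n hn
    exact ENNReal.le_sub_of_add_le_left hn.ne (ht n)
  have h2 := hlow.trans ((liminf_le_liminf hev).trans_eq hlim.liminf_eq)
  calc gapW φ F g t + ∫⁻ p, φ p.2.2 * limSurplus F g p ∂slab t ≤
        gapW φ F g t + (R - gapW φ F g t) := add_le_add le_rfl h2
    _ = R := add_tsub_cancel_of_le hAle

/-- **The general inequality for the gap.** -/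
lemma gapW_le (hF : RenSolution F₀ F) (hg : StrongSolution T g₀ g) (hT : 0 < T)
    (hle : g 0 ≤ᵐ[volume] F 0) (hφ : Measurable φ) (hφw : ∀ v, φ v ≤ ew v) {B : ℝ → ℝ≥0∞}
    (hB : ∀ᵐ s ∂volume.restrict (Ioc 0 T), ∫⁻ z : Phase, φ z.2 * upAt F g (s, z) ≤
      (∫⁻ z : Phase, φ z.2 * downAt F g (s, z)) + B s) :
    ∀ᵐ t ∂volume.restrict (Ioc 0 T), gapW φ F g t ≤ ∫⁻ s in Ioc 0 t, B s := by
  filter_upwards [gap_add_surplus_le hF hg hT hle hφ hφw, ae_restrict_mem measurableSet_Ioc]
    with t ht htm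
  have hsub := slab_mono htm.2
  have hφ' : Measurable fun p : ℝ × Phase => φ p.2.2 := hφ.comp measurable_snd.snd
  have hmD : Measurable fun p : ℝ × Phase => φ p.2.2 * domAt F g p :=
    hφ'.mul (measurable_domRate hF.measurable hg.measurable)
  have hmP : Measurable fun p : ℝ × Phase => φ p.2.2 * limSurplus F g p :=
    hφ'.mul (measurable_limSurplus hF.measurable hg.measurable)
  have hmU : Measurable fun p : ℝ × Phase => φ p.2.2 * upAt F g p :=
    hφ'.mul (measurable_upAt hF.measurable hg.measurable)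
  have hmW : Measurable fun p : ℝ × Phase => φ p.2.2 * downAt F g p :=
    hφ'.mul (measurable_downAt hF.measurable hg.measurable)
  have hup : ∫⁻ p, φ p.2.2 * upAt F g p ∂slab t ≤
      (∫⁻ p, φ p.2.2 * downAt F g p ∂slab t) + ∫⁻ s in Ioc 0 t, B s := by
    rw [slab, lintegral_prod _ hmU.aemeasurable, lintegral_prod _ hmW.aemeasurable,
      ← lintegral_add_left hmW.lintegral_prod_right']
    exact lintegral_mono_ae (ae_mono (Measure.restrict_mono (Ioc_subset_Ioc_right htm.2) le_rfl) hB)
  have hfinD := lintegral_slab_dom_lt_top hF hg htm.2 hφw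
  have hfinDown : ∫⁻ p, φ p.2.2 * downAt F g p ∂slab t ≠ ⊤ := by
    refine ne_top_of_le_ne_top ((lintegral_slab_le (T := T) _).trans_lt hg.loss_lt_top).ne
      ((lintegral_mono' hsub le_rfl).trans (lintegral_mono fun p => mul_le_mul' (hφw _) ?_))
    exact downRate_le (fun v => hF.nonneg _ _) (fun v => hg.nonneg _ _) _
  refine (ENNReal.add_le_add_iff_right (ENNReal.add_ne_top.2 ⟨hfinD, hfinDown⟩)).1 ?_
  calc gapW φ F g t + (∫⁻ p, φ p.2.2 * domAt F g p ∂slab t + ∫⁻ p, φ p.2.2 * downAt F g p ∂slab t)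
      ≤ gapW φ F g t + (∫⁻ p, φ p.2.2 * limSurplus F g p ∂slab t +
          ∫⁻ p, φ p.2.2 * upAt F g p ∂slab t) := by
        refine add_le_add le_rfl ?_
        rw [← lintegral_add_left hmD, ← lintegral_add_left hmP]
        refine lintegral_mono_ae ((dom_add_down_le hF hg htm.2).mono fun p hp => ?_)
        rw [← mul_add, ← mul_add]
        exact mul_le_mul' le_rfl hp
    _ = gapW φ F g t + ∫⁻ p, φ p.2.2 * limSurplus F g p ∂slab t +
          ∫⁻ p, φ p.2.2 * upAt F g p ∂slab t := (add_assoc _ _ _).symm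
    _ ≤ _ := add_le_add ht hup
    _ = _ := by ring

/-- The weighted bound at one time. -/
lemma upAt_slice_le (hF : RenSolution F₀ F) (hg : StrongSolution T F₀ g) {s : ℝ} (hs : s ∈ Icc 0 T)
    {ks : ℝ≥0∞} (hks : ∀ᵐ x : Pos, moment3 (slice (g s) x) ≤ ks) :
    ∫⁻ z : Phase, ew z.2 * upAt F g (s, z) ≤
      (∫⁻ z : Phase, ew z.2 * downAt F g (s, z)) + 16 * surf univ * (ks * gap F g s) := by
  set R : Phase → ℝ≥0∞ := fun z => ew z.2 * ENNReal.ofReal (max (g s z - F s z) 0) +
    ew z.2 * ENNReal.ofReal (max (F s z - g s z) 0) with hR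
  have hwm : Measurable fun z : Phase => ew z.2 :=
    (measurable_weight.comp measurable_snd).ennreal_ofReal
  have hm1 : Measurable fun z : Phase => ew z.2 * ENNReal.ofReal (max (g s z - F s z) 0) :=
    hwm.mul (((measurable_apply hg.measurable s).sub (measurable_apply hF.measurable s)).max
      measurable_const).ennreal_ofReal
  have hm2 : Measurable fun z : Phase => ew z.2 * ENNReal.ofReal (max (F s z - g s z) 0) :=
    hwm.mul (((measurable_apply hF.measurable s).sub (measurable_apply hg.measurable s)).max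
      measurable_const).ennreal_ofReal
  have hRm : Measurable R := hm1.add hm2
  have hvel : ∀ᵐ x : Pos, ∫⁻ v, ew v * upAt F g (s, (x, v)) ≤
      (∫⁻ v, ew v * downAt F g (s, (x, v))) + 8 * surf univ * ks * ∫⁻ v, R (x, v) := by
    filter_upwards [hks] with x hx
    have hfm := measurable_slice hF.measurable s x
    have hgm := measurable_slice hg.measurable s x
    refine (weight_upRate_le hfm hgm).trans (add_le_add le_rfl ?_)
    refine mul_le_mul' (mul_le_mul' le_rfl hx) (le_of_eq ?_)
    simp only [hR]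
    have hm3 : Measurable fun v : Vel => ew v * ENNReal.ofReal (max (g s (x, v) - F s (x, v)) 0) :=
      hm1.comp (f := fun v : Vel => (x, v)) measurable_prodMk_left
    rw [lintegral_add_left hm3]
    simp only [wmass, ew, ENNReal.ofReal_mul (weight_pos _).le]
    rfl
  have hmU : Measurable fun z : Phase => ew z.2 * upAt F g (s, z) :=
    hwm.mul ((measurable_upAt hF.measurable hg.measurable).comp measurable_prodMk_left)
  have hmD : Measurable fun z : Phase => ew z.2 * downAt F g (s, z) :=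
    hwm.mul ((measurable_downAt hF.measurable hg.measurable).comp measurable_prodMk_left)
  have h1 : ∫⁻ z : Phase, ew z.2 * upAt F g (s, z) ≤
      (∫⁻ z : Phase, ew z.2 * downAt F g (s, z)) + 8 * surf univ * ks * ∫⁻ z, R z := by
    rw [Measure.volume_eq_prod, lintegral_prod _ hmU.aemeasurable, lintegral_prod _ hmD.aemeasurable,
      lintegral_prod _ hRm.aemeasurable, ← lintegral_const_mul _ hRm.lintegral_prod_right',
      ← lintegral_add_left hmD.lintegral_prod_right']
    exact lintegral_mono_ae hvel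
  refine h1.trans (add_le_add le_rfl ?_)
  have hz : ∫⁻ z, R z ≤ 2 * gap F g s := by
    simp only [hR]
    rw [lintegral_add_left hm1, two_mul]
    exact add_le_add le_rfl (gap_swap_le hF hg hs)
  refine (mul_le_mul' le_rfl hz).trans_eq ?_
  ring

/-- **The integral inequality for the gap.** -/
lemma gap_le_integral (hF : RenSolution F₀ F) (hg : StrongSolution T F₀ g) (hT : 0 < T)
    {k : ℝ → ℝ≥0∞}
    (hk' : ∀ᵐ t ∂volume.restrict (Ioc 0 T), ∀ᵐ x : Pos, moment3 (slice (g t) x) ≤ k t) :
    ∀ᵐ t ∂volume.restrict (Ioc 0 T),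
      gap F g t ≤ 16 * surf univ * ∫⁻ s in Ioc 0 t, k s * gap F g s := by
  have hle : g 0 ≤ᵐ[volume] F 0 := by
    filter_upwards [hF.init, hg.init] with z h1 h2
    rw [h1, h2]
  have hB : ∀ᵐ s ∂volume.restrict (Ioc 0 T), ∫⁻ z : Phase, ew z.2 * upAt F g (s, z) ≤
      (∫⁻ z : Phase, ew z.2 * downAt F g (s, z)) + 16 * surf univ * (k s * gap F g s) := by
    filter_upwards [hk', ae_restrict_mem measurableSet_Ioc] with s hs hsm
    exact upAt_slice_le hF hg (Ioc_subset_Icc_self hsm) hs
  filter_upwards [gapW_le hF hg hT hle measurable_weight.ennreal_ofReal (fun _ => le_rfl) hB]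
    with t ht
  rw [← lintegral_const_mul' _ _ (ENNReal.mul_ne_top (by norm_num) (measure_ne_top _ _))]
  exact ht

/-- **Weak-strong uniqueness.** -/
theorem weakStrong : WeakStrongOut := by
  intro T F₀ F g hF hg
  refine hg.eq_of_ae_time hF ?_
  rcases le_or_gt T 0 with hT | hT
  · simp [Ioc_eq_empty (not_lt.2 hT)]
  obtain ⟨k, hk, hkfin, hk'⟩ := hg.exists_moment
  obtain ⟨C, hC⟩ := hg.energy_bound
  set ν : Measure ℝ := ((volume : Measure ℝ).restrict (Ioc 0 T)).withDensity k with hν
  have : IsFiniteMeasure ν := isFiniteMeasure_withDensity hkfin.ne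
  have hac : ν ≪ (volume : Measure ℝ).restrict (Ioc 0 T) := withDensity_absolutelyContinuous _ _
  have : NullSingletonClass ν := ⟨fun x => hac (measure_singleton x)⟩
  have hgapm : Measurable (gap F g) :=
    Measurable.lintegral_prod_right' (f := fun p : ℝ × Phase =>
      ew p.2.2 * ENNReal.ofReal (max (g p.1 p.2 - F p.1 p.2) 0))
      (measurable_ew.mul ((hg.measurable.sub hF.measurable).max measurable_const).ennreal_ofReal)
  have hle : ∀ᵐ t ∂volume.restrict (Ioc 0 T),
      gap F g t ≤ 16 * surf univ * ∫⁻ s in Iic t, gap F g s ∂ν := by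
    filter_upwards [gap_le_integral hF hg hT hk', ae_restrict_mem measurableSet_Ioc] with t ht htm
    refine ht.trans_eq ?_
    rw [hν, setLIntegral_withDensity_eq_setLIntegral_mul _ hk hgapm measurableSet_Iic,
      Measure.restrict_restrict measurableSet_Iic]
    congr 1
    rw [show Iic t ∩ Ioc 0 T = Ioc 0 t by
      ext s; simp only [mem_inter_iff, mem_Iic, mem_Ioc]
      exact ⟨fun h => ⟨h.2.1, h.1⟩, fun h => ⟨h.2, h.1, h.2.trans htm.2⟩⟩]
    rfl
  have hbound : ∀ᵐ t ∂volume.restrict (Ioc 0 T), gap F g t ≤ ENNReal.ofReal C := by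
    filter_upwards [ae_restrict_mem measurableSet_Ioc] with t htm
    exact (gap_le_wtot hF hg t).trans (hC t (Ioc_subset_Icc_self htm))
  have hzero : ∫⁻ t, gap F g t ∂ν = 0 := by
    refine lintegral_eq_zero_of_le_lintegral_Iic (T := T) ?_ ?_
      (ENNReal.mul_ne_top (by norm_num) (measure_ne_top _ _)) (hac.ae_le hle)
    · refine hac ?_
      rw [Measure.restrict_apply measurableSet_Icc.compl]
      exact measure_mono_null (fun x hx => hx.1 (Ioc_subset_Icc_self hx.2)) measure_empty
    · refine ne_top_of_le_ne_top ?_ (lintegral_mono_ae (hac.ae_le hbound))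
      rw [lintegral_const]
      exact ENNReal.mul_ne_top ENNReal.ofReal_ne_top (measure_ne_top _ _)
  filter_upwards [hle, ae_restrict_mem measurableSet_Ioc] with t ht htm
  have hz : gap F g t = 0 := by
    refine le_antisymm (ht.trans ?_) zero_le
    rw [le_antisymm ((setLIntegral_le_lintegral _ _).trans hzero.le) zero_le, mul_zero]
  have hz' : gap g F t = 0 :=
    le_antisymm ((gap_swap_le hF hg (Ioc_subset_Icc_self htm)).trans hz.le) zero_le
  have hm : ∀ {A B : ℝ → Phase → ℝ}, (Measurable fun p : ℝ × Phase => A p.1 p.2) →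
      (Measurable fun p : ℝ × Phase => B p.1 p.2) → gap A B t = 0 → ∀ᵐ z, B t z ≤ A t z := by
    intro A B hA hB h0
    have hm : Measurable fun z : Phase => ew z.2 * ENNReal.ofReal (max (B t z - A t z) 0) :=
      ((measurable_weight.comp measurable_snd).ennreal_ofReal).mul
        (((measurable_apply hB t).sub (measurable_apply hA t)).max measurable_const).ennreal_ofReal
    filter_upwards [(lintegral_eq_zero_iff hm).1 h0] with z hz
    have h1 : ew z.2 ≠ 0 := (zero_lt_one.trans_le (one_le_ew z.2)).ne'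
    simp only [Pi.zero_apply, mul_eq_zero, h1, false_or, ENNReal.ofReal_eq_zero] at hz
    linarith [le_max_left (B t z - A t z) 0]
  filter_upwards [hm hF.measurable hg.measurable hz, hm hg.measurable hF.measurable hz'] with z h1 h2
  exact le_antisymm h2 h1

end Vale.Agent.P140
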