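import Vale.Agent.P140.HomConserve

/-!
# P140: homogeneous data with a fourth moment have a global strong solution
-/

noncomputable section

namespace Vale.Agent.P140.Homogeneous

open MeasureTheory Set
open scoped ENNReal

variable {F : Vel → ℝ≥0∞}

/-- Velocities at which the time integral of the shifted operator is infinite. -/
def bad (F : Vel → ℝ≥0∞) (T : ℝ) : Set Vel :=
  {v | ∫⁻ s in Icc 0 T, shifted (limit F s) v = ∞}

/-- The limit on `[0, T]`, off the null set `bad`. -/
def cut (F : Vel → ℝ≥0∞) (T t : ℝ) (v : Vel) : ℝ≥0∞ :=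
  (Icc 0 T ×ˢ (bad F T)ᶜ).indicator (fun p => limit F p.1 p.2) (t, v)

theorem measurable_shifted_lintegral (hF : Measurable F) (T : ℝ) :
    Measurable fun v => ∫⁻ s in Icc 0 T, shifted (limit F s) v :=
  Measurable.lintegral_prod_right' (f := fun q : Vel × ℝ => shifted (limit F q.2) q.1)
    ((measurable_shifted (measurable_limit hF)).comp (f := fun q : Vel × ℝ => (q.2, q.1))
      (by fun_prop))

theorem measurableSet_bad (hF : Measurable F) (T : ℝ) : MeasurableSet (bad F T) :=
  measurableSet_eq_fun (measurable_shifted_lintegral hF T) measurable_const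

theorem measurable_cut (hF : Measurable F) (T : ℝ) :
    Measurable fun p : ℝ × Vel => cut F T p.1 p.2 :=
  (measurable_limit hF).indicator (measurableSet_Icc.prod (measurableSet_bad hF T).compl)

theorem cut_le (F : Vel → ℝ≥0∞) (T t : ℝ) (v : Vel) : cut F T t v ≤ limit F t v :=
  indicator_le_self (Icc (0 : ℝ) T ×ˢ (bad F T)ᶜ) (fun p => limit F p.1 p.2) (t, v)

theorem shifted_lintegral_ne_top (hF : Measurable F) (h0 : mom 0 F ≠ ∞) (h1 : mom 1 F ≠ ∞)
    (h2 : mom 2 F ≠ ∞) (T : ℝ) :
    ∫⁻ v, ∫⁻ s in Icc 0 T, shifted (limit F s) v ≠ ∞ := by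
  have := mom_lintegral (g := fun s => shifted (limit F s))
    (measurable_shifted (measurable_limit hF)) (Icc 0 T) 0
  simp only [mom, pow_zero, one_mul] at this
  rw [this]
  refine setLIntegral_Icc_ne_top (C := cst * (mom 1 F * mom 0 F + mom 0 F * mom 1 F))
    (by simp [ENNReal.mul_eq_top, cst_ne_top, h0, h1]) fun s hs => ?_
  have e : ∫⁻ v, shifted (limit F s) v = mom 0 (shifted (limit F s)) := by simp [mom]
  rw [e, mom_shifted_zero (measurable_slice (measurable_limit hF) s)]
  have hb := limit_bounds hF h0 h1 h2 hs.1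
  exact mul_le_mul' le_rfl (add_le_add (mul_le_mul' hb.2.1 hb.1) (mul_le_mul' hb.1 hb.2.1))

theorem ae_not_bad (hF : Measurable F) (h0 : mom 0 F ≠ ∞) (h1 : mom 1 F ≠ ∞) (h2 : mom 2 F ≠ ∞)
    (T : ℝ) : ∀ᵐ v, v ∉ bad F T := by
  filter_upwards [ae_lt_top (measurable_shifted_lintegral hF T)
    (shifted_lintegral_ne_top hF h0 h1 h2 T)] with v hv
  exact hv.ne

theorem cut_eq (F : Vel → ℝ≥0∞) {T t : ℝ} (ht : t ∈ Icc 0 T) {v : Vel} (hv : v ∉ bad F T) :
    cut F T t v = limit F t v :=
  indicator_of_mem (mk_mem_prod ht hv) _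

theorem cut_ne_top (hF : Measurable F) (h0 : mom 0 F ≠ ∞) (h1 : mom 1 F ≠ ∞)
    (hfin : ∀ v, F v ≠ ∞) (T t : ℝ) (v : Vel) : cut F T t v ≠ ∞ := by
  by_cases h : (t, v) ∈ Icc (0 : ℝ) T ×ˢ (bad F T)ᶜ
  · rw [cut_eq F h.1 h.2]
    have e := step_add_lintegral hF h0 h1 (measurable_limit hF) h.1.1 v
    simp only [step_limit hF] at e
    exact ne_top_of_le_ne_top (ENNReal.add_ne_top.2 ⟨hfin v,
      ne_top_of_le_ne_top h.2 (lintegral_mono_set (Icc_subset_Icc_right h.1.2))⟩)
      (le_self_add.trans_eq e)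
  · simp [cut, indicator_of_notMem h]

theorem pair_congr_ae {h h' : Vel → ℝ≥0∞} (he : h =ᵐ[volume] h') (K : Vel → Vel → ℝ≥0∞) :
    pair K h = pair K h' := by
  refine lintegral_congr_ae ?_
  filter_upwards [he] with v hv
  refine lintegral_congr_ae ?_
  filter_upwards [he] with u hu
  rw [hv, hu]

/-- The equation for the cut limit, for almost every velocity. -/
theorem cut_equation (hF : Measurable F) (h0 : mom 0 F ≠ ∞) (h1 : mom 1 F ≠ ∞) (h2 : mom 2 F ≠ ∞)
    (hfin : ∀ v, F v ≠ ∞) {T t : ℝ} (ht : t ∈ Icc 0 T) :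
    ∀ᵐ v, (∫⁻ s in Icc 0 t, gainE (cut F T s) v ≠ ∞) ∧
      cut F T t v + ∫⁻ s in Icc 0 t, cut F T s v * freqE (cut F T s) v =
        F v + ∫⁻ s in Icc 0 t, gainE (cut F T s) v := by
  have hg := measurable_limit hF
  have hc := measurable_cut hF T
  have hae : ∀ s ∈ Icc (0 : ℝ) T, cut F T s =ᵐ[volume] limit F s := fun s hs => by
    filter_upwards [ae_not_bad hF h0 h1 h2 T] with v hv
    exact cut_eq F hs hv
  have hle : ∀ v, ∫⁻ s in Icc 0 t, gainE (cut F T s) v ≤ ∫⁻ s in Icc 0 t, gainE (limit F s) v :=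
    fun v => lintegral_mono fun s => gainE_mono (cut_le F T s) v
  have hgm : Measurable fun v => ∫⁻ s in Icc 0 t, gainE (limit F s) v :=
    Measurable.lintegral_prod_right' (f := fun q : Vel × ℝ => gainE (limit F q.2) q.1)
      ((measurable_gainE hg).comp (f := fun q : Vel × ℝ => (q.2, q.1)) (by fun_prop))
  have hgain : ∀ v, ∫⁻ s in Icc 0 t, gainE (limit F s) v ≤
      ∫⁻ s in Icc 0 T, shifted (limit F s) v := fun v =>
    (lintegral_mono_set (Icc_subset_Icc_right ht.2)).trans (lintegral_mono fun s => le_self_add)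
  have hmass : ∫⁻ v, ∫⁻ s in Icc 0 t, gainE (limit F s) v ≤
      ∫⁻ v, ∫⁻ s in Icc 0 t, gainE (cut F T s) v := by
    have e1 := mom_lintegral (g := fun s => gainE (limit F s)) (measurable_gainE hg) (Icc 0 t) 0
    have e2 := mom_lintegral (g := fun s => gainE (cut F T s)) (measurable_gainE hc) (Icc 0 t) 0
    simp only [mom, pow_zero, one_mul] at e1 e2
    rw [e1, e2]
    refine le_of_eq (setLIntegral_congr_fun measurableSet_Icc fun s hs => ?_)
    have a1 := mom_gainE_zero (measurable_slice hg s)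
    have a2 := mom_gainE_zero (measurable_slice hc s)
    simp only [mom, pow_zero, one_mul] at a1 a2
    rw [a1, a2, pair_congr_ae (hae s ⟨hs.1, hs.2.trans ht.2⟩)]
  have hX : (fun v => ∫⁻ s in Icc 0 t, gainE (cut F T s) v) =ᵐ[volume]
      fun v => ∫⁻ s in Icc 0 t, gainE (limit F s) v :=
    ae_eq_of_ae_le_of_lintegral_le (Filter.Eventually.of_forall hle)
      (ne_top_of_le_ne_top (shifted_lintegral_ne_top hF h0 h1 h2 T)
        (lintegral_mono fun v => (hle v).trans (hgain v)))
      hgm.aemeasurable hmass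
  filter_upwards [hX, ae_not_bad hF h0 h1 h2 T] with v hv hb
  refine ⟨ne_top_of_le_ne_top hb ((hle v).trans (hgain v)), ?_⟩
  have e : ∫⁻ s in Icc 0 t, cut F T s v * freqE (cut F T s) v =
      ∫⁻ s in Icc 0 t, limit F s v * freqE (limit F s) v := by
    refine setLIntegral_congr_fun measurableSet_Icc fun s hs => ?_
    have hs' : s ∈ Icc (0 : ℝ) T := ⟨hs.1, hs.2.trans ht.2⟩
    rw [cut_eq F hs' hb]
    congr 1
    refine lintegral_congr_ae ?_
    filter_upwards [hae s hs'] with u hu
    rw [hu]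
  rw [cut_eq F ht hb, e, hv, limit_equation hF h0 h1 h2 ht (hfin v) hb]

theorem lintegral_phase {φ : Vel → ℝ≥0∞} (hφ : Measurable φ) :
    ∫⁻ z : Phase, φ z.2 = ∫⁻ v, φ v := by
  rw [Measure.volume_eq_prod, lintegral_prod (fun z : Phase => φ z.2)
    (hφ.comp measurable_snd).aemeasurable]
  have h1 : (volume : Measure Pos) univ = 1 := by
    rw [volume_pi, Measure.pi_univ]
    simp [AddCircle.measure_univ]
  simp [h1]

end Vale.Agent.P140.Homogeneous

namespace Vale.Agent.P140

open MeasureTheory Set Homogeneous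
open scoped ENNReal

/-- The limit of the scheme, cut off on a null set, is a strong solution. -/
theorem strongSolution_cut {f : Vel → ℝ} (hf : Measurable f) (hf0 : ∀ v, 0 ≤ f v)
    (h2 : mom 2 (fun v => ENNReal.ofReal (f v)) ≠ ∞) {T : ℝ} (hT : 0 < T) :
    StrongSolution T (fun z => f z.2)
      (fun t z => (cut (fun v => ENNReal.ofReal (f v)) T t z.2).toReal) := by
  set F : Vel → ℝ≥0∞ := fun v => ENNReal.ofReal (f v) with hFdef
  have hF : Measurable F := hf.ennreal_ofReal
  have hfin : ∀ v, F v ≠ ∞ := fun v => ENNReal.ofReal_ne_top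
  have h1 : mom 1 F ≠ ∞ := ne_top_of_le_ne_top h2 (mom_le_succ 1 F)
  have h0 : mom 0 F ≠ ∞ := ne_top_of_le_ne_top h1 (mom_le_succ 0 F)
  have hg := measurable_cut hF T
  set g : ℝ → Vel → ℝ := fun t v => (cut F T t v).toReal with hgdef
  have hgm : Measurable fun p : ℝ × Vel => g p.1 p.2 := hg.ennreal_toReal
  have hof : ∀ t v, ENNReal.ofReal (g t v) = cut F T t v := fun t v =>
    ENNReal.ofReal_toReal (cut_ne_top hF h0 h1 hfin T t v)
  have hgain : ∀ t v, gain (g t) (g t) v = gainE (cut F T t) v := fun t v => by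
    simp only [gain, gainE, ker, hof]
  have hloss : ∀ t v, loss (g t) (g t) v = cut F T t v * freqE (cut F T t) v := fun t v => by
    rw [loss, hof]
    congr 1
    refine lintegral_congr fun u => ?_
    have hk : Measurable fun o => ker v u o :=
      measurable_ker.comp (f := fun o : Sph => (v, u, o)) (by fun_prop)
    simp only [bker, hof]
    rw [← lintegral_mul_const _ hk]
    rfl
  have hbound : ∀ t ∈ Icc 0 T, ∀ k, mom k (cut F T t) ≤ mom k (limit F t) := fun t _ k =>
    mom_mono k (cut_le F T t)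
  show StrongSolution T (fun z => f z.2) (fun t z => g t z.2)
  refine ⟨?_, fun t z => ENNReal.toReal_nonneg, ?_, ?_, ?_, ?_⟩
  · exact hgm.comp (f := fun p : ℝ × Phase => (p.1, p.2.2)) (by fun_prop)
  · have h := cut_equation hF h0 h1 h2 hfin (T := T) (t := 0) ⟨le_rfl, hT.le⟩
    have hz : ∀ φ : ℝ → ℝ≥0∞, ∫⁻ s in Icc (0 : ℝ) 0, φ s = 0 := fun φ =>
      setLIntegral_measure_zero _ _ (by simp)
    filter_upwards [(Measure.quasiMeasurePreserving_snd (μ := (volume : Measure Pos))).ae h]
      with z hzv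
    rw [hz, hz, add_zero, add_zero] at hzv
    show (cut F T 0 z.2).toReal = f z.2
    rw [hzv.2]
    exact ENNReal.toReal_ofReal (hf0 _)
  · refine ⟨(mom 1 F).toReal, fun t ht => ?_⟩
    have hm : Measurable fun v => ENNReal.ofReal (weight v * g t v) :=
      (measurable_weight.mul (hgm.comp (f := fun v : Vel => (t, v)) (by fun_prop))).ennreal_ofReal
    rw [lintegral_phase hm, ENNReal.ofReal_toReal h1]
    refine le_of_eq_of_le ?_ ((hbound t ht 1).trans (limit_bounds hF h0 h1 h2 ht.1).2.1)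
    refine lintegral_congr fun v => ?_
    rw [ENNReal.ofReal_mul (weight_pos v).le, hof, pow_one, wt]
  · refine ⟨fun _ => (2 * bound F T).toReal, integrableOn_const measure_Icc_lt_top.ne,
      Filter.Eventually.of_forall fun t ht => Filter.Eventually.of_forall fun x => ?_⟩
    rw [ENNReal.ofReal_toReal (ENNReal.mul_ne_top (by norm_num) (bound_ne_top h2 T))]
    have hb : mom 2 (cut F T t) ≤ bound F T :=
      (hbound t ht 2).trans ((limit_bounds hF h0 h1 h2 ht.1).2.2.trans (bound_mono ht.2))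
    refine le_trans ?_ (mul_le_mul' le_rfl hb)
    rw [mom, ← lintegral_const_mul' _ _ (by norm_num)]
    refine lintegral_mono fun v => ?_
    rw [wt, ← hof, ← ENNReal.ofReal_pow (weight_pos v).le,
      ← ENNReal.ofReal_mul (sq_nonneg _)]
    refine le_trans ?_ (le_of_eq ((ENNReal.ofReal_mul zero_le_two).trans
      (congrArg (· * _) (ENNReal.ofReal_ofNat 2))))
    rw [← mul_assoc]
    refine ENNReal.ofReal_le_ofReal (mul_le_mul_of_nonneg_right ?_ ENNReal.toReal_nonneg)
    unfold weight
    nlinarith [norm_nonneg v, sq_nonneg (‖v‖ - 1), sq_nonneg (‖v‖ ^ 2 - ‖v‖), sq_nonneg (‖v‖ ^ 2)]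
  · intro t ht
    have h := cut_equation hF h0 h1 h2 hfin (T := T) ht
    have hi := cut_equation hF h0 h1 h2 hfin (T := T) (t := 0) ⟨le_rfl, hT.le⟩
    have hz : ∀ φ : ℝ → ℝ≥0∞, ∫⁻ s in Icc (0 : ℝ) 0, φ s = 0 := fun φ =>
      setLIntegral_measure_zero _ _ (by simp)
    filter_upwards [(Measure.quasiMeasurePreserving_snd (μ := (volume : Measure Pos))).ae h,
      (Measure.quasiMeasurePreserving_snd (μ := (volume : Measure Pos))).ae hi] with z hzv hz0
    obtain ⟨hA, hE⟩ := hzv
    rw [hz, hz, add_zero, add_zero] at hz0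
    set v := z.2 with hv
    set A := ∫⁻ s in Icc 0 t, gainE (cut F T s) v with hAdef
    set B := ∫⁻ s in Icc 0 t, cut F T s v * freqE (cut F T s) v with hBdef
    have hB : B ≠ ∞ := ne_top_of_le_ne_top (ENNReal.add_ne_top.2 ⟨hfin v, hA⟩)
      (le_add_self.trans_eq hE)
    have m1 : Measurable fun s => gainE (cut F T s) v :=
      (measurable_gainE hg).comp (f := fun s : ℝ => (s, v)) (by fun_prop)
    have m2 : Measurable fun s => cut F T s v * freqE (cut F T s) v :=
      (hg.comp (f := fun s : ℝ => (s, v)) (by fun_prop)).mul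
        ((measurable_freqE hg).comp (f := fun s : ℝ => (s, v)) (by fun_prop))
    have eC : ∀ s, collision (g s) v =
        (gainE (cut F T s) v).toReal - (cut F T s v * freqE (cut F T s) v).toReal := fun s => by
      rw [collision, hgain, hloss]
    show (cut F T t v).toReal = (cut F T 0 v).toReal + ∫ s in (0 : ℝ)..t, collision (g s) v
    simp only [eC]
    rw [intervalIntegral.integral_of_le ht.1, ← integral_Icc_eq_integral_Ioc,
      integral_sub (integrable_toReal_of_lintegral_ne_top m1.aemeasurable hA)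
        (integrable_toReal_of_lintegral_ne_top m2.aemeasurable hB),
      integral_toReal m1.aemeasurable (ae_lt_top m1 hA),
      integral_toReal m2.aemeasurable (ae_lt_top m2 hB), hz0.2, ← hAdef, ← hBdef]
    have hr := congrArg ENNReal.toReal hE
    rw [ENNReal.toReal_add (cut_ne_top hF h0 h1 hfin T t v) hB,
      ENNReal.toReal_add (hfin v) hA] at hr
    linarith

/-- Homogeneous data with a fourth moment have a global homogeneous strong solution. -/
theorem homogeneousOut : HomogeneousOut := by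
  intro f hf hf0 hint T hT
  set F : Vel → ℝ≥0∞ := fun v => ENNReal.ofReal (f v) with hFdef
  have h2 : mom 2 F ≠ ∞ := by
    refine ne_top_of_le_ne_top (hint.const_mul 2).lintegral_lt_top.ne (lintegral_mono fun v => ?_)
    rw [wt, hFdef, ← ENNReal.ofReal_pow (weight_pos v).le, ← ENNReal.ofReal_mul (sq_nonneg _)]
    refine ENNReal.ofReal_le_ofReal ?_
    rw [← mul_assoc]
    refine mul_le_mul_of_nonneg_right ?_ (hf0 v)
    unfold weight
    nlinarith [sq_nonneg (‖v‖ ^ 2 - 1)]
  exact ⟨fun t v => (cut F T t v).toReal, strongSolution_cut hf hf0 h2 hT⟩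

end Vale.Agent.P140
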