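import Vale.Agent.P140.Local
import Vale.Agent.P140.Homogeneous

/-!
# P140: uniqueness from the comparison with a strong solution

Renormalized solutions with a datum below a Maxwellian agree for a short time, and those with a
homogeneous datum with a fourth moment agree for all times.
-/

noncomputable section

namespace Vale.Agent.P140

open MeasureTheory Set

/-- A renormalized solution depends on its datum only up to null sets. -/
theorem RenSolution.congr {F₀ F₁ : Phase → ℝ} {F : ℝ → Phase → ℝ} (h : RenSolution F₀ F)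
    (he : F₀ =ᵐ[volume] F₁) : RenSolution F₁ F where
  measurable := h.measurable
  nonneg := h.nonneg
  init := h.init.trans he
  wcont := h.wcont
  bounded := h.bounded
  gain_int := h.gain_int
  loss_int := h.loss_int
  renorm β hβ φ hφ := by
    have e : ∫ z : Phase, stdMax z.2 * β (F₁ z / stdMax z.2) * φ 0 (lift z.1) z.2 =
        ∫ z : Phase, stdMax z.2 * β (F₀ z / stdMax z.2) * φ 0 (lift z.1) z.2 :=
      integral_congr_ae (by filter_upwards [he] with z hz; rw [hz])
    rw [e]
    exact h.renorm β hβ φ hφ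
  mass t ht := (h.mass t ht).trans (integral_congr_ae he)
  energy t ht := (h.energy t ht).trans_eq
    (integral_congr_ae (by filter_upwards [he] with z hz; rw [hz]))

/-- Two renormalized solutions with a datum below a Maxwellian agree for a short time. -/
theorem unique_local (hws : WeakStrongOut) : ∀ C a : ℝ, 0 < a → ∃ T : ℝ, 0 < T ∧
    ∀ f₀ : Phase → ℝ, (∀ᵐ z, f₀ z ≤ C * Real.exp (-(a * ‖z.2‖ ^ 2))) →
      ∀ F G, RenSolution f₀ F → RenSolution f₀ G → ∀ t ∈ Icc 0 T, F t =ᵐ[volume] G t := by
  intro C a ha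
  obtain ⟨T, hT, hg⟩ := localOut (max C 0) a ha
  refine ⟨T, hT, fun f₀ hb F G hF hG t ht => ?_⟩
  set f₁ : Phase → ℝ := fun z => min (F 0 z) (max C 0 * Real.exp (-(a * ‖z.2‖ ^ 2))) with hf₁
  have hm : Measurable f₁ :=
    (hF.measurable.comp measurable_prodMk_left).min (by fun_prop)
  have h0 : ∀ z, 0 ≤ f₁ z ∧ f₁ z ≤ max C 0 * Real.exp (-(a * ‖z.2‖ ^ 2)) := fun z =>
    ⟨le_min (hF.nonneg 0 z) (mul_nonneg (le_max_right _ _) (Real.exp_pos _).le), min_le_right _ _⟩
  have he : f₀ =ᵐ[volume] f₁ := by
    filter_upwards [hF.init, hb] with z hz hz'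
    simp only [hf₁, hz]
    exact (min_eq_left (hz'.trans (mul_le_mul_of_nonneg_right (le_max_left _ _)
      (Real.exp_pos _).le))).symm
  obtain ⟨g, hgs⟩ := hg f₁ hm h0
  exact (hws T f₁ F g (hF.congr he) hgs t ht).trans (hws T f₁ G g (hG.congr he) hgs t ht).symm

/-- Two renormalized solutions with a homogeneous datum with a fourth moment agree for all
times. -/
theorem unique_homogeneous (hws : WeakStrongOut) : ∀ f : Vel → ℝ,
    Integrable (fun v => (1 + ‖v‖ ^ 4) * f v) → ∀ F G, RenSolution (fun z => f z.2) F →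
      RenSolution (fun z => f z.2) G → ∀ t, 0 ≤ t → F t =ᵐ[volume] G t := by
  intro f hint F G hF hG t ht
  have hfm : AEStronglyMeasurable f volume := by
    have hd : AEStronglyMeasurable (fun v : Vel => (1 + ‖v‖ ^ 4)⁻¹) volume :=
      (Continuous.inv₀ (by fun_prop) fun v => by positivity).aestronglyMeasurable
    refine (hd.mul hint.1).congr (ae_of_all _ fun v => ?_)
    simp only [Pi.mul_apply]
    rw [← mul_assoc, inv_mul_cancel₀ (by positivity), one_mul]
  set f₁ : Vel → ℝ := fun v => max (hfm.mk f v) 0 with hf₁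
  have hm : Measurable f₁ := hfm.stronglyMeasurable_mk.measurable.max measurable_const
  have hint₁ : Integrable fun v => (1 + ‖v‖ ^ 4) * f₁ v := by
    refine hint.mono ((Continuous.aestronglyMeasurable (by fun_prop)).mul hm.aestronglyMeasurable) ?_
    filter_upwards [hfm.ae_eq_mk] with v hv
    simp only [Pi.mul_apply, hf₁, ← hv, norm_mul]
    refine mul_le_mul_of_nonneg_left ?_ (norm_nonneg _)
    rw [Real.norm_eq_abs, Real.norm_eq_abs, abs_of_nonneg (le_max_right _ _)]
    exact max_le (le_abs_self _) (abs_nonneg _)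
  have he : (fun z : Phase => f z.2) =ᵐ[volume] fun z => f₁ z.2 := by
    filter_upwards [hF.init,
      (Measure.quasiMeasurePreserving_snd (μ := (volume : Measure Pos))).ae hfm.ae_eq_mk] with z hz hz'
    have h0 : 0 ≤ f z.2 := hz ▸ hF.nonneg 0 z
    simp only [hf₁, ← hz', max_eq_left h0]
  obtain ⟨g, hgs⟩ := homogeneousOut f₁ hm (fun v => le_max_right _ _) hint₁ (t + 1) (by linarith)
  have htI : t ∈ Icc 0 (t + 1) := ⟨ht, by linarith⟩
  exact (hws _ _ F _ (hF.congr he) hgs t htI).trans (hws _ _ G _ (hG.congr he) hgs t htI).symm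

end Vale.Agent.P140
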