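import Mathlib

/-!
# P140: the hard-sphere Boltzmann equation on the torus

The collision integrals, renormalized solutions (the hypotheses that are used: the renormalized
equation, constant mass, energy at most the initial one) and strong solutions with a third velocity
moment bounded in the position.
-/

noncomputable section

namespace Vale.Agent.P140

open MeasureTheory Set
open scoped ENNReal InnerProductSpace ContDiff

/-- The velocity space. -/
abbrev Vel : Type := EuclideanSpace ℝ (Fin 3)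

/-- The torus. -/
abbrev Pos : Type := Fin 3 → UnitAddCircle

/-- The phase space. -/
abbrev Phase : Type := Pos × Vel

/-- The unit sphere. -/
abbrev Sph : Type := Metric.sphere (0 : Vel) 1

/-- The surface measure of the sphere. -/
def surf : Measure Sph := (volume : Measure Vel).toSphere

/-- `a = (v - u) · ω`. -/
def rate (v u : Vel) (o : Sph) : ℝ := ⟪v - u, (o : Vel)⟫_ℝ

/-- The velocities `v' = v - a ω`, `u' = u + a ω` after a collision. -/
def post (v u : Vel) (o : Sph) : Vel × Vel :=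
  (v - rate v u o • (o : Vel), u + rate v u o • (o : Vel))

/-- `∫ |a| f(v') g(u') du dω`. -/
def gain (f g : Vel → ℝ) (v : Vel) : ℝ≥0∞ :=
  ∫⁻ u, ∫⁻ o, ENNReal.ofReal |rate v u o| * ENNReal.ofReal (f (post v u o).1) *
    ENNReal.ofReal (g (post v u o).2) ∂surf

/-- `∫ |a| g(u) du dω`, the collision frequency. -/
def freq (g : Vel → ℝ) (v : Vel) : ℝ≥0∞ :=
  ∫⁻ u, ∫⁻ o, ENNReal.ofReal |rate v u o| * ENNReal.ofReal (g u) ∂surf

/-- `f(v) ∫ |a| g(u) du dω`. -/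
def loss (f g : Vel → ℝ) (v : Vel) : ℝ≥0∞ := ENNReal.ofReal (f v) * freq g v

/-- `Q(f, f)`; its two parts are finite almost everywhere wherever it is used. -/
def collision (f : Vel → ℝ) (v : Vel) : ℝ := (gain f f v).toReal - (loss f f v).toReal

/-- The velocity profile at a position. -/
def slice (f : Phase → ℝ) (x : Pos) : Vel → ℝ := fun v => f (x, v)

/-- `1 + |v|²`. -/
def weight (v : Vel) : ℝ := 1 + ‖v‖ ^ 2

/-- The standard Maxwellian. -/
def stdMax (v : Vel) : ℝ := ((2 * Real.pi) ^ (3 / 2 : ℝ))⁻¹ * Real.exp (-(‖v‖ ^ 2 / 2))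

/-- Free transport for the time `s`. -/
def shift (s : ℝ) (z : Phase) : Phase :=
  (fun i => z.1 i + ((s * z.2 i : ℝ) : UnitAddCircle), z.2)

/-- The representative in `[0, 1)³`. -/
def lift (x : Pos) : Vel := WithLp.toLp 2 fun i => (AddCircle.equivIco (1 : ℝ) 0 (x i) : ℝ)

/-- A test function: smooth, periodic in the position, vanishing for large `|t|` or `|v|`. -/
def IsTest (φ : ℝ → Vel → Vel → ℝ) : Prop :=
  ContDiff ℝ ∞ (fun p : ℝ × Vel × Vel => φ p.1 p.2.1 p.2.2) ∧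
    (∀ t x v i, φ t (x + EuclideanSpace.single i 1) v = φ t x v) ∧
    ∃ R : ℝ, ∀ t x v, R < |t| ∨ R < ‖v‖ → φ t x v = 0

/-- `(∂_t + v · ∇_x) φ`. -/
def transport (φ : ℝ → Vel → Vel → ℝ) (t : ℝ) (x v : Vel) : ℝ :=
  deriv (fun s => φ (t + s) (x + s • v) v) 0

/-- A renormalization: of class `C¹` on `[0, ∞)`, zero at zero, `|β'(r)| ≤ C / (1 + r)`. -/
def IsRenorm (β : ℝ → ℝ) : Prop :=
  ContDiffOn ℝ 1 β (Ici 0) ∧ β 0 = 0 ∧
    ∃ C : ℝ, ∀ r, 0 ≤ r → |derivWithin β (Ici 0) r| ≤ C / (1 + r)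

/-- The equation `(∂_t + v · ∇_x)(M β(F/M)) = β'(F/M) Q(F, F)` in distributions, with datum `F₀`. -/
def RenEquation (F₀ : Phase → ℝ) (F : ℝ → Phase → ℝ) (β : ℝ → ℝ) : Prop :=
  ∀ φ, IsTest φ →
    (∫ p in Ioi (0 : ℝ) ×ˢ (univ : Set Phase),
        stdMax p.2.2 * β (F p.1 p.2 / stdMax p.2.2) * transport φ p.1 (lift p.2.1) p.2.2 +
          derivWithin β (Ici 0) (F p.1 p.2 / stdMax p.2.2) * collision (slice (F p.1) p.2.1) p.2.2 *
            φ p.1 (lift p.2.1) p.2.2) +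
      ∫ z : Phase, stdMax z.2 * β (F₀ z / stdMax z.2) * φ 0 (lift z.1) z.2 = 0

/-- The properties of a renormalized entropy solution which are used. -/
structure RenSolution (F₀ : Phase → ℝ) (F : ℝ → Phase → ℝ) : Prop where
  measurable : Measurable fun p : ℝ × Phase => F p.1 p.2
  nonneg : ∀ t z, 0 ≤ F t z
  init : F 0 =ᵐ[volume] F₀
  wcont : ∀ χ : Phase → ℝ, Measurable χ → (∃ C, ∀ z, |χ z| ≤ C) →
    ContinuousOn (fun t => ∫ z, χ z * F t z) (Ici 0)
  bounded : ∀ T : ℝ, ∃ C : ℝ, ∀ t ∈ Icc 0 T,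
    Integrable (fun z => weight z.2 * F t z) ∧ ∫ z, weight z.2 * F t z ≤ C
  gain_int : ∀ T : ℝ, ∫⁻ p in Icc (0 : ℝ) T ×ˢ (univ : Set Phase),
    gain (slice (F p.1) p.2.1) (slice (F p.1) p.2.1) p.2.2 /
      ENNReal.ofReal (1 + F p.1 p.2 / stdMax p.2.2) < ⊤
  loss_int : ∀ T : ℝ, ∫⁻ p in Icc (0 : ℝ) T ×ˢ (univ : Set Phase),
    loss (slice (F p.1) p.2.1) (slice (F p.1) p.2.1) p.2.2 /
      ENNReal.ofReal (1 + F p.1 p.2 / stdMax p.2.2) < ⊤
  renorm : ∀ β, IsRenorm β → RenEquation F₀ F β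
  mass : ∀ t, 0 ≤ t → ∫ z, F t z = ∫ z, F₀ z
  energy : ∀ t, 0 ≤ t → ∫ z, ‖z.2‖ ^ 2 * F t z ≤ ∫ z, ‖z.2‖ ^ 2 * F₀ z

/-- A strong solution on `[0, T]`: mild, of bounded mass and energy, with a third velocity moment
bounded in the position by an integrable function of time. -/
structure StrongSolution (T : ℝ) (g₀ : Phase → ℝ) (g : ℝ → Phase → ℝ) : Prop where
  measurable : Measurable fun p : ℝ × Phase => g p.1 p.2
  nonneg : ∀ t z, 0 ≤ g t z
  init : g 0 =ᵐ[volume] g₀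
  energy_bound : ∃ C : ℝ, ∀ t ∈ Icc 0 T, ∫⁻ z, ENNReal.ofReal (weight z.2 * g t z) ≤ ENNReal.ofReal C
  moment : ∃ k : ℝ → ℝ, IntegrableOn k (Icc 0 T) ∧ ∀ᵐ t : ℝ, t ∈ Icc 0 T →
    ∀ᵐ x : Pos, ∫⁻ v, ENNReal.ofReal ((1 + ‖v‖ ^ 3) * g t (x, v)) ≤ ENNReal.ofReal (k t)
  mild : ∀ t ∈ Icc 0 T, ∀ᵐ z : Phase,
    g t (shift t z) = g 0 z + ∫ s in (0 : ℝ)..t, collision (slice (g s) (shift s z).1) z.2

/-- Uniqueness against a strong solution. -/
def WeakStrongOut : Prop :=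
  ∀ (T : ℝ) (F₀ : Phase → ℝ) (F g : ℝ → Phase → ℝ), RenSolution F₀ F → StrongSolution T F₀ g →
    ∀ t ∈ Icc 0 T, F t =ᵐ[volume] g t

/-- Data below a Maxwellian have a strong solution for a short time. -/
def LocalOut : Prop :=
  ∀ C a : ℝ, 0 < a → ∃ T : ℝ, 0 < T ∧ ∀ f₀ : Phase → ℝ, Measurable f₀ →
    (∀ z, 0 ≤ f₀ z ∧ f₀ z ≤ C * Real.exp (-(a * ‖z.2‖ ^ 2))) →
    ∃ g, StrongSolution T f₀ g

/-- Homogeneous data with a fourth moment have a global homogeneous strong solution. -/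
def HomogeneousOut : Prop :=
  ∀ f : Vel → ℝ, Measurable f → (∀ v, 0 ≤ f v) → Integrable (fun v => (1 + ‖v‖ ^ 4) * f v) →
    ∀ T : ℝ, 0 < T → ∃ g : ℝ → Vel → ℝ, StrongSolution T (fun z => f z.2) fun t z => g t z.2

end Vale.Agent.P140
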