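import Vale.Agent.P140.Defs

/-!
# P140: short-time strong solutions for data below a Maxwellian

Picard iteration along the lines of free transport in the weighted supremum norm with the Gaussian
weight `exp (-(a - t) |v|²)`, whose decay pays for the growth `|v|` of the kernel.
-/

noncomputable section

namespace Vale.Agent.P140

open MeasureTheory Set Filter Topology Real
open scoped ENNReal InnerProductSpace

namespace Local

/-- The Gaussian `exp (-b |v|²)`. -/
def env (b : ℝ) (v : Vel) : ℝ := Real.exp (-(b * ‖v‖ ^ 2))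

/-- A pointwise bound by a multiple of the Gaussian. -/
def Under (A b : ℝ) (f : Phase → ℝ) : Prop := ∀ z, |f z| ≤ A * env b z.2

/-- The constant of the collision frequency of the Gaussian. -/
def kc (a : ℝ) : ℝ := surf.real univ * ∫ u : Vel, (1 + ‖u‖) * env (a / 2) u

/-- The time until which the iteration is used. -/
def clamp (T t : ℝ) : ℝ := max 0 (min t T)

/-- The collision integral, with the loss taken linear in the first factor. -/
def field (f : Phase → ℝ) (z : Phase) : ℝ :=
  (gain (slice f z.1) (slice f z.1) z.2).toReal - f z * (freq (slice f z.1) z.2).toReal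

/-- One step of the iteration. -/
def step (T : ℝ) (f₀ : Phase → ℝ) (g : ℝ → Phase → ℝ) (t : ℝ) (z : Phase) : ℝ :=
  f₀ (shift (-clamp T t) z) + ∫ s in (0 : ℝ)..clamp T t, field (g s) (shift (s - clamp T t) z)

/-- The iterates. -/
def picard (T : ℝ) (f₀ : Phase → ℝ) : ℕ → ℝ → Phase → ℝ
  | 0 => fun _ _ => 0
  | n + 1 => step T f₀ (picard T f₀ n)

lemma env_pos (b : ℝ) (v : Vel) : 0 < env b v := Real.exp_pos _

lemma env_mono {b b' : ℝ} (h : b ≤ b') (v : Vel) : env b' v ≤ env b v :=
  Real.exp_le_exp.2 (by nlinarith [sq_nonneg ‖v‖])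

lemma sum_sq_post (v u : Vel) (o : Sph) :
    ‖(post v u o).1‖ ^ 2 + ‖(post v u o).2‖ ^ 2 = ‖v‖ ^ 2 + ‖u‖ ^ 2 := by
  have ho : ‖(o : Vel)‖ = 1 := mem_sphere_zero_iff_norm.1 o.2
  simp only [post, norm_sub_sq_real, norm_add_sq_real, norm_smul, real_inner_smul_right, ho,
    mul_one, Real.norm_eq_abs, sq_abs]
  have : rate v u o = ⟪v, (o : Vel)⟫_ℝ - ⟪u, (o : Vel)⟫_ℝ := inner_sub_left _ _ _
  rw [this]; ring

lemma env_post (b : ℝ) (v u : Vel) (o : Sph) :
    env b (post v u o).1 * env b (post v u o).2 = env b v * env b u := by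
  simp only [env, ← Real.exp_add, ← neg_add, ← mul_add, sum_sq_post]

lemma abs_rate_le (v u : Vel) (o : Sph) : |rate v u o| ≤ (1 + ‖v‖) * (1 + ‖u‖) := by
  have ho : ‖(o : Vel)‖ = 1 := mem_sphere_zero_iff_norm.1 o.2
  refine (abs_real_inner_le_norm _ _).trans ?_
  rw [ho, mul_one]
  nlinarith [norm_sub_le v u, norm_nonneg v, norm_nonneg u]

lemma integrable_env {b : ℝ} (hb : 0 < b) : Integrable (env b) := by
  have h := GaussianFourier.integrable_cexp_neg_mul_sq_norm_add (b := (b : ℂ)) (by simpa using hb)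
    (0 : ℂ) (0 : Vel)
  refine h.norm.congr (Eventually.of_forall fun v => ?_)
  simp [env, Complex.norm_exp, ← Complex.ofReal_pow]

/-- A cubic weight is absorbed by half of the exponent. -/
lemma pow_mul_env_le {b : ℝ} (hb : 0 < b) :
    ∃ K, 0 ≤ K ∧ ∀ v : Vel, (1 + ‖v‖ + ‖v‖ ^ 2 + ‖v‖ ^ 3) * env b v ≤ K * env (b / 2) v := by
  set D := 1 + 4 / b
  have hD : 1 ≤ D := le_add_of_nonneg_right (by positivity)
  refine ⟨4 * D ^ 2, by positivity, fun v => ?_⟩
  set w := ‖v‖
  have hw : 0 ≤ w := norm_nonneg v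
  have h1 : 1 + w ^ 2 ≤ D * Real.exp (b / 4 * w ^ 2) := by
    have h2 := Real.add_one_le_exp (b / 4 * w ^ 2)
    have h3 : w ^ 2 ≤ 4 / b * Real.exp (b / 4 * w ^ 2) := by
      rw [div_mul_eq_mul_div, le_div_iff₀ hb]
      nlinarith
    nlinarith [sq_nonneg w]
  have h2 : (1 + w ^ 2) ^ 2 ≤ D ^ 2 * Real.exp (b / 2 * w ^ 2) := by
    refine (pow_le_pow_left₀ (by positivity) h1 2).trans_eq ?_
    rw [mul_pow, ← Real.exp_nat_mul]
    congr 2
    push_cast
    ring
  have h3 : 1 + w + w ^ 2 + w ^ 3 ≤ 4 * (1 + w ^ 2) ^ 2 := by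
    nlinarith [sq_nonneg (w - 1), sq_nonneg (w * (w - 1)), pow_nonneg hw 4, sq_nonneg w]
  calc (1 + w + w ^ 2 + w ^ 3) * env b v ≤ 4 * (D ^ 2 * Real.exp (b / 2 * w ^ 2)) * env b v :=
        mul_le_mul_of_nonneg_right (by linarith) (env_pos b v).le
    _ = 4 * D ^ 2 * env (b / 2) v := by
        rw [env, env, show -(b / 2 * ‖v‖ ^ 2) = b / 2 * w ^ 2 + -(b * ‖v‖ ^ 2) by simp only [w]; ring,
          Real.exp_add]
        ring

lemma continuous_env (b : ℝ) : Continuous (env b) := by unfold env; fun_prop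

lemma integrable_weight_env {a : ℝ} (ha : 0 < a) :
    Integrable fun u : Vel => (1 + ‖u‖) * env (a / 2) u := by
  obtain ⟨K, -, hK⟩ := pow_mul_env_le (half_pos ha)
  refine ((integrable_env (half_pos (half_pos ha))).const_mul K).mono'
    (((continuous_const.add continuous_norm).mul (continuous_env _)).aestronglyMeasurable)
    (Eventually.of_forall fun u => ?_)
  rw [Real.norm_of_nonneg (mul_nonneg (by positivity) (env_pos _ _).le)]
  exact (mul_le_mul_of_nonneg_right (by nlinarith [pow_nonneg (norm_nonneg u) 3, sq_nonneg ‖u‖])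
    (env_pos _ _).le).trans (hK u)

lemma kc_nonneg (a : ℝ) : 0 ≤ kc a :=
  mul_nonneg measureReal_nonneg (integral_nonneg fun u => mul_nonneg (by positivity) (env_pos _ _).le)

lemma lintegral_rate_le {a : ℝ} (ha : 0 < a) (v : Vel) :
    ∫⁻ u : Vel, ∫⁻ o : Sph, ENNReal.ofReal |rate v u o| * ENNReal.ofReal (env (a / 2) u) ∂surf ≤
      ENNReal.ofReal (kc a * (1 + ‖v‖)) := by
  have hfin : IsFiniteMeasure surf := by unfold surf; infer_instance
  calc _ ≤ ∫⁻ u : Vel, ∫⁻ _o : Sph,
          ENNReal.ofReal ((1 + ‖v‖) * ((1 + ‖u‖) * env (a / 2) u)) ∂surf := by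
        refine lintegral_mono fun u => lintegral_mono fun o => ?_
        rw [← ENNReal.ofReal_mul (abs_nonneg _), ← mul_assoc (1 + ‖v‖)]
        exact ENNReal.ofReal_le_ofReal (mul_le_mul_of_nonneg_right (abs_rate_le v u o) (env_pos _ _).le)
    _ = (∫⁻ u : Vel, ENNReal.ofReal ((1 + ‖v‖) * ((1 + ‖u‖) * env (a / 2) u))) * surf univ := by
        simp only [lintegral_const]
        rw [lintegral_mul_const' _ _ (measure_ne_top _ _)]
    _ = ENNReal.ofReal (kc a * (1 + ‖v‖)) := by
        rw [← ofReal_integral_eq_lintegral_ofReal ((integrable_weight_env ha).const_mul _)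
          (Eventually.of_forall fun u => mul_nonneg (by positivity)
            (mul_nonneg (by positivity) (env_pos _ _).le)), integral_const_mul,
          ← ENNReal.ofReal_toReal (measure_ne_top surf univ), ← ENNReal.ofReal_mul' ENNReal.toReal_nonneg,
          kc, measureReal_def]
        congr 1
        ring

lemma measurable_rate : Measurable fun p : Vel × Vel × Sph => rate p.1 p.2.1 p.2.2 := by
  unfold rate; fun_prop

lemma continuous_post : Continuous fun p : Vel × Vel × Sph => post p.1 p.2.1 p.2.2 := by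
  unfold post rate; fun_prop

variable {a b A d : ℝ}

lemma freq_le (ha : 0 < a) (hb : a / 2 ≤ b) {f h : Vel → ℝ} (hh : Measurable h) (hd : 0 ≤ d)
    (hfh : ∀ u, |f u - h u| ≤ d * env b u) (v : Vel) :
    freq f v ≤ freq h v + ENNReal.ofReal (d * kc a * (1 + ‖v‖)) := by
  have hfin : IsFiniteMeasure surf := by unfold surf; infer_instance
  have hm : Measurable fun p : Vel × Sph =>
      ENNReal.ofReal |rate v p.1 p.2| * ENNReal.ofReal (h p.1) :=
    ((measurable_rate.comp (measurable_const.prodMk measurable_id)).abs.ennreal_ofReal).mul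
      ((hh.comp measurable_fst).ennreal_ofReal)
  calc freq f v ≤ ∫⁻ u, ∫⁻ o, (ENNReal.ofReal |rate v u o| * ENNReal.ofReal (h u) +
        ENNReal.ofReal d * (ENNReal.ofReal |rate v u o| * ENNReal.ofReal (env (a / 2) u))) ∂surf := by
        refine lintegral_mono fun u => lintegral_mono fun o => ?_
        rw [mul_left_comm (ENNReal.ofReal d), ← mul_add, ← ENNReal.ofReal_mul hd]
        gcongr
        refine (ENNReal.ofReal_le_ofReal ?_).trans ENNReal.ofReal_add_le
        have := (abs_le.1 (hfh u)).2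
        have := mul_le_mul_of_nonneg_left (env_mono hb u) hd
        linarith
    _ = freq h v + ENNReal.ofReal d *
        ∫⁻ u : Vel, ∫⁻ o : Sph, ENNReal.ofReal |rate v u o| * ENNReal.ofReal (env (a / 2) u) ∂surf := by
        rw [freq, ← lintegral_const_mul' _ _ ENNReal.ofReal_ne_top,
          ← lintegral_add_left hm.lintegral_prod_right']
        refine lintegral_congr fun u => ?_
        rw [← lintegral_const_mul' _ _ ENNReal.ofReal_ne_top]
        exact lintegral_add_left (hm.comp (measurable_prodMk_left (x := u))) _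
    _ ≤ freq h v + ENNReal.ofReal d * ENNReal.ofReal (kc a * (1 + ‖v‖)) := by
        gcongr; exact lintegral_rate_le ha v
    _ = _ := by rw [← ENNReal.ofReal_mul hd, mul_assoc]

lemma freq_bound (ha : 0 < a) (hb : a / 2 ≤ b) {f : Vel → ℝ} (hA : 0 ≤ A)
    (hf : ∀ u, |f u| ≤ A * env b u) (v : Vel) :
    freq f v ≤ ENNReal.ofReal (A * kc a * (1 + ‖v‖)) := by
  simpa [freq] using freq_le ha hb (h := fun _ => 0) measurable_const hA (by simpa using hf) v

lemma gain_le (ha : 0 < a) (hb : a / 2 ≤ b) {f h : Vel → ℝ} (hh : Measurable h) (hA : 0 ≤ A)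
    (hd : 0 ≤ d) (hfA : ∀ u, |f u| ≤ A * env b u) (hhA : ∀ u, |h u| ≤ A * env b u)
    (hfh : ∀ u, |f u - h u| ≤ d * env b u) (v : Vel) :
    gain f f v ≤ gain h h v + ENNReal.ofReal (2 * A * d * kc a * (1 + ‖v‖) * env b v) := by
  have hfin : IsFiniteMeasure surf := by unfold surf; infer_instance
  have hpost : Continuous fun p : Vel × Sph => post v p.1 p.2 :=
    continuous_post.comp (continuous_const.prodMk continuous_id)
  have hm : Measurable fun p : Vel × Sph => ENNReal.ofReal |rate v p.1 p.2| *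
      ENNReal.ofReal (h (post v p.1 p.2).1) * ENNReal.ofReal (h (post v p.1 p.2).2) :=
    (((measurable_rate.comp (measurable_const.prodMk measurable_id)).abs.ennreal_ofReal).mul
      (hh.comp (measurable_fst.comp hpost.measurable)).ennreal_ofReal).mul
      (hh.comp (measurable_snd.comp hpost.measurable)).ennreal_ofReal
  set E : ℝ := 2 * A * d * env b v
  have hE : 0 ≤ E := mul_nonneg (by positivity) (env_pos b v).le
  calc gain f f v ≤ ∫⁻ u, ∫⁻ o, (ENNReal.ofReal |rate v u o| *
          ENNReal.ofReal (h (post v u o).1) * ENNReal.ofReal (h (post v u o).2) +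
        ENNReal.ofReal E * (ENNReal.ofReal |rate v u o| * ENNReal.ofReal (env (a / 2) u))) ∂surf := by
        refine lintegral_mono fun u => lintegral_mono fun o => ?_
        rw [mul_assoc, mul_assoc, mul_left_comm (ENNReal.ofReal E), ← mul_add, ← ENNReal.ofReal_mul hE]
        gcongr
        set p := (post v u o).1
        set q := (post v u o).2
        have hp : ∀ y : ℝ, ENNReal.ofReal y = ENNReal.ofReal (max y 0) := fun y => by
          simp [ENNReal.ofReal, Real.toNNReal]
        rw [hp (f p), hp (f q), hp (h p), hp (h q), ← ENNReal.ofReal_mul (le_max_right _ _),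
          ← ENNReal.ofReal_mul (le_max_right _ _),
          ← ENNReal.ofReal_add (mul_nonneg (le_max_right _ _) (le_max_right _ _))
            (mul_nonneg hE (env_pos _ _).le)]
        refine ENNReal.ofReal_le_ofReal ?_
        have h1 := (abs_max_sub_max_le_abs (f p) (h p) 0).trans (hfh p)
        have h2 := (abs_max_sub_max_le_abs (f q) (h q) 0).trans (hfh q)
        have h3 : max (h p) 0 ≤ A * env b p :=
          max_le ((le_abs_self _).trans (hhA p)) (mul_nonneg hA (env_pos _ _).le)
        have h4 : max (f q) 0 ≤ A * env b q :=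
          max_le ((le_abs_self _).trans (hfA q)) (mul_nonneg hA (env_pos _ _).le)
        have h5 := mul_le_mul (abs_le.1 h1).2 h4 (le_max_right _ _)
          (mul_nonneg hd (env_pos _ _).le)
        have h6 := mul_le_mul h3 (abs_le.1 h2).2
        have h6' : max (h p) 0 * (max (f q) 0 - max (h q) 0) ≤ A * env b p * (d * env b q) := by
          refine (mul_le_mul_of_nonneg_left (abs_le.1 h2).2 (le_max_right _ _)).trans ?_
          exact mul_le_mul_of_nonneg_right h3 (mul_nonneg hd (env_pos _ _).le)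
        have h7 : env b p * env b q ≤ env b v * env (a / 2) u := by
          rw [env_post]; exact mul_le_mul_of_nonneg_left (env_mono hb u) (env_pos _ _).le
        have h8 := mul_le_mul_of_nonneg_left h7 (by positivity : 0 ≤ 2 * A * d)
        simp only [E]
        linarith
    _ = gain h h v + ENNReal.ofReal E *
        ∫⁻ u : Vel, ∫⁻ o : Sph, ENNReal.ofReal |rate v u o| * ENNReal.ofReal (env (a / 2) u) ∂surf := by
        rw [gain, ← lintegral_const_mul' _ _ ENNReal.ofReal_ne_top,
          ← lintegral_add_left hm.lintegral_prod_right']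
        refine lintegral_congr fun u => ?_
        rw [← lintegral_const_mul' _ _ ENNReal.ofReal_ne_top]
        exact lintegral_add_left (hm.comp (measurable_prodMk_left (x := u))) _
    _ ≤ gain h h v + ENNReal.ofReal E * ENNReal.ofReal (kc a * (1 + ‖v‖)) := by
        gcongr; exact lintegral_rate_le ha v
    _ = _ := by
        rw [← ENNReal.ofReal_mul hE]
        congr 2
        simp only [E]; ring

lemma gain_bound (ha : 0 < a) (hb : a / 2 ≤ b) {f : Vel → ℝ} (hA : 0 ≤ A)
    (hf : ∀ u, |f u| ≤ A * env b u) (v : Vel) :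
    gain f f v ≤ ENNReal.ofReal (2 * A * A * kc a * (1 + ‖v‖) * env b v) := by
  simpa [gain] using gain_le ha hb (h := fun _ => 0) measurable_const hA hA hf
    (fun u => by simpa using mul_nonneg hA (env_pos b u).le) (by simpa using hf) v

/-- The collision integral is Lipschitz with respect to the weighted supremum norm. -/
lemma field_sub_le (ha : 0 < a) (hb : a / 2 ≤ b) {f h : Phase → ℝ} (hf : Measurable f)
    (hh : Measurable h) (hA : 0 ≤ A) (hd : 0 ≤ d) (hfA : Under A b f) (hhA : Under A b h)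
    (hfh : Under d b fun z => f z - h z) (z : Phase) :
    |field f z - field h z| ≤ 4 * A * d * kc a * (1 + ‖z.2‖) * env b z.2 := by
  obtain ⟨x, v⟩ := z
  have hsf : Measurable (slice f x) := hf.comp measurable_prodMk_left
  have hsh : Measurable (slice h x) := hh.comp measurable_prodMk_left
  have fA : ∀ u, |slice f x u| ≤ A * env b u := fun u => hfA (x, u)
  have hA' : ∀ u, |slice h x u| ≤ A * env b u := fun u => hhA (x, u)
  have fh : ∀ u, |slice f x u - slice h x u| ≤ d * env b u := fun u => hfh (x, u)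
  have hf' : ∀ u, |slice h x u - slice f x u| ≤ d * env b u := fun u => by rw [abs_sub_comm]; exact fh u
  have hne : ∀ {g : Vel → ℝ}, (∀ u, |g u| ≤ A * env b u) → gain g g v ≠ ⊤ ∧ freq g v ≠ ⊤ := fun hg =>
    ⟨ne_top_of_le_ne_top ENNReal.ofReal_ne_top (gain_bound ha hb hA hg v),
      ne_top_of_le_ne_top ENNReal.ofReal_ne_top (freq_bound ha hb hA hg v)⟩
  have hk := kc_nonneg a
  have he := (env_pos b v).le
  set D := d * kc a * (1 + ‖v‖)
  have hD : 0 ≤ D := by positivity
  have hG : |(gain (slice f x) (slice f x) v).toReal - (gain (slice h x) (slice h x) v).toReal| ≤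
      2 * A * D * env b v := by
    have h1 := gain_le ha hb hsh hA hd fA hA' fh v
    have h2 := gain_le ha hb hsf hA hd hA' fA hf' v
    have h0 : 0 ≤ 2 * A * d * kc a * (1 + ‖v‖) * env b v := by positivity
    have e1 := ENNReal.toReal_mono (ENNReal.add_ne_top.2 ⟨(hne hA').1, ENNReal.ofReal_ne_top⟩) h1
    have e2 := ENNReal.toReal_mono (ENNReal.add_ne_top.2 ⟨(hne fA).1, ENNReal.ofReal_ne_top⟩) h2
    rw [ENNReal.toReal_add (hne hA').1 ENNReal.ofReal_ne_top, ENNReal.toReal_ofReal h0] at e1
    rw [ENNReal.toReal_add (hne fA).1 ENNReal.ofReal_ne_top, ENNReal.toReal_ofReal h0] at e2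
    have : 2 * A * d * kc a * (1 + ‖v‖) * env b v = 2 * A * D * env b v := by simp only [D]; ring
    rw [abs_le]; constructor <;> linarith
  have hL : |(freq (slice f x) v).toReal - (freq (slice h x) v).toReal| ≤ D := by
    have h1 := freq_le ha hb hsh hd fh v
    have h2 := freq_le ha hb hsf hd hf' v
    have e1 := ENNReal.toReal_mono (ENNReal.add_ne_top.2 ⟨(hne hA').2, ENNReal.ofReal_ne_top⟩) h1
    have e2 := ENNReal.toReal_mono (ENNReal.add_ne_top.2 ⟨(hne fA).2, ENNReal.ofReal_ne_top⟩) h2
    rw [ENNReal.toReal_add (hne hA').2 ENNReal.ofReal_ne_top, ENNReal.toReal_ofReal hD] at e1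
    rw [ENNReal.toReal_add (hne fA).2 ENNReal.ofReal_ne_top, ENNReal.toReal_ofReal hD] at e2
    rw [abs_le]; constructor <;> linarith
  have hB : (freq (slice h x) v).toReal ≤ A * kc a * (1 + ‖v‖) :=
    ENNReal.toReal_le_of_le_ofReal (by positivity) (freq_bound ha hb hA hA' v)
  have h3 : |f (x, v) * (freq (slice f x) v).toReal - h (x, v) * (freq (slice h x) v).toReal| ≤
      A * env b v * D + d * env b v * (A * kc a * (1 + ‖v‖)) := by
    rw [show f (x, v) * (freq (slice f x) v).toReal - h (x, v) * (freq (slice h x) v).toReal =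
      f (x, v) * ((freq (slice f x) v).toReal - (freq (slice h x) v).toReal) +
        (f (x, v) - h (x, v)) * (freq (slice h x) v).toReal by ring]
    refine (abs_add_le _ _).trans (add_le_add ?_ ?_)
    · rw [abs_mul]; exact mul_le_mul (hfA _) hL (abs_nonneg _) (mul_nonneg hA he)
    · rw [abs_mul, abs_of_nonneg ENNReal.toReal_nonneg]
      exact mul_le_mul (hfh _) hB ENNReal.toReal_nonneg (mul_nonneg hd he)
  simp only [field]
  rw [sub_sub_sub_comm]
  refine (abs_sub _ _).trans ((add_le_add hG h3).trans_eq ?_)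
  simp only [D]; ring

lemma abs_field_le (ha : 0 < a) (hb : a / 2 ≤ b) {f : Phase → ℝ} (hf : Measurable f) (hA : 0 ≤ A)
    (hfA : Under A b f) (z : Phase) :
    |field f z| ≤ 4 * A * A * kc a * (1 + ‖z.2‖) * env b z.2 := by
  have h := field_sub_le ha hb hf (h := fun _ => 0) measurable_const hA hA hfA
    (fun y => by simpa using mul_nonneg hA (env_pos b y.2).le) (by simpa [Under] using hfA) z
  simpa [field, slice, gain, freq] using h

variable {T : ℝ}

lemma clamp_mem (hT : 0 ≤ T) (t : ℝ) : clamp T t ∈ Icc 0 T :=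
  ⟨le_max_left _ _, max_le hT (min_le_right _ _)⟩

lemma clamp_of_mem {t : ℝ} (ht : t ∈ Icc 0 T) : clamp T t = t := by
  rw [clamp, min_eq_left ht.2, max_eq_right ht.1]

/-- The time integral of the kernel is small. -/
lemma time_int {τ : ℝ} (hτ : τ ∈ Icc 0 T) (a : ℝ) (v : Vel) :
    ∫ s in (0 : ℝ)..τ, (1 + ‖v‖) * env (a - s) v ≤ (T + √T) * env (a - τ) v := by
  set w := ‖v‖
  set r : ℝ → ℝ := fun s => Real.exp (-((τ - s) * w ^ 2))
  have he : ∀ s, (1 + w) * env (a - s) v = env (a - τ) v * ((1 + w) * r s) := fun s => by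
    simp only [env, r, w]
    rw [mul_left_comm, ← Real.exp_add]
    ring_nf
  simp only [he, intervalIntegral.integral_const_mul]
  rw [mul_comm]
  refine mul_le_mul_of_nonneg_right ?_ (env_pos _ _).le
  set I := ∫ s in (0 : ℝ)..τ, r s
  have hr : Continuous r := by fun_prop
  have hI0 : 0 ≤ I := intervalIntegral.integral_nonneg hτ.1 fun s _ => (Real.exp_pos _).le
  have hI : I ≤ τ := by
    have := intervalIntegral.integral_mono_on hτ.1 (hr.intervalIntegrable (μ := volume) 0 τ)
      intervalIntegrable_const (g := fun _ => (1 : ℝ)) fun s hs => Real.exp_le_one_iff.2 (by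
        nlinarith [hs.2, sq_nonneg w])
    simpa using this
  have hI2 : w ^ 2 * I ≤ 1 := by
    have hd : ∀ s ∈ uIcc (0 : ℝ) τ, HasDerivAt r (w ^ 2 * r s) s := fun s _ => by
      have := ((((hasDerivAt_id s).const_sub τ).mul_const (w ^ 2)).neg).exp
      convert this using 1 <;> simp [r, mul_comm]
    rw [← intervalIntegral.integral_const_mul,
      intervalIntegral.integral_eq_sub_of_hasDerivAt hd
        ((continuous_const.mul hr).intervalIntegrable _ _)]
    have : r τ = 1 := by simp [r]
    linarith [Real.exp_pos (-((τ - 0) * w ^ 2))]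
  have hwI : w * I ≤ √T := Real.le_sqrt_of_sq_le (by nlinarith [hτ.2])
  nlinarith [hτ.2]

lemma measurable_shift : Measurable fun p : ℝ × Phase => shift p.1 p.2 := by
  refine ((measurable_pi_iff.2 fun i => ?_).prodMk measurable_snd.snd)
  exact ((measurable_pi_apply i).comp measurable_snd.fst).add
    (AddCircle.measurable_mk'.comp
      (measurable_fst.mul ((EuclideanSpace.proj i).continuous.measurable.comp measurable_snd.snd)))

lemma measurable_shift_apply (s : ℝ) : Measurable (shift s) :=
  measurable_shift.comp measurable_prodMk_left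

lemma shift_shift (s r : ℝ) (z : Phase) : shift s (shift r z) = shift (s + r) z := by
  refine Prod.ext (funext fun i => ?_) rfl
  simp only [shift, add_mul, QuotientAddGroup.mk_add]
  abel

lemma shift_zero (z : Phase) : shift 0 z = z := by
  refine Prod.ext (funext fun i => ?_) rfl
  simp [shift]

/-- The collision integral of a measurable family is jointly measurable. -/
lemma measurable_field {g : ℝ → Phase → ℝ} (hg : Measurable fun p : ℝ × Phase => g p.1 p.2) :
    Measurable fun p : ℝ × Phase => field (g p.1) p.2 := by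
  have hfin : IsFiniteMeasure surf := by unfold surf; infer_instance
  have hx : Measurable fun q : ((ℝ × Phase) × Vel) × Sph => (q.1.1.1, q.1.1.2.1) :=
    (measurable_fst.fst.fst).prodMk measurable_fst.fst.snd.fst
  have hr : Measurable fun q : ((ℝ × Phase) × Vel) × Sph =>
      ENNReal.ofReal |rate q.1.1.2.2 q.1.2 q.2| :=
    (measurable_rate.comp (measurable_fst.fst.snd.snd.prodMk
      (measurable_fst.snd.prodMk measurable_snd))).abs.ennreal_ofReal
  have hp : Measurable fun q : ((ℝ × Phase) × Vel) × Sph => post q.1.1.2.2 q.1.2 q.2 :=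
    continuous_post.measurable.comp (measurable_fst.fst.snd.snd.prodMk
      (measurable_fst.snd.prodMk measurable_snd))
  have hval : ∀ {w : ((ℝ × Phase) × Vel) × Sph → Vel}, Measurable w →
      Measurable fun q => ENNReal.ofReal (g q.1.1.1 (q.1.1.2.1, w q)) := fun hw =>
    (hg.comp ((measurable_fst.comp hx).prodMk ((measurable_snd.comp hx).prodMk hw))).ennreal_ofReal
  have h1 := ((hr.mul (hval (measurable_fst.comp hp))).mul
    (hval (measurable_snd.comp hp))).lintegral_prod_right' (ν := surf)
  have h2 := (hr.mul (hval (measurable_fst.snd))).lintegral_prod_right' (ν := surf)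
  exact (h1.lintegral_prod_right' (ν := volume)).ennreal_toReal.sub
    (hg.mul (h2.lintegral_prod_right' (ν := volume)).ennreal_toReal)

lemma measurable_step {f₀ : Phase → ℝ} (hf₀ : Measurable f₀) {g : ℝ → Phase → ℝ}
    (hg : Measurable fun p : ℝ × Phase => g p.1 p.2) :
    Measurable fun p : ℝ × Phase => step T f₀ g p.1 p.2 := by
  have hc : Measurable fun p : ℝ × Phase => clamp T p.1 :=
    (measurable_const.max (measurable_fst.min measurable_const))
  refine (hf₀.comp (measurable_shift.comp (hc.neg.prodMk measurable_snd))).add ?_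
  have he : ∀ p : ℝ × Phase,
      ∫ s in (0 : ℝ)..clamp T p.1, field (g s) (shift (s - clamp T p.1) p.2) =
        clamp T p.1 • ∫ r in Ioc (0 : ℝ) 1, field (g (clamp T p.1 * r))
          (shift (clamp T p.1 * r - clamp T p.1) p.2) := fun p => by
    rw [← intervalIntegral.integral_of_le zero_le_one, intervalIntegral.smul_integral_comp_mul_left
      (f := fun s => field (g s) (shift (s - clamp T p.1) p.2)), mul_zero, mul_one]
  simp only [he]
  refine hc.smul ?_
  have hq : Measurable fun q : (ℝ × Phase) × ℝ => clamp T q.1.1 * q.2 :=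
    (hc.comp measurable_fst).mul measurable_snd
  have := (measurable_field hg).comp (hq.prodMk (measurable_shift.comp
    ((hq.sub (hc.comp measurable_fst)).prodMk measurable_fst.snd)))
  exact (this.stronglyMeasurable.integral_prod_right' (ν := volume.restrict (Ioc (0 : ℝ) 1))).measurable

/-- A family of measurable functions bounded in the weighted norm. -/
def Ok (a A T : ℝ) (g : ℝ → Phase → ℝ) : Prop :=
  Measurable (fun p : ℝ × Phase => g p.1 p.2) ∧ ∀ t, Under A (a - clamp T t) (g t)

lemma Ok.slice {g : ℝ → Phase → ℝ} (hg : Ok a A T g) (s : ℝ) : Measurable (g s) :=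
  hg.1.comp measurable_prodMk_left

lemma half_le_sub (hTa : T ≤ a / 2) {t : ℝ} (ht : t ∈ Icc 0 T) : a / 2 ≤ a - t := by
  linarith [ht.2]

lemma abs_integrand_le (ha : 0 < a) (hTa : T ≤ a / 2) (hA : 0 ≤ A) {g : ℝ → Phase → ℝ}
    (hg : Ok a A T g) {s : ℝ} (hs : s ∈ Icc 0 T) (r : ℝ) (z : Phase) :
    |field (g s) (shift r z)| ≤ 4 * A * A * kc a * ((1 + ‖z.2‖) * env (a - s) z.2) := by
  have h := hg.2 s
  rw [clamp_of_mem hs] at h
  have h1 := abs_field_le ha (half_le_sub hTa hs) (hg.slice s) hA h (shift r z)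
  refine h1.trans_eq ?_
  simp only [shift]; ring

lemma intervalIntegrable_field (ha : 0 < a) (hTa : T ≤ a / 2) (hA : 0 ≤ A)
    {g : ℝ → Phase → ℝ} (hg : Ok a A T g) (r : ℝ) (z : Phase) {t₁ t₂ : ℝ} (h1 : t₁ ∈ Icc 0 T)
    (h2 : t₂ ∈ Icc 0 T) : IntervalIntegrable (fun s => field (g s) (shift (s - r) z)) volume t₁ t₂ := by
  rw [intervalIntegrable_iff]
  refine Integrable.mono' (integrableOn_const (C := 4 * A * A * kc a * ((1 + ‖z.2‖) * 1)) (by simp))
    (((measurable_field hg.1).comp (measurable_id.prodMk (measurable_shift.comp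
      ((measurable_id.sub_const r).prodMk measurable_const)))).aestronglyMeasurable)
    ((ae_restrict_iff' measurableSet_uIoc).2 (Eventually.of_forall fun s hs => ?_))
  have hsT : s ∈ Icc 0 T := uIcc_subset_Icc h1 h2 (uIoc_subset_uIcc hs)
  refine (abs_integrand_le ha hTa hA hg hsT _ z).trans ?_
  have : env (a - s) z.2 ≤ 1 := Real.exp_le_one_iff.2 (by
    nlinarith [half_le_sub hTa hsT, sq_nonneg ‖z.2‖])
  have := kc_nonneg a
  gcongr

lemma step_bound (ha : 0 < a) (hT : 0 ≤ T) (hTa : T ≤ a / 2) (hA : 0 ≤ A)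
    (hTA : 4 * A * kc a * (T + √T) ≤ 1 / 2) {f₀ : Phase → ℝ} (hf₀ : Measurable f₀)
    (h₀ : Under (A / 2) a f₀) {g : ℝ → Phase → ℝ} (hg : Ok a A T g) :
    Ok a A T (step T f₀ g) := by
  refine ⟨measurable_step hf₀ hg.1, fun t z => ?_⟩
  set τ := clamp T t
  have hτ : τ ∈ Icc 0 T := clamp_mem hT t
  have h1 : |f₀ (shift (-τ) z)| ≤ A / 2 * env (a - τ) z.2 :=
    (h₀ _).trans (mul_le_mul_of_nonneg_left (env_mono (by linarith [hτ.1]) _) (by linarith))
  have h2 : |∫ s in (0 : ℝ)..τ, field (g s) (shift (s - τ) z)| ≤ A / 2 * env (a - τ) z.2 := by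
    calc _ ≤ ∫ s in (0 : ℝ)..τ, 4 * A * A * kc a * ((1 + ‖z.2‖) * env (a - s) z.2) := by
          refine (intervalIntegral.abs_integral_le_integral_abs hτ.1).trans
            (intervalIntegral.integral_mono_on hτ.1 ?_ ?_ fun s hs =>
              abs_integrand_le ha hTa hA hg ⟨hs.1, hs.2.trans hτ.2⟩ _ z)
          · exact (intervalIntegrable_field ha hTa hA hg τ z (left_mem_Icc.2 hT) hτ).abs
          · exact (Continuous.intervalIntegrable (by unfold env; fun_prop) _ _)
      _ ≤ 4 * A * A * kc a * ((T + √T) * env (a - τ) z.2) := by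
          rw [intervalIntegral.integral_const_mul]
          exact mul_le_mul_of_nonneg_left (time_int hτ a z.2)
            (mul_nonneg (by positivity) (kc_nonneg a))
      _ ≤ A / 2 * env (a - τ) z.2 := by
          have := mul_le_mul_of_nonneg_left hTA hA
          have h3 := mul_le_mul_of_nonneg_right this (env_pos (a - τ) z.2).le
          linarith
  calc |step T f₀ g t z| ≤ _ := abs_add_le _ _
    _ ≤ A / 2 * env (a - τ) z.2 + A / 2 * env (a - τ) z.2 := add_le_add h1 h2
    _ = A * env (a - τ) z.2 := by ring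

lemma step_contract (ha : 0 < a) (hT : 0 ≤ T) (hTa : T ≤ a / 2) (hA : 0 ≤ A) (hd : 0 ≤ d)
    (hTA : 4 * A * kc a * (T + √T) ≤ 1 / 2) (f₀ : Phase → ℝ) {g h : ℝ → Phase → ℝ}
    (hg : Ok a A T g) (hh : Ok a A T h)
    (hgh : ∀ t, Under d (a - clamp T t) fun z => g t z - h t z) (t : ℝ) :
    Under (d / 2) (a - clamp T t) fun z => step T f₀ g t z - step T f₀ h t z := fun z => by
  set τ := clamp T t
  have hτ : τ ∈ Icc 0 T := clamp_mem hT t
  have i1 := intervalIntegrable_field ha hTa hA hg τ z (left_mem_Icc.2 hT) hτ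
  have i2 := intervalIntegrable_field ha hTa hA hh τ z (left_mem_Icc.2 hT) hτ
  have e : step T f₀ g t z - step T f₀ h t z =
      ∫ s in (0 : ℝ)..τ, (field (g s) (shift (s - τ) z) - field (h s) (shift (s - τ) z)) := by
    rw [intervalIntegral.integral_sub i1 i2]; simp only [step, τ]; ring
  show |step T f₀ g t z - step T f₀ h t z| ≤ _
  rw [e]
  calc _ ≤ ∫ s in (0 : ℝ)..τ, 4 * A * d * kc a * ((1 + ‖z.2‖) * env (a - s) z.2) := by
        refine (intervalIntegral.abs_integral_le_integral_abs hτ.1).trans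
          (intervalIntegral.integral_mono_on hτ.1 (i1.sub i2).abs
            (Continuous.intervalIntegrable (by unfold env; fun_prop) _ _) fun s hs => ?_)
        have hsT : s ∈ Icc 0 T := ⟨hs.1, hs.2.trans hτ.2⟩
        have hc := clamp_of_mem hsT
        have h1 := hg.2 s; have h2 := hh.2 s; have h3 := hgh s
        rw [hc] at h1 h2 h3
        refine (field_sub_le ha (half_le_sub hTa hsT) (hg.slice s) (hh.slice s) hA hd h1 h2 h3
          (shift (s - τ) z)).trans_eq ?_
        simp only [shift]; ring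
    _ ≤ 4 * A * d * kc a * ((T + √T) * env (a - τ) z.2) := by
        rw [intervalIntegral.integral_const_mul]
        exact mul_le_mul_of_nonneg_left (time_int hτ a z.2) (mul_nonneg (by positivity) (kc_nonneg a))
    _ ≤ d / 2 * env (a - τ) z.2 := by
        have h3 := mul_le_mul_of_nonneg_right (mul_le_mul_of_nonneg_left hTA hd)
          (env_pos (a - τ) z.2).le
        linarith

lemma exists_time (ha : 0 < a) (A : ℝ) :
    ∃ T : ℝ, 0 < T ∧ T ≤ a / 2 ∧ 4 * A * kc a * (T + √T) ≤ 1 / 2 := by
  have h : Tendsto (fun T : ℝ => 4 * A * kc a * (T + √T)) (𝓝 0) (𝓝 0) := by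
    have : Continuous fun T : ℝ => 4 * A * kc a * (T + √T) := by fun_prop
    simpa using this.tendsto 0
  obtain ⟨δ, hδ, hball⟩ := Metric.eventually_nhds_iff.1 (h.eventually (ge_mem_nhds (show (0:ℝ) < 1 / 2 by norm_num)))
  refine ⟨min (δ / 2) (a / 2), lt_min (by linarith) (by linarith), min_le_right _ _, hball ?_⟩
  rw [Real.dist_eq, sub_zero, abs_of_pos (lt_min (by linarith) (by linarith))]
  linarith [min_le_left (δ / 2) (a / 2)]

/-- The iteration converges to a fixed point. -/
lemma exists_fixed (ha : 0 < a) (hT : 0 ≤ T) (hTa : T ≤ a / 2) (hA : 0 ≤ A)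
    (hTA : 4 * A * kc a * (T + √T) ≤ 1 / 2) {f₀ : Phase → ℝ} (hf₀ : Measurable f₀)
    (h₀ : Under (A / 2) a f₀) :
    ∃ g, Ok a A T g ∧ ∀ t z, g t z = step T f₀ g t z := by
  set P := picard T f₀
  have hok : ∀ n, Ok a A T (P n) := fun n => by
    induction n with
    | zero => exact ⟨measurable_const, fun t z => by simpa [P, picard] using mul_nonneg hA (env_pos _ _).le⟩
    | succ n ih => exact step_bound ha hT hTa hA hTA hf₀ h₀ ih
  have hgap : ∀ n t, Under (A * (1 / 2) ^ n) (a - clamp T t) fun z => P n t z - P (n + 1) t z := by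
    intro n
    induction n with
    | zero =>
      intro t z
      simpa [P, picard] using (hok 1).2 t z
    | succ n ih =>
      intro t
      have := step_contract ha hT hTa hA (by positivity) hTA f₀ (hok n) (hok (n + 1)) ih t
      rw [pow_succ, ← mul_assoc, mul_one_div]
      exact this
  have hdist : ∀ t z n, dist (P n t z) (P (n + 1) t z) ≤
      A * env (a - clamp T t) z.2 * (1 / 2) ^ n := fun t z n => by
    rw [Real.dist_eq, mul_right_comm]; exact hgap n t z
  choose g hg using fun t z =>
    cauchySeq_tendsto_of_complete (cauchySeq_of_le_geometric _ _ (by norm_num) (hdist t z))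
  have hgok : Ok a A T g := ⟨measurable_of_tendsto_metrizable (fun n => (hok n).1)
      (tendsto_pi_nhds.2 fun p => hg p.1 p.2), fun t z =>
    le_of_tendsto' ((hg t z).abs) fun n => (hok n).2 t z⟩
  refine ⟨g, hgok, fun t z => tendsto_nhds_unique ((hg t z).comp (tendsto_add_atTop_nat 1)) ?_⟩
  refine tendsto_iff_dist_tendsto_zero.2 (squeeze_zero (fun n => dist_nonneg)
    (g := fun n => A * (1 / 2) ^ n * 2 / 2 * env (a - clamp T t) z.2) (fun n => ?_) ?_)
  · refine step_contract ha hT hTa hA (by positivity) hTA f₀ (hok n) hgok (fun s y => ?_) t z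
    show |P n s y - g s y| ≤ A * (1 / 2) ^ n * 2 * env (a - clamp T s) y.2
    have := dist_le_of_le_geometric_of_tendsto _ _ (by norm_num) (hdist s y) (hg s y) n
    rw [Real.dist_eq] at this
    exact this.trans_eq (by ring)
  · simpa using ((((tendsto_pow_atTop_nhds_zero_of_lt_one (by norm_num : (0:ℝ) ≤ 1 / 2)
      (by norm_num)).const_mul A).mul_const 2).div_const 2).mul_const (env (a - clamp T t) z.2)

/-- A fixed point with nonnegative datum is nonnegative. -/
lemma fixed_nonneg (ha : 0 < a) (hT : 0 ≤ T) (hTa : T ≤ a / 2) (hA : 0 ≤ A) {f₀ : Phase → ℝ}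
    (h0 : ∀ z, 0 ≤ f₀ z) {g : ℝ → Phase → ℝ} (hg : Ok a A T g)
    (hfix : ∀ t z, g t z = step T f₀ g t z) (t : ℝ) (z : Phase) : 0 ≤ g t z := by
  set τ := clamp T t
  have hτ : τ ∈ Icc 0 T := clamp_mem hT t
  set w := shift (-τ) z
  set N : ℝ → ℝ := fun s => field (g s) (shift s w)
  set y : ℝ → ℝ := fun r => f₀ w + ∫ s in (0 : ℝ)..r, N s
  have hN : ∀ {t₁ t₂}, t₁ ∈ Icc 0 T → t₂ ∈ Icc 0 T → IntervalIntegrable N volume t₁ t₂ :=
    fun h1 h2 => by
      simpa [N] using intervalIntegrable_field ha hTa hA hg 0 w h1 h2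
  have hy : ∀ r ∈ Icc 0 T, g r (shift r w) = y r := fun r hr => by
    rw [hfix r (shift r w), step, clamp_of_mem hr]
    simp only [shift_shift, neg_add_cancel, shift_zero, sub_add_cancel, y, N]
  have hgz : g t z = y τ := by
    rw [hfix t z, step]
    simp only [y, N, w, shift_shift]
    simp only [← sub_eq_add_neg, τ]
  rw [hgz]
  by_contra hneg
  set S := {r ∈ Icc 0 τ | 0 ≤ y r}
  have hsub : Icc 0 τ ⊆ Icc 0 T := Icc_subset_Icc_right hτ.2
  have hcont : ContinuousOn y (Icc 0 τ) := by
    refine continuousOn_const.add ?_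
    rw [← uIcc_of_le hτ.1]
    exact intervalIntegral.continuousOn_primitive_interval
      ((intervalIntegrable_iff' (by simp)).1 (hN (left_mem_Icc.2 hT) hτ))
  have hS : IsClosed S := IsClosed.isClosed_le isClosed_Icc continuousOn_const hcont
  have hne : S.Nonempty := ⟨0, left_mem_Icc.2 hτ.1, by simpa [y] using h0 w⟩
  have hbdd : BddAbove S := ⟨τ, fun r hr => hr.1.2⟩
  obtain ⟨hmI, hm⟩ := hS.csSup_mem hne hbdd
  set m := sSup S
  have hint : 0 ≤ ∫ s in m..τ, N s := by
    rcases hmI.2.eq_or_lt with h | h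
    · simp [h]
    refine intervalIntegral.integral_nonneg_of_ae_restrict hmI.2 ?_
    rw [← Measure.restrict_congr_set Ioc_ae_eq_Icc]
    refine (ae_restrict_iff' measurableSet_Ioc).2 (Eventually.of_forall fun s hs => ?_)
    have hsI : s ∈ Icc 0 τ := ⟨hmI.1.trans hs.1.le, hs.2⟩
    have hys : g s (shift s w) < 0 := by
      rw [hy s (hsub hsI)]
      exact not_le.1 fun h' => hs.1.not_ge (le_csSup hbdd ⟨hsI, h'⟩)
    simp only [Pi.zero_apply, N, field]
    have := mul_nonpos_of_nonpos_of_nonneg hys.le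
      (ENNReal.toReal_nonneg (a := freq (slice (g s) (shift s w).1) (shift s w).2))
    linarith [ENNReal.toReal_nonneg
      (a := gain (slice (g s) (shift s w).1) (slice (g s) (shift s w).1) (shift s w).2)]
  have hadd := intervalIntegral.integral_add_adjacent_intervals
    (hN (left_mem_Icc.2 hT) (hsub hmI)) (hN (hsub hmI) hτ)
  simp only [y] at hm hneg
  linarith

end Local

open Local in
/-- Data below a Maxwellian have a strong solution for a short time. -/
theorem localOut : LocalOut := by
  intro C a ha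
  set A := 2 * |C| + 1
  have hA : 0 ≤ A := by positivity
  obtain ⟨T, hT, hTa, hTA⟩ := exists_time ha A
  refine ⟨T, hT, fun f₀ hf₀ hb => ?_⟩
  have h₀ : Under (A / 2) a f₀ := fun z => by
    rw [abs_of_nonneg (hb z).1]
    refine (hb z).2.trans (mul_le_mul_of_nonneg_right ?_ (env_pos a z.2).le)
    simp only [A]
    linarith [le_abs_self C]
  obtain ⟨g, hok, hfix⟩ := exists_fixed ha hT.le hTa hA hTA hf₀ h₀
  have hnn := fixed_nonneg ha hT.le hTa hA (fun z => (hb z).1) hok hfix
  have hg0 : g 0 = f₀ := funext fun z => by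
    rw [hfix, step, clamp_of_mem (left_mem_Icc.2 hT.le)]
    simp [shift_zero]
  obtain ⟨K, hK, hKv⟩ := pow_mul_env_le (half_pos ha)
  have hint := integrable_env (half_pos (half_pos ha))
  have hbound : ∀ t z, (1 + ‖z.2‖ + ‖z.2‖ ^ 2 + ‖z.2‖ ^ 3) * g t z ≤
      A * K * env (a / 2 / 2) z.2 := fun t z => by
    have h1 : g t z ≤ A * env (a / 2) z.2 := (le_abs_self _).trans ((hok.2 t z).trans
      (mul_le_mul_of_nonneg_left (env_mono (half_le_sub hTa (clamp_mem hT.le t)) _) hA))
    refine (mul_le_mul_of_nonneg_left h1 (by positivity)).trans ?_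
    rw [mul_left_comm, mul_assoc A K]
    exact mul_le_mul_of_nonneg_left (hKv z.2) hA
  set J : ℝ := ∫ u : Vel, A * K * env (a / 2 / 2) u
  have hJ : ∫⁻ u : Vel, ENNReal.ofReal (A * K * env (a / 2 / 2) u) = ENNReal.ofReal J :=
    (ofReal_integral_eq_lintegral_ofReal (hint.const_mul _)
      (Eventually.of_forall fun u => mul_nonneg (mul_nonneg hA hK) (env_pos _ _).le)).symm
  refine ⟨g, ⟨hok.1, hnn, by rw [hg0], ⟨J, fun t _ => ?_⟩,
    ⟨fun _ => J, integrableOn_const measure_Icc_lt_top.ne, Eventually.of_forall fun t _ =>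
      Eventually.of_forall fun x => ?_⟩, fun t ht => Eventually.of_forall fun z => ?_⟩⟩
  · have hm : Measurable fun u : Vel => ENNReal.ofReal (A * K * env (a / 2 / 2) u) :=
      ((continuous_const.mul (continuous_env _)).measurable).ennreal_ofReal
    calc ∫⁻ z, ENNReal.ofReal (weight z.2 * g t z)
        ≤ ∫⁻ z : Phase, ENNReal.ofReal (A * K * env (a / 2 / 2) z.2) := by
          refine lintegral_mono fun z => ENNReal.ofReal_le_ofReal (le_trans ?_ (hbound t z))
          refine mul_le_mul_of_nonneg_right ?_ (hnn t z)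
          have := pow_nonneg (norm_nonneg z.2) 3
          simp only [weight]
          linarith [norm_nonneg z.2]
      _ = ENNReal.ofReal J := by
          rw [Measure.volume_eq_prod, lintegral_prod
            (fun z : Phase => ENNReal.ofReal (A * K * env (a / 2 / 2) z.2)) (hm.comp measurable_snd).aemeasurable]
          simp [hJ, volume_pi, Measure.pi_univ]
  · rw [← hJ]
    refine lintegral_mono fun v => ENNReal.ofReal_le_ofReal (le_trans ?_ (hbound t (x, v)))
    refine mul_le_mul_of_nonneg_right ?_ (hnn t _)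
    show 1 + ‖v‖ ^ 3 ≤ 1 + ‖v‖ + ‖v‖ ^ 2 + ‖v‖ ^ 3
    nlinarith [norm_nonneg v]
  · rw [hfix t, step, clamp_of_mem ht, hg0]
    simp only [shift_shift, neg_add_cancel, shift_zero, sub_add_cancel, add_right_inj]
    refine intervalIntegral.integral_congr fun s _ => ?_
    simp only [field, collision, loss, slice, ENNReal.toReal_mul,
      ENNReal.toReal_ofReal (hnn s _)]
    rfl

end Vale.Agent.P140
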