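import Vale.Agent.P140.Torus
import Vale.Agent.P140.Collision
import Vale.Agent.P140.Local

/-!
# P140: the class of renormalized solutions is not empty

The standard Maxwellian, constant in time, is a renormalized solution in the sense of `RenSolution`.
-/

noncomputable section

namespace Vale.Agent.P140

open MeasureTheory Set Filter
open scoped Topology ENNReal ContDiff

namespace Example

/-- A function of the position with period one in each coordinate only depends on the class. -/
theorem periodic_lift {h : Vel → ℝ} (hp : ∀ x i, h (x + EuclideanSpace.single i 1) = h x) (x : Vel) :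
    h (lift (mk x)) = h x := by
  set n : Fin 3 → ℤ := fun i => ⌊x i⌋ with hn
  have hstep : ∀ (i : Fin 3) (m : ℤ) (y : Vel),
      h (y + (m : ℝ) • EuclideanSpace.single i (1 : ℝ)) = h y := fun i m y => by
    have hper : Function.Periodic h (EuclideanSpace.single i (1 : ℝ)) := fun y => hp y i
    have := hper.zsmul m y
    rwa [← Int.cast_smul_eq_zsmul ℝ] at this
  have hfr : ∀ i, lift (mk x) i + (n i : ℝ) = x i := fun i => by
    simp only [lift, mk, hn]
    rw [AddCircle.coe_equivIco_mk_apply]
    simp
  have hx : lift (mk x) + (n 0 : ℝ) • EuclideanSpace.single (0 : Fin 3) (1 : ℝ) +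
      (n 1 : ℝ) • EuclideanSpace.single (1 : Fin 3) (1 : ℝ) +
        (n 2 : ℝ) • EuclideanSpace.single (2 : Fin 3) (1 : ℝ) = x := by
    ext i
    fin_cases i <;> simp [← hfr]
  conv_rhs => rw [← hx, hstep, hstep, hstep]

theorem stdMax_eq (v : Vel) :
    stdMax v = ((2 * Real.pi) ^ (3 / 2 : ℝ))⁻¹ * Local.env (1 / 2) v := by
  simp only [stdMax, Local.env]
  ring_nf

theorem stdMax_nonneg (v : Vel) : 0 ≤ stdMax v := by unfold stdMax; positivity

theorem integrable_weight_stdMax : Integrable fun v : Vel => weight v * stdMax v := by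
  obtain ⟨K, -, hK⟩ := Local.pow_mul_env_le (b := 1 / 2) (by norm_num)
  set c := ((2 * Real.pi) ^ (3 / 2 : ℝ))⁻¹
  have hc : 0 ≤ c := by positivity
  refine ((Local.integrable_env (b := 1 / 2 / 2) (by norm_num)).const_mul (c * K)).mono'
    ((continuous_weight.mul (by unfold stdMax; fun_prop)).aestronglyMeasurable)
    (Eventually.of_forall fun v => ?_)
  rw [Real.norm_of_nonneg (mul_nonneg (weight_pos v).le (stdMax_nonneg v)), stdMax_eq, mul_assoc c,
    mul_left_comm]
  refine mul_le_mul_of_nonneg_left ((mul_le_mul_of_nonneg_right ?_ (Local.env_pos _ _).le).trans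
    (hK v)) hc
  unfold weight
  nlinarith [norm_nonneg v, pow_nonneg (norm_nonneg v) 3]

theorem gain_stdMax (v : Vel) : gain stdMax stdMax v = loss stdMax stdMax v := by
  have hmul : ∀ u o, stdMax (post v u o).1 * stdMax (post v u o).2 = stdMax v * stdMax u := by
    intro u o
    simp only [stdMax]
    rw [mul_mul_mul_comm, ← Real.exp_add, mul_mul_mul_comm _ (Real.exp _), ← Real.exp_add]
    congr 2
    linarith [norm_sq_post v u o]
  rw [gain, loss, freq, ← lintegral_const_mul' _ _ ENNReal.ofReal_ne_top]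
  refine lintegral_congr fun u => ?_
  rw [← lintegral_const_mul' _ _ ENNReal.ofReal_ne_top]
  refine lintegral_congr fun o => ?_
  rw [mul_assoc, ← ENNReal.ofReal_mul (stdMax_nonneg _), hmul,
    ENNReal.ofReal_mul (stdMax_nonneg _)]
  ring

theorem lintegral_loss_stdMax : ∫⁻ v, loss stdMax stdMax v ≠ (⊤ : ℝ≥0∞) := by
  have hm : Measurable stdMax := by unfold stdMax; fun_prop
  have h : ∫⁻ v, ENNReal.ofReal (1 + ‖v‖) * ENNReal.ofReal (stdMax v) ≠ (⊤ : ℝ≥0∞) := by
    refine ne_top_of_le_ne_top (integrable_weight_stdMax.const_mul 2).lintegral_lt_top.ne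
      (lintegral_mono fun v => ?_)
    rw [← ENNReal.ofReal_mul (by positivity), ← mul_assoc]
    exact ENNReal.ofReal_le_ofReal
      (mul_le_mul_of_nonneg_right (one_add_norm_le_weight v) (stdMax_nonneg v))
  simp only [loss]
  rw [lintegral_mul_freq (Φ := fun v => ENNReal.ofReal (stdMax v)) hm]
  exact ne_top_of_le_ne_top (ENNReal.mul_ne_top (measure_ne_top _ _) (ENNReal.mul_ne_top h h))
    (collInt_prod_le hm.ennreal_ofReal hm.ennreal_ofReal)

theorem volume_univ_pos : (volume : Measure Pos) univ = 1 := by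
  rw [volume_pi, Measure.pi_univ]
  simp [AddCircle.measure_univ]

instance : IsProbabilityMeasure (volume : Measure Pos) := ⟨volume_univ_pos⟩

theorem integrable_phase {φ : Vel → ℝ} (hφ : Integrable φ) : Integrable fun z : Phase => φ z.2 :=
  hφ.comp_snd volume

theorem lintegral_slab_ne_top {φ : Vel → ℝ≥0∞} (hφ : ∫⁻ v, φ v ≠ (⊤ : ℝ≥0∞)) (hm : Measurable φ) (T : ℝ) :
    ∫⁻ p in Icc (0 : ℝ) T ×ˢ (univ : Set Phase), φ p.2.2 ≠ (⊤ : ℝ≥0∞) := by
  rw [Measure.volume_eq_prod, ← Measure.prod_restrict, Measure.restrict_univ,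
    lintegral_prod (fun p : ℝ × Phase => φ p.2.2) (hm.comp measurable_snd.snd).aemeasurable]
  simp only [lintegral_const, Measure.restrict_apply_univ]
  rw [Measure.volume_eq_prod Pos Vel, lintegral_prod (fun z : Phase => φ z.2)
    (hm.comp measurable_snd).aemeasurable]
  simp only [lintegral_const, volume_univ_pos, mul_one]
  exact ENNReal.mul_ne_top hφ measure_Icc_lt_top.ne

/-- Free transport preserves a stationary profile, in the weak form. -/
theorem weak_stationary {φ : ℝ → Vel → Vel → ℝ} (hφ : IsTest φ) :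
    (∫ p in Ioi (0 : ℝ) ×ˢ (univ : Set Phase), stdMax p.2.2 * transport φ p.1 (lift p.2.1) p.2.2) +
      ∫ z : Phase, stdMax z.2 * φ 0 (lift z.1) z.2 = 0 := by
  obtain ⟨hsm, hper, R₀, hR₀⟩ := hφ
  set R := |R₀| + 1 with hR
  have hRpos : 0 < R := by positivity
  have hR0R : R₀ < R := (le_abs_self R₀).trans_lt (lt_add_one _)
  set Φ : ℝ × Vel × Vel → ℝ := fun p => φ p.1 p.2.1 p.2.2 with hΦ
  have hdΦ : Continuous fun p : ℝ × Vel × Vel => fderiv ℝ Φ p ((1 : ℝ), p.2.2, (0 : Vel)) :=
    (hsm.continuous_fderiv (by simp)).clm_apply (by fun_prop)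
  have hline : ∀ t x v s, HasDerivAt (fun r => φ (t + r) (x + r • v) v)
      (fderiv ℝ Φ (t + s, x + s • v, v) ((1 : ℝ), v, (0 : Vel))) s := fun t x v s => by
    have hc : HasDerivAt (fun r : ℝ => (t + r, x + r • v, v)) ((1 : ℝ), v, (0 : Vel)) s :=
      ((hasDerivAt_id s).const_add t).prodMk
        ((by simpa using ((hasDerivAt_id s).smul_const v).const_add x :
          HasDerivAt (fun r : ℝ => x + r • v) v s).prodMk (hasDerivAt_const s v))
    exact ((hsm.differentiable (by simp)).differentiableAt.hasFDerivAt).comp_hasDerivAt s hc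
  have htr : ∀ t x v, transport φ t x v = fderiv ℝ Φ (t, x, v) ((1 : ℝ), v, (0 : Vel)) :=
    fun t x v => by simpa [transport] using (hline t x v 0).deriv
  have hzero : ∀ t x v, R < |t| → transport φ t x v = 0 := fun t x v ht => by
    have : (fun s => φ (t + s) (x + s • v) v) =ᶠ[𝓝 0] fun _ => (0 : ℝ) := by
      have hev : ∀ᶠ s in 𝓝 (0 : ℝ), R < |t + s| :=
        (by fun_prop : Continuous fun s : ℝ => |t + s|).continuousAt.eventually_const_lt
          (by simpa using ht)
      filter_upwards [hev] with s hs using hR₀ _ _ _ (Or.inl (hR0R.trans hs))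
    rw [transport, this.deriv_eq, deriv_const]
  have hzero' : ∀ t x v, R < ‖v‖ → transport φ t x v = 0 := fun t x v hv => by
    rw [transport, funext fun s => hR₀ _ _ _ (Or.inr (hR0R.trans hv)), deriv_const]
  have hperT : ∀ t v x i, transport φ t (x + EuclideanSpace.single i 1) v = transport φ t x v := by
    intro t v x i
    simp only [transport]
    congr 1
    funext s
    rw [add_right_comm, hper]
  obtain ⟨D, hD⟩ : ∃ D, ∀ t x v, |transport φ t x v| ≤ D := by
    obtain ⟨D, hD⟩ := ((isCompact_Icc (a := -R) (b := R)).prod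
      ((isCompact_closedBall (0 : Vel) 2).prod (isCompact_closedBall (0 : Vel) R)))
      |>.exists_bound_of_continuousOn hdΦ.continuousOn
    refine ⟨max D 0, fun t x v => ?_⟩
    by_cases ht : R < |t|
    · simp [hzero _ _ _ ht]
    by_cases hv : R < ‖v‖
    · simp [hzero' _ _ _ hv]
    rw [← periodic_lift (h := fun y => transport φ t y v) (hperT t v) x, htr]
    have hmem : lift (mk x) ∈ Metric.closedBall (0 : Vel) 2 := by
      rw [mem_closedBall_zero_iff]
      have hc : ∀ i, |lift (mk x) i| ≤ 1 := fun i => by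
        have := (AddCircle.equivIco (1 : ℝ) 0 (mk x i)).2
        simp only [lift]
        rw [abs_le]
        constructor <;> linarith [this.1, this.2]
      rw [EuclideanSpace.norm_eq, Real.sqrt_le_iff, Fin.sum_univ_three]
      refine ⟨by norm_num, ?_⟩
      simp only [Real.norm_eq_abs, sq_abs]
      nlinarith [abs_le.1 (hc 0), abs_le.1 (hc 1), abs_le.1 (hc 2)]
    exact ((hD (t, lift (mk x), v) ⟨abs_le.1 (not_lt.1 ht), hmem,
      mem_closedBall_zero_iff.2 (not_lt.1 hv)⟩)).trans (le_max_left _ _)
  set μ := (volume : Measure ℝ).restrict (Ioc 0 R) with hμ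
  set G : ℝ × Phase → ℝ := fun p => stdMax p.2.2 * transport φ p.1 (lift p.2.1) p.2.2 with hG
  have hslab : ∫ p in Ioi (0 : ℝ) ×ˢ (univ : Set Phase), G p =
      ∫ p in Ioc (0 : ℝ) R ×ˢ (univ : Set Phase), G p := by
    refine setIntegral_eq_of_subset_of_forall_sdiff_eq_zero (measurableSet_Ioi.prod MeasurableSet.univ)
      (prod_mono Ioc_subset_Ioi_self subset_rfl) fun p hp => ?_
    have : R < p.1 := lt_of_not_ge fun h => hp.2 ⟨⟨hp.1.1, h⟩, trivial⟩
    simp only [hG]
    rw [hzero _ _ _ (this.trans_le (le_abs_self _)), mul_zero]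
  have hGm : Measurable G := by
    have hpt : Measurable fun p : ℝ × Phase => (p.1, lift p.2.1, p.2.2) :=
      measurable_fst.prodMk ((measurable_lift.comp measurable_snd.fst).prodMk measurable_snd.snd)
    have h1 : Measurable fun p : ℝ × Phase => stdMax p.2.2 := by unfold stdMax; fun_prop
    simp only [hG, htr]
    exact h1.mul (hdΦ.measurable.comp hpt)
  have hGi : Integrable G (μ.prod volume) := by
    have hM : Integrable (fun z : Phase => 2 * (weight z.2 * stdMax z.2) * D) :=
      (((integrable_phase integrable_weight_stdMax).const_mul 2).mul_const D)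
    refine (hM.comp_snd μ).mono' hGm.aestronglyMeasurable (Eventually.of_forall fun p => ?_)
    rw [hG, norm_mul, Real.norm_of_nonneg (stdMax_nonneg _), Real.norm_eq_abs]
    refine (mul_le_mul_of_nonneg_left (hD _ _ _) (stdMax_nonneg _)).trans
      (mul_le_mul_of_nonneg_right ?_ ((abs_nonneg _).trans (hD 0 0 0)))
    have : 1 ≤ 2 * weight p.2.2 := by unfold weight; nlinarith [sq_nonneg ‖p.2.2‖]
    nlinarith [stdMax_nonneg p.2.2]
  have hflow : Integrable (fun p : ℝ × Phase => G (p.1, shift p.1 p.2)) (μ.prod volume) :=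
    (measurePreserving_flow μ).integrable_comp_of_integrable hGi
  have hinner : ∀ z : Phase, ∫ t, G (t, shift t z) ∂μ = -(stdMax z.2 * φ 0 (lift z.1) z.2) := by
    intro z
    have e : ∀ t, G (t, shift t z) =
        stdMax z.2 * fderiv ℝ Φ (t, lift z.1 + t • z.2, z.2) ((1 : ℝ), z.2, (0 : Vel)) := fun t => by
      have hs : mk (lift z.1 + t • z.2) = (shift t z).1 := by
        funext i
        simp [mk, shift, lift]
      simp only [hG]
      rw [← hs, periodic_lift (h := fun y => transport φ t y (shift t z).2) (hperT _ _)]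
      simp only [shift, htr]
    have hd : ∀ t ∈ uIcc (0 : ℝ) R, HasDerivAt (fun r => φ r (lift z.1 + r • z.2) z.2)
        (fderiv ℝ Φ (t, lift z.1 + t • z.2, z.2) ((1 : ℝ), z.2, (0 : Vel))) t := fun t _ => by
      simpa using hline 0 (lift z.1) z.2 t
    have hc : Continuous fun t : ℝ =>
        fderiv ℝ Φ (t, lift z.1 + t • z.2, z.2) ((1 : ℝ), z.2, (0 : Vel)) :=
      hdΦ.comp (f := fun t : ℝ => (t, lift z.1 + t • z.2, z.2)) (by fun_prop)
    simp only [e]
    rw [integral_const_mul, hμ, ← intervalIntegral.integral_of_le hRpos.le,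
      intervalIntegral.integral_eq_sub_of_hasDerivAt hd (hc.intervalIntegrable _ _),
      hR₀ R _ _ (Or.inl (hR0R.trans_le (le_abs_self R)))]
    simp
  have hmap : ∫ p, G p ∂μ.prod volume = ∫ p, G (p.1, shift p.1 p.2) ∂μ.prod volume := by
    have := integral_map (measurePreserving_flow μ).measurable.aemeasurable (f := G)
      (by rw [(measurePreserving_flow μ).map_eq]; exact hGm.aestronglyMeasurable)
    rwa [(measurePreserving_flow μ).map_eq] at this
  rw [hslab, Measure.volume_eq_prod, ← Measure.prod_restrict, Measure.restrict_univ, ← hμ, hmap,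
    integral_prod_symm _ hflow]
  simp only [hinner]
  rw [integral_neg, Measure.volume_eq_prod Pos Vel]
  exact neg_add_cancel _

end Example

open Example in
/-- The standard Maxwellian is a renormalized solution. -/
theorem maxwellian_renSolution :
    RenSolution (fun z => stdMax z.2) (fun _ z => stdMax z.2) := by
  have hcoll : ∀ (x : Pos) v, collision (slice (fun z : Phase => stdMax z.2) x) v = 0 := fun x v => by
    show (gain stdMax stdMax v).toReal - (loss stdMax stdMax v).toReal = 0
    rw [gain_stdMax, sub_self]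
  have hml : Measurable fun v => loss stdMax stdMax v := by
    have hm : Measurable stdMax := by unfold stdMax; fun_prop
    exact hm.ennreal_ofReal.mul ((measurable_freq (α := Unit) (B := fun _ => stdMax)
      (hm.comp measurable_snd)).comp (f := fun v : Vel => ((), v)) (by fun_prop))
  have hle : ∀ T, ∀ Φ : Vel → ℝ≥0∞, (∀ v, Φ v ≤ loss stdMax stdMax v) →
      ∫⁻ p in Icc (0 : ℝ) T ×ˢ (univ : Set Phase),
        Φ p.2.2 / ENNReal.ofReal (1 + stdMax p.2.2 / stdMax p.2.2) < ⊤ := fun T Φ hΦ => by
    refine lt_of_le_of_lt (lintegral_mono fun p => ?_)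
      (lintegral_slab_ne_top lintegral_loss_stdMax hml T).lt_top
    refine ENNReal.div_le_of_le_mul ((hΦ _).trans (le_mul_of_one_le_right' ?_))
    rw [← ENNReal.ofReal_one]
    exact ENNReal.ofReal_le_ofReal
      (le_add_of_nonneg_right (div_nonneg (stdMax_nonneg _) (stdMax_nonneg _)))
  refine ⟨?_, fun _ z => stdMax_nonneg _, EventuallyEq.rfl, fun χ _ _ => continuousOn_const,
    fun T => ⟨∫ z : Phase, weight z.2 * stdMax z.2, fun t _ =>
      ⟨integrable_phase integrable_weight_stdMax, le_rfl⟩⟩,
    fun T => hle T (fun v => gain stdMax stdMax v) fun v => (gain_stdMax v).le,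
    fun T => hle T (fun v => loss stdMax stdMax v) fun v => le_rfl,
    fun β _ φ hφ => ?_, fun t _ => rfl, fun t _ => le_rfl⟩
  · unfold stdMax; fun_prop
  · have hne : ∀ v, stdMax v ≠ 0 := fun v => by unfold stdMax; positivity
    simp only [hcoll, mul_zero, zero_mul, add_zero]
    simp only [div_self (hne _), mul_comm (stdMax _) (β 1), mul_assoc]
    rw [integral_const_mul, integral_const_mul, ← mul_add, weak_stationary hφ, mul_zero]

end Vale.Agent.P140
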