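import Vale.Agent.P140.Stability

/-!
# P140: every homogeneous datum has at most one renormalized solution

All renormalized solutions of a homogeneous datum are the limit of the strong solutions of its
truncations, whose third moment is at most `A / (t + 1/n)`.
-/

noncomputable section

namespace Vale.Agent.P140

open MeasureTheory Set Filter
open scoped Topology ENNReal

/-- The truncation of a profile to the ball of radius `n`. -/
def trunc (f : Vel → ℝ) (n : ℕ) : Vel → ℝ := {v : Vel | ‖v‖ ≤ n}.indicator f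

/-- Truncated data have strong solutions whose third moment decays like `1 / t`. -/
def TruncatedOut : Prop :=
  ∀ f : Vel → ℝ, Measurable f → (∀ v, 0 ≤ f v) → Integrable (fun v => weight v * f v) →
    ∀ T : ℝ, 0 < T → ∃ A : ℝ, 0 ≤ A ∧ ∀ n : ℕ, 1 ≤ n → ∃ g : ℝ → Vel → ℝ,
      StrongSolution T (fun z => trunc f n z.2) (fun t z => g t z.2) ∧
        ∀ᵐ t ∂volume.restrict (Ioc 0 T), moment3 (g t) ≤ ENNReal.ofReal (A / max t (1 / (n : ℝ)))

variable {F₀ : Phase → ℝ} {F G : ℝ → Phase → ℝ} {T : ℝ} {f : Vel → ℝ}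

lemma gap_triangle {A B C : ℝ → Phase → ℝ} (hA : Measurable fun p : ℝ × Phase => A p.1 p.2)
    (hC : Measurable fun p : ℝ × Phase => C p.1 p.2) (t : ℝ) : gap A B t ≤ gap A C t + gap C B t := by
  have hm : Measurable fun z : Phase => ew z.2 * ENNReal.ofReal (max (C t z - A t z) 0) := by
    have h := (measurable_gap_integrand measurable_ew' hA hC).comp (measurable_prodMk_left (x := t))
    simpa only [Function.comp_def] using h
  rw [gap, gap, gap, ← lintegral_add_left hm]
  refine lintegral_mono fun z => ?_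
  rw [← mul_add, ← ENNReal.ofReal_add (le_max_right _ _) (le_max_right _ _)]
  refine mul_le_mul' le_rfl (ENNReal.ofReal_le_ofReal (max_le ?_ (by positivity)))
  linarith [le_max_left (C t z - A t z) 0, le_max_left (B t z - C t z) 0]

lemma ae_le_of_gap_eq_zero {A B : ℝ → Phase → ℝ} (hA : Measurable fun p : ℝ × Phase => A p.1 p.2)
    (hB : Measurable fun p : ℝ × Phase => B p.1 p.2) {t : ℝ} (h : gap A B t = 0) :
    ∀ᵐ z, B t z ≤ A t z := by
  have hm : Measurable fun z : Phase => ew z.2 * ENNReal.ofReal (max (B t z - A t z) 0) := by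
    have h := (measurable_gap_integrand measurable_ew' hA hB).comp (measurable_prodMk_left (x := t))
    simpa only [Function.comp_def] using h
  filter_upwards [(lintegral_eq_zero_iff hm).1 h] with z hz
  have h1 : ew z.2 ≠ 0 := (zero_lt_one.trans_le (one_le_ew z.2)).ne'
  simp only [Pi.zero_apply, mul_eq_zero, h1, false_or, ENNReal.ofReal_eq_zero] at hz
  linarith [le_max_left (B t z - A t z) 0]

/-- Renormalized solutions which agree for almost every time agree for every time. -/
lemma RenSolution.eq_of_ae_time (hF : RenSolution F₀ F) (hG : RenSolution F₀ G) (hT : 0 < T)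
    (h : ∀ᵐ t ∂volume.restrict (Ioc 0 T), F t =ᵐ[volume] G t) :
    ∀ t ∈ Icc 0 T, F t =ᵐ[volume] G t := by
  intro t ht
  refine (hF.integrable_at ht.1).ae_eq_of_forall_setIntegral_eq _ _ (hG.integrable_at ht.1)
    fun S hS _ => ?_
  have e : ∀ (A : ℝ → Phase → ℝ) (s : ℝ),
      ∫ z, S.indicator (fun _ => (1 : ℝ)) z * A s z = ∫ z in S, A s z := fun A s => by
    rw [← integral_indicator hS]
    exact integral_congr_ae (ae_of_all _ fun z => by by_cases hz : z ∈ S <;> simp [hz])
  have hb : ∃ C, ∀ z, |S.indicator (fun _ => (1 : ℝ)) z| ≤ C :=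
    ⟨1, fun z => by by_cases hz : z ∈ S <;> simp [hz]⟩
  have c1 := (hF.wcont _ (measurable_const.indicator hS) hb).mono (fun r (hr : r ∈ Icc 0 T) => hr.1)
  have c2 := (hG.wcont _ (measurable_const.indicator hS) hb).mono (fun r (hr : r ∈ Icc 0 T) => hr.1)
  have hae : (fun s => ∫ z, S.indicator (fun _ => (1 : ℝ)) z * F s z) =ᵐ[volume.restrict (Icc 0 T)]
      fun s => ∫ z, S.indicator (fun _ => (1 : ℝ)) z * G s z := by
    rw [← Measure.restrict_congr_set Ioc_ae_eq_Icc]
    filter_upwards [h] with s hs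
    exact integral_congr_ae (hs.mono fun z hz => by simp only [hz])
  have := Measure.eqOn_Icc_of_ae_eq volume hT.ne hae c1 c2 ht
  simp only [e] at this
  exact this

lemma gap_init {g : ℝ → Vel → ℝ} {g₀ : Vel → ℝ} (hF : RenSolution (fun z => f z.2) F) (hf : Measurable f)
    (hgm : Measurable g₀) (hg : StrongSolution T (fun z => g₀ z.2) fun t z => g t z.2)
    {φ : Vel → ℝ≥0∞} (hφ : Measurable φ) :
    gapW φ (fun t z => g t z.2) F 0 = ∫⁻ v, φ v * ENNReal.ofReal (max (f v - g₀ v) 0) := by
  have hm : Measurable fun v => φ v * ENNReal.ofReal (max (f v - g₀ v) 0) :=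
    hφ.mul ((hf.sub hgm).max measurable_const).ennreal_ofReal
  rw [← Homogeneous.lintegral_phase hm]
  refine lintegral_congr_ae ?_
  filter_upwards [hF.init, hg.init] with z h1 h2
  rw [h1, h2]

lemma trunc_le (h0 : ∀ v, 0 ≤ f v) (n : ℕ) (v : Vel) : trunc f n v ≤ f v :=
  indicator_le_self' (fun x _ => h0 x) v

lemma measurable_trunc (hf : Measurable f) (n : ℕ) : Measurable (trunc f n) :=
  hf.indicator (measurableSet_le measurable_norm measurable_const)

lemma tendsto_tail (hf : Measurable f) (h0 : ∀ v, 0 ≤ f v)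
    (hint : Integrable fun v => weight v * f v) :
    Tendsto (fun n : ℕ => ∫⁻ v, ew v * ENNReal.ofReal (max (f v - trunc f (n + 1) v) 0)) atTop (𝓝 0) := by
  have hfin : ∫⁻ v, ew v * ENNReal.ofReal (f v) ≠ ⊤ := by
    refine ne_of_eq_of_ne (lintegral_congr fun v => ?_) hint.lintegral_lt_top.ne
    rw [ew, ENNReal.ofReal_mul (weight_pos v).le]
  have h := tendsto_lintegral_of_dominated_convergence
    (F := fun n : ℕ => fun v => ew v * ENNReal.ofReal (max (f v - trunc f (n + 1) v) 0))
    (fun v => ew v * ENNReal.ofReal (f v))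
    (fun n => measurable_ew'.mul ((hf.sub (measurable_trunc hf _)).max measurable_const).ennreal_ofReal)
    (fun n => ae_of_all _ fun v => mul_le_mul' le_rfl (ENNReal.ofReal_le_ofReal
      (max_le (sub_le_self _ (indicator_nonneg (fun x _ => h0 x) v)) (h0 v))))
    hfin (f := fun _ => 0) (ae_of_all _ fun v => ?_)
  · simpa using h
  · refine tendsto_const_nhds.congr' ?_
    filter_upwards [eventually_ge_atTop ⌈‖v‖⌉₊] with n hn
    have : ‖v‖ ≤ ((n + 1 : ℕ) : ℝ) :=
      (Nat.le_ceil _).trans (Nat.cast_le.2 (hn.trans n.le_succ))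
    rw [trunc, indicator_of_mem (show v ∈ {v : Vel | ‖v‖ ≤ ((n + 1 : ℕ) : ℝ)} from this)]
    simp

lemma tail_mass_le (hf : Measurable f) (n : ℕ) :
    (∫⁻ v, uw v * ENNReal.ofReal (max (f v - trunc f n v) 0)) * ENNReal.ofReal (n : ℝ) ≤
      ∫⁻ v, ew v * ENNReal.ofReal (max (f v - trunc f n v) 0) := by
  rw [← lintegral_mul_const _ (f := fun v => uw v * ENNReal.ofReal (max (f v - trunc f n v) 0))
    (measurable_uw.mul ((hf.sub (measurable_trunc hf n)).max measurable_const).ennreal_ofReal)]
  refine lintegral_mono fun v => ?_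
  simp only [uw, one_mul]
  by_cases hv : ‖v‖ ≤ n
  · simp [trunc, hv]
  · rw [mul_comm]
    refine mul_le_mul' (ENNReal.ofReal_le_ofReal ?_) le_rfl
    unfold weight
    nlinarith [not_le.1 hv, norm_nonneg v, sq_nonneg (‖v‖ - 1)]

/-- One renormalized solution and the truncated solutions: both gaps tend to zero. -/
lemma tendsto_gaps (hF : RenSolution (fun z => f z.2) F) (hf : Measurable f) (h0 : ∀ v, 0 ≤ f v)
    (hint : Integrable fun v => weight v * f v) (hT : 0 < T) {A : ℝ} (hA : 0 ≤ A)
    {g : ℕ → ℝ → Vel → ℝ}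
    (hg : ∀ n, StrongSolution T (fun z => trunc f (n + 1) z.2) fun t z => g n t z.2)
    (hm : ∀ n, ∀ᵐ t ∂volume.restrict (Ioc 0 T),
      moment3 (g n t) ≤ ENNReal.ofReal (A / max t (1 / ((n + 1 : ℕ) : ℝ)))) :
    ∀ᵐ t ∂volume.restrict (Ioc 0 T),
      Tendsto (fun n => gap F (fun s z => g n s z.2) t) atTop (𝓝 0) ∧
        Tendsto (fun n => gap (fun s z => g n s z.2) F t) atTop (𝓝 0) := by
  set δ : ℕ → ℝ := fun n => 1 / ((n + 1 : ℕ) : ℝ) with hδdef
  have hδ : ∀ n, 0 < δ n := fun n => by simp only [hδdef]; positivity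
  have hm' : ∀ n, ∀ᵐ t ∂volume.restrict (Ioc 0 T),
      moment3 (g n t) ≤ ENNReal.ofReal (2 * A / (t + δ n)) := fun n => by
    filter_upwards [hm n, ae_restrict_mem measurableSet_Ioc] with t ht htm
    refine ht.trans (ENNReal.ofReal_le_ofReal ?_)
    have h1 := le_max_left t (δ n)
    have h2 := le_max_right t (δ n)
    have h3 := hδ n
    rw [div_le_div_iff₀ (lt_max_of_lt_left htm.1) (by linarith [htm.1])]
    nlinarith
  choose M hMmono hME hMgap hMle using fun n => stability hF hT (by positivity : 0 ≤ 2 * A) (hδ n) (hg n)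
    (ae_of_all _ fun z => trunc_le h0 _ z.2) (hm' n)
  set η : ℕ → ℝ≥0∞ := fun n => gap (fun s z => g n s z.2) F 0 with hηdef
  have hη : Tendsto η atTop (𝓝 0) := by
    refine (tendsto_tail hf h0 hint).congr fun n => ?_
    exact (gap_init hF hf (measurable_trunc hf _) (hg n) measurable_ew').symm
  set P := ENNReal.ofReal (3 * (4 * surf.real univ * (2 * A))) with hP
  set K := ENNReal.ofReal (4 * surf.real univ * (2 * A) *
    (1 + 16 * (2 * surf.real univ * (wtot F 0).toReal + 1) ^ 2)) with hK
  set E := wtot F 0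
  have hE : E ≠ ⊤ := by
    obtain ⟨C, hC⟩ := hF.exists_wtot_le 0
    exact ne_top_of_le_ne_top ENNReal.ofReal_ne_top (hC 0 ⟨le_rfl, le_rfl⟩)
  have hKfin : K * 2 ≠ ⊤ := ENNReal.mul_ne_top ENNReal.ofReal_ne_top ENNReal.ofNat_ne_top
  have hrec : ∀ n, ∀ t ∈ Icc 0 T, M n t ≤
      (P + K * ENNReal.ofReal T) * η n + ∫⁻ s in Icc 0 t, K * 2 * M n s := by
    intro n t ht
    refine (hMle n t ht).trans ?_
    have hcore : gapW uw (fun s z => g n s z.2) F 0 * ENNReal.ofReal (δ n)⁻¹ ≤ η n := by
      have e1 := gap_init hF hf (measurable_trunc hf _) (hg n) measurable_uw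
      have e2 := gap_init hF hf (measurable_trunc hf _) (hg n) measurable_ew'
      rw [e1, hηdef, show (δ n)⁻¹ = ((n + 1 : ℕ) : ℝ) by simp [hδdef]]
      exact (tail_mass_le hf (n + 1)).trans_eq e2.symm
    rw [lintegral_add_left (((hMmono n).measurable).const_mul 2), setLIntegral_const, Real.volume_Icc,
      sub_zero, mul_add, lintegral_const_mul _ (hMmono n).measurable,
      lintegral_const_mul _ (hMmono n).measurable, add_mul]
    calc P * (gapW uw (fun s z => g n s z.2) F 0 * ENNReal.ofReal (δ n)⁻¹) +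
          (K * (2 * ∫⁻ s in Icc 0 t, M n s) + K * (η n * ENNReal.ofReal t))
        ≤ P * η n + (K * (2 * ∫⁻ s in Icc 0 t, M n s) + K * (η n * ENNReal.ofReal T)) := by
          gcongr
          exact ht.2
      _ = _ := by ring
  set L : ℝ → ℝ≥0∞ := fun t => limsup (fun n => M n t) atTop with hL
  have hLrec : ∀ t ∈ Icc 0 T, L t ≤ ∫⁻ s in Icc 0 t, K * 2 * L s := by
    intro t ht
    have hc : Tendsto (fun n => (P + K * ENNReal.ofReal T) * η n) atTop (𝓝 0) := by
      have h := ENNReal.Tendsto.const_mul (a := P + K * ENNReal.ofReal T) hη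
        (Or.inr (ENNReal.add_ne_top.2 ⟨ENNReal.ofReal_ne_top,
          ENNReal.mul_ne_top ENNReal.ofReal_ne_top ENNReal.ofReal_ne_top⟩))
      rwa [mul_zero] at h
    refine (limsup_le_limsup (Eventually.of_forall fun n => hrec n t ht)).trans ?_
    refine ((congrArg (limsup · atTop) (funext fun n => add_comm _ _)).trans
      (ENNReal.limsup_add_of_right_tendsto_zero hc _)).trans_le ?_
    refine (limsup_lintegral_le (fun _ => K * 2 * E) (fun n => (hMmono n).measurable.const_mul _)
      (fun n => ae_of_all _ fun s => mul_le_mul' le_rfl (hME n s)) ?_).trans_eq ?_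
    · rw [setLIntegral_const]
      exact ENNReal.mul_ne_top (ENNReal.mul_ne_top hKfin hE) measure_Icc_lt_top.ne
    · exact lintegral_congr fun s => ENNReal.limsup_const_mul_of_ne_top hKfin
  have hL0 := Homogeneous.gronwall_zero hKfin hE
    (fun t _ => limsup_le_of_le (h := Eventually.of_forall fun n => hME n t)) hLrec
  filter_upwards [ae_all_iff.2 hMgap, ae_restrict_mem measurableSet_Ioc] with t ht htm
  have hM0 : Tendsto (fun n => M n t) atTop (𝓝 0) :=
    tendsto_of_le_liminf_of_limsup_le zero_le (hL0 t (Ioc_subset_Icc_self htm)).le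
  refine ⟨tendsto_of_tendsto_of_tendsto_of_le_of_le tendsto_const_nhds hM0 (fun n => zero_le)
    fun n => (ht n).1, ?_⟩
  have h2 := hM0.add hη
  rw [add_zero] at h2
  exact tendsto_of_tendsto_of_tendsto_of_le_of_le tendsto_const_nhds h2 (fun n => zero_le)
    fun n => (ht n).2

/-- **Every homogeneous datum has at most one renormalized solution.** -/
theorem unique_homogeneous_all (htr : TruncatedOut) : ∀ (f : Vel → ℝ) (F G : ℝ → Phase → ℝ),
    RenSolution (fun z => f z.2) F → RenSolution (fun z => f z.2) G →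
      ∀ t, 0 ≤ t → F t =ᵐ[volume] G t := by
  intro f F G hF hG t ht
  obtain ⟨C, hC⟩ := hF.bounded 0
  have hi : Integrable fun z : Phase => weight z.2 * f z.2 := by
    refine (hC 0 ⟨le_rfl, le_rfl⟩).1.congr ?_
    filter_upwards [hF.init] with z hz
    rw [hz]
  have hnn : ∀ᵐ z : Phase, 0 ≤ f z.2 := by
    filter_upwards [hF.init] with z hz
    exact hz ▸ hF.nonneg 0 z
  rw [Measure.volume_eq_prod] at hi hnn
  obtain ⟨x, hx1, hx2⟩ := (hi.prod_right_ae.and (Measure.ae_ae_of_ae_prod hnn)).exists
  have hfm : AEStronglyMeasurable f volume := by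
    have hd : AEStronglyMeasurable (fun v : Vel => (weight v)⁻¹) volume :=
      (continuous_weight.inv₀ fun v => (weight_pos v).ne').aestronglyMeasurable
    refine (hd.mul hx1.1).congr (ae_of_all _ fun v => ?_)
    simp only [Pi.mul_apply]
    field_simp [(weight_pos v).ne']
  set f₁ : Vel → ℝ := fun v => max (hfm.mk f v) 0 with hf₁
  have hm : Measurable f₁ := hfm.stronglyMeasurable_mk.measurable.max measurable_const
  have hae : f =ᵐ[volume] f₁ := by
    filter_upwards [hfm.ae_eq_mk, hx2] with v hv hv'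
    simp only [hf₁, ← hv, max_eq_left hv']
  have hint₁ : Integrable fun v => weight v * f₁ v :=
    hx1.congr (hae.mono fun v hv => by simp only [hv])
  have he : (fun z : Phase => f z.2) =ᵐ[volume] fun z => f₁ z.2 :=
    (Measure.quasiMeasurePreserving_snd (μ := (volume : Measure Pos))).ae hae
  have hcongr : ∀ {H : ℝ → Phase → ℝ}, RenSolution (fun z => f z.2) H →
      RenSolution (fun z => f₁ z.2) H := fun h => by
    refine { h with init := h.init.trans he, renorm := ?_, mass := ?_, energy := ?_ }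
    · intro β hβ φ hφ
      have e : ∫ z : Phase, stdMax z.2 * β (f₁ z.2 / stdMax z.2) * φ 0 (lift z.1) z.2 =
          ∫ z : Phase, stdMax z.2 * β (f z.2 / stdMax z.2) * φ 0 (lift z.1) z.2 :=
        integral_congr_ae (he.mono fun z hz => by simp only at hz; simp only [hz])
      rw [e]
      exact h.renorm β hβ φ hφ
    · exact fun s hs => (h.mass s hs).trans (integral_congr_ae he)
    · exact fun s hs => (h.energy s hs).trans_eq
        (integral_congr_ae (he.mono fun z hz => by simp only at hz; simp only [hz]))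
  have hF' := hcongr hF
  have hG' := hcongr hG
  have hT : (0 : ℝ) < t + 1 := by linarith
  obtain ⟨A, hA, hn⟩ := htr f₁ hm (fun v => le_max_right _ _) hint₁ (t + 1) hT
  choose g hg hgm using fun n : ℕ => hn (n + 1) (Nat.succ_le_succ (Nat.zero_le n))
  refine hF'.eq_of_ae_time hG' hT ?_ t ⟨ht, by linarith⟩
  filter_upwards [tendsto_gaps hF' hm (fun v => le_max_right _ _) hint₁ hT hA hg hgm,
    tendsto_gaps hG' hm (fun v => le_max_right _ _) hint₁ hT hA hg hgm] with s ⟨a1, a2⟩ ⟨b1, b2⟩
  have k : ∀ {P Q : ℝ → Phase → ℝ}, (Measurable fun p : ℝ × Phase => P p.1 p.2) →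
      (Measurable fun p : ℝ × Phase => Q p.1 p.2) →
      Tendsto (fun n => gap P (fun r z => g n r z.2) s) atTop (𝓝 0) →
      Tendsto (fun n => gap (fun r z => g n r z.2) Q s) atTop (𝓝 0) → ∀ᵐ z, Q s z ≤ P s z := by
    intro P Q hP hQ h1 h2
    have h3 := h1.add h2
    rw [add_zero] at h3
    exact ae_le_of_gap_eq_zero hP hQ (le_antisymm (ge_of_tendsto h3 (Eventually.of_forall fun n =>
      gap_triangle hP (hg n).measurable s)) zero_le)
  filter_upwards [k hF.measurable hG.measurable a1 b2, k hG.measurable hF.measurable b1 a2] with z h1 h2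
  exact le_antisymm h2 h1

end Vale.Agent.P140
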