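import Vale.Agent.P140.Collision

/-!
# P140, homogeneous data: the regularised collision operator and its moments

For an extended nonnegative velocity profile `h` the operator `shifted h = Q⁺(h, h) + h · D h`, with
`D(v, u) = c (w(v) + w(u)) - ∫ |a| dω ≥ 0`, is monotone in `h`, and its first three weighted moments
are computed by the collision invariance.
-/

noncomputable section

namespace Vale.Agent.P140.Homogeneous

open MeasureTheory Set
open scoped ENNReal InnerProductSpace

/-- `1 + |v|²` as an extended number. -/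
def wt (v : Vel) : ℝ≥0∞ := ENNReal.ofReal (weight v)

/-- The collision kernel `|a|`. -/
def ker (v u : Vel) (o : Sph) : ℝ≥0∞ := ENNReal.ofReal |rate v u o|

/-- `∫ |a| dω`. -/
def bker (v u : Vel) : ℝ≥0∞ := ∫⁻ o, ker v u o ∂surf

/-- The constant in `∫ |a| dω ≤ c (w(v) + w(u))`. -/
def cst : ℝ≥0∞ := surf univ

/-- The nonnegative kernel `c (w(v) + w(u)) - ∫ |a| dω`. -/
def dker (v u : Vel) : ℝ≥0∞ := cst * (wt v + wt u) - bker v u

/-- The gain `Q⁺(h, h)`. -/
def gainE (h : Vel → ℝ≥0∞) (v : Vel) : ℝ≥0∞ :=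
  ∫⁻ u, ∫⁻ o, ker v u o * h (post v u o).1 * h (post v u o).2 ∂surf

/-- The collision frequency. -/
def freqE (h : Vel → ℝ≥0∞) (v : Vel) : ℝ≥0∞ := ∫⁻ u, bker v u * h u

/-- The monotone operator. -/
def shifted (h : Vel → ℝ≥0∞) (v : Vel) : ℝ≥0∞ := gainE h v + h v * ∫⁻ u, dker v u * h u

/-- The moment `∫ w^k h`. -/
def mom (k : ℕ) (h : Vel → ℝ≥0∞) : ℝ≥0∞ := ∫⁻ v, wt v ^ k * h v

/-- `∫∫ K(v, u) h(v) h(u)`. -/
def pair (K : Vel → Vel → ℝ≥0∞) (h : Vel → ℝ≥0∞) : ℝ≥0∞ := ∫⁻ v, ∫⁻ u, K v u * (h v * h u)

theorem cst_ne_top : cst ≠ ∞ := measure_ne_top _ _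

@[fun_prop]
theorem measurable_ker : Measurable fun p : Vel × Vel × Sph => ker p.1 p.2.1 p.2.2 := by
  unfold ker
  exact ENNReal.measurable_ofReal.comp continuous_rate.abs.measurable

@[fun_prop]
theorem measurable_wt : Measurable wt := by
  unfold wt weight
  fun_prop

theorem wt_ne_top (v : Vel) : wt v ≠ ∞ := ENNReal.ofReal_ne_top

theorem one_le_wt (v : Vel) : 1 ≤ wt v := by
  rw [wt, ← ENNReal.ofReal_one]
  exact ENNReal.ofReal_le_ofReal (by unfold weight; nlinarith [sq_nonneg ‖v‖])

@[fun_prop]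
theorem measurable_bker : Measurable fun p : Vel × Vel => bker p.1 p.2 := by
  have h : Measurable fun p : (Vel × Vel) × Sph => ker p.1.1 p.1.2 p.2 :=
    measurable_ker.comp (f := fun p : (Vel × Vel) × Sph => (p.1.1, p.1.2, p.2)) (by fun_prop)
  exact Measurable.lintegral_prod_right' (ν := surf)
    (f := fun p : (Vel × Vel) × Sph => ker p.1.1 p.1.2 p.2) h

@[fun_prop]
theorem measurable_dker : Measurable fun p : Vel × Vel => dker p.1 p.2 := by
  unfold dker
  fun_prop

theorem bker_le (v u : Vel) : bker v u ≤ cst * (wt v + wt u) := by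
  have h : ∀ o, ker v u o ≤ wt v + wt u := fun o => by
    rw [ker, wt, wt, ← ENNReal.ofReal_add (by unfold weight; positivity)
      (by unfold weight; positivity)]
    refine ENNReal.ofReal_le_ofReal ?_
    have h1 := abs_real_inner_le_norm (v - u) (o : Vel)
    rw [norm_eq_of_mem_sphere o, mul_one] at h1
    have h2 := norm_sub_le v u
    unfold weight rate
    nlinarith [sq_nonneg (‖v‖ - 1), sq_nonneg (‖u‖ - 1)]
  refine (lintegral_mono h).trans_eq ?_
  rw [lintegral_const, mul_comm]
  rfl

theorem bker_add_dker (v u : Vel) : bker v u + dker v u = cst * (wt v + wt u) :=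
  add_tsub_cancel_of_le (bker_le v u)

theorem ker_swap (v u : Vel) (o : Sph) : ker u v o = ker v u o := by
  simp [ker, rate_swap v u o]

theorem bker_swap (v u : Vel) : bker u v = bker v u := by simp [bker, ker_swap v u]

section Pair

variable {h : Vel → ℝ≥0∞}

theorem pair_congr {K K' : Vel → Vel → ℝ≥0∞} (hK : ∀ v u, K v u = K' v u) :
    pair K h = pair K' h := by simp [pair, hK]

theorem pair_mono {K K' : Vel → Vel → ℝ≥0∞} (hK : ∀ v u, K v u ≤ K' v u) :
    pair K h ≤ pair K' h :=
  lintegral_mono fun v => lintegral_mono fun u => mul_le_mul' (hK v u) le_rfl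

theorem pair_add (hh : Measurable h) {K K' : Vel → Vel → ℝ≥0∞}
    (hK : Measurable fun p : Vel × Vel => K p.1 p.2) :
    pair (fun v u => K v u + K' v u) h = pair K h + pair K' h := by
  have hm : Measurable fun p : Vel × Vel => K p.1 p.2 * (h p.1 * h p.2) := by fun_prop
  simp only [pair, add_mul]
  rw [← lintegral_add_left hm.lintegral_prod_right']
  exact lintegral_congr fun v => lintegral_add_left
    (hm.comp (measurable_const.prodMk measurable_id)) _

theorem pair_const_mul {c : ℝ≥0∞} (hc : c ≠ ∞) (K : Vel → Vel → ℝ≥0∞) :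
    pair (fun v u => c * K v u) h = c * pair K h := by
  simp only [pair, mul_assoc]
  rw [← lintegral_const_mul' _ _ hc]
  exact lintegral_congr fun v => lintegral_const_mul' _ _ hc

theorem pair_swap (hh : Measurable h) {K : Vel → Vel → ℝ≥0∞}
    (hK : Measurable fun p : Vel × Vel => K p.1 p.2) :
    pair (fun v u => K u v) h = pair K h := by
  have hm : Measurable fun p : Vel × Vel => K p.2 p.1 * (h p.1 * h p.2) :=
    (hK.comp measurable_swap).mul (by fun_prop)
  rw [pair, pair, lintegral_lintegral_swap hm.aemeasurable]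
  exact lintegral_congr fun v => lintegral_congr fun u => by rw [mul_comm (h u)]

theorem pair_prod (hh : Measurable h) (i j : ℕ) :
    pair (fun v u => wt v ^ i * wt u ^ j) h = mom i h * mom j h := by
  simp only [pair, mom]
  rw [← lintegral_mul_const _ (by fun_prop)]
  refine lintegral_congr fun v => ?_
  rw [← lintegral_const_mul _ (by fun_prop)]
  exact lintegral_congr fun u => by ring

end Pair

theorem gainE_mono {h h' : Vel → ℝ≥0∞} (hle : h ≤ h') : gainE h ≤ gainE h' := fun v =>
  lintegral_mono fun u => lintegral_mono fun o =>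
    mul_le_mul' (mul_le_mul' le_rfl (hle _)) (hle _)

theorem shifted_mono {h h' : Vel → ℝ≥0∞} (hle : h ≤ h') : shifted h ≤ shifted h' := fun v =>
  add_le_add (gainE_mono hle v)
    (mul_le_mul' (hle v) (lintegral_mono fun u => mul_le_mul' le_rfl (hle u)))

/-- The shifted operator differs from the collision operator by `ν h`. -/
theorem shifted_add_loss {h : Vel → ℝ≥0∞} (hh : Measurable h) (v : Vel) :
    shifted h v + h v * freqE h v =
      gainE h v + h v * (cst * (wt v * mom 0 h + mom 1 h)) := by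
  have h1 : Measurable fun u => dker v u * h u :=
    (measurable_dker.comp (measurable_const.prodMk measurable_id)).mul hh
  have h2 : (∫⁻ u, dker v u * h u) + freqE h v = cst * (wt v * mom 0 h + mom 1 h) := by
    have e : ∀ u, dker v u * h u + bker v u * h u =
        cst * (wt v * h u) + cst * (wt u * h u) := fun u => by
      rw [← add_mul, add_comm (dker v u), bker_add_dker]; ring
    rw [freqE, ← lintegral_add_left h1, lintegral_congr e,
      lintegral_add_left (by fun_prop), lintegral_const_mul' _ _ cst_ne_top,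
      lintegral_const_mul' _ _ cst_ne_top, lintegral_const_mul _ hh]
    simp [mom, mul_add]
  rw [shifted, add_assoc, ← mul_add, h2]

section Joint

variable {α : Type*} [MeasurableSpace α] {g : α → Vel → ℝ≥0∞}

theorem measurable_gainE (hg : Measurable fun p : α × Vel => g p.1 p.2) :
    Measurable fun p : α × Vel => gainE (g p.1) p.2 := by
  have hq : Measurable fun q : ((α × Vel) × Vel) × Sph => (q.1.1.2, q.1.2, q.2) := by fun_prop
  have hk : Measurable fun q : ((α × Vel) × Vel) × Sph => ker q.1.1.2 q.1.2 q.2 :=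
    measurable_ker.comp (f := fun q : ((α × Vel) × Vel) × Sph => (q.1.1.2, q.1.2, q.2)) hq
  have hp : Measurable fun q : ((α × Vel) × Vel) × Sph => post q.1.1.2 q.1.2 q.2 :=
    continuous_post.measurable.comp
      (f := fun q : ((α × Vel) × Vel) × Sph => (q.1.1.2, q.1.2, q.2)) hq
  have h1 : Measurable fun q : ((α × Vel) × Vel) × Sph => g q.1.1.1 (post q.1.1.2 q.1.2 q.2).1 :=
    hg.comp (f := fun q : ((α × Vel) × Vel) × Sph => (q.1.1.1, (post q.1.1.2 q.1.2 q.2).1))
      (measurable_fst.fst.fst.prodMk hp.fst)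
  have h2 : Measurable fun q : ((α × Vel) × Vel) × Sph => g q.1.1.1 (post q.1.1.2 q.1.2 q.2).2 :=
    hg.comp (f := fun q : ((α × Vel) × Vel) × Sph => (q.1.1.1, (post q.1.1.2 q.1.2 q.2).2))
      (measurable_fst.fst.fst.prodMk hp.snd)
  have h3 : Measurable fun q : (α × Vel) × Vel =>
      ∫⁻ o, ker q.1.2 q.2 o * g q.1.1 (post q.1.2 q.2 o).1 * g q.1.1 (post q.1.2 q.2 o).2 ∂surf :=
    Measurable.lintegral_prod_right' (ν := surf) (f := fun q : ((α × Vel) × Vel) × Sph =>
      ker q.1.1.2 q.1.2 q.2 * g q.1.1.1 (post q.1.1.2 q.1.2 q.2).1 *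
        g q.1.1.1 (post q.1.1.2 q.1.2 q.2).2) ((hk.mul h1).mul h2)
  exact Measurable.lintegral_prod_right' (f := fun q : (α × Vel) × Vel =>
      ∫⁻ o, ker q.1.2 q.2 o * g q.1.1 (post q.1.2 q.2 o).1 * g q.1.1 (post q.1.2 q.2 o).2 ∂surf) h3

theorem measurable_freqE (hg : Measurable fun p : α × Vel => g p.1 p.2) :
    Measurable fun p : α × Vel => freqE (g p.1) p.2 :=
  Measurable.lintegral_prod_right' (f := fun q : (α × Vel) × Vel => bker q.1.2 q.2 * g q.1.1 q.2)
    ((measurable_bker.comp (f := fun q : (α × Vel) × Vel => (q.1.2, q.2)) (by fun_prop)).mul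
    (hg.comp (f := fun q : (α × Vel) × Vel => (q.1.1, q.2)) (by fun_prop)))

theorem measurable_shifted (hg : Measurable fun p : α × Vel => g p.1 p.2) :
    Measurable fun p : α × Vel => shifted (g p.1) p.2 :=
  (measurable_gainE hg).add (hg.mul
    (Measurable.lintegral_prod_right' (f := fun q : (α × Vel) × Vel => dker q.1.2 q.2 * g q.1.1 q.2)
    ((measurable_dker.comp (f := fun q : (α × Vel) × Vel => (q.1.2, q.2)) (by fun_prop)).mul
      (hg.comp (f := fun q : (α × Vel) × Vel => (q.1.1, q.2)) (by fun_prop)))))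

theorem measurable_mom (hg : Measurable fun p : α × Vel => g p.1 p.2) (k : ℕ) :
    Measurable fun a => mom k (g a) := by
  have hm : Measurable fun p : α × Vel => wt p.2 ^ k * g p.1 p.2 := by fun_prop
  exact Measurable.lintegral_prod_right' (f := fun p : α × Vel => wt p.2 ^ k * g p.1 p.2) hm

end Joint

theorem mom_mono (k : ℕ) {h h' : Vel → ℝ≥0∞} (hle : h ≤ h') : mom k h ≤ mom k h' :=
  lintegral_mono fun v => mul_le_mul' le_rfl (hle v)

theorem mom_le_succ (k : ℕ) (h : Vel → ℝ≥0∞) : mom k h ≤ mom (k + 1) h :=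
  lintegral_mono fun v => mul_le_mul' (pow_le_pow_right₀ (one_le_wt v) k.le_succ) le_rfl

theorem iSup_mul_iSup_mono {a b : ℕ → ℝ≥0∞} (ha : Monotone a) (hb : Monotone b) :
    (⨆ n, a n) * (⨆ n, b n) = ⨆ n, a n * b n := by
  refine le_antisymm ?_ (iSup_le fun n => mul_le_mul' (le_iSup a n) (le_iSup b n))
  simp only [ENNReal.iSup_mul, ENNReal.mul_iSup]
  refine iSup_le fun i => iSup_le fun j => le_iSup_of_le (max i j) ?_
  exact mul_le_mul' (ha (by omega)) (hb (by omega))

/-- The shifted operator commutes with increasing limits. -/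
theorem shifted_iSup {h : ℕ → Vel → ℝ≥0∞} (hm : ∀ n, Measurable (h n)) (hmo : Monotone h)
    (v : Vel) : shifted (fun v => ⨆ n, h n v) v = ⨆ n, shifted (h n) v := by
  have hD : Measurable fun u => dker v u := measurable_dker.comp
    (f := fun u : Vel => (v, u)) (by fun_prop)
  have hk : Measurable fun p : Vel × Sph => ker v p.1 p.2 := measurable_ker.comp
    (f := fun p : Vel × Sph => (v, p.1, p.2)) (by fun_prop)
  have hp : Measurable fun p : Vel × Sph => post v p.1 p.2 := continuous_post.measurable.comp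
    (f := fun p : Vel × Sph => (v, p.1, p.2)) (by fun_prop)
  have hI : ∀ n, Measurable fun p : Vel × Sph =>
      ker v p.1 p.2 * h n (post v p.1 p.2).1 * h n (post v p.1 p.2).2 := fun n =>
    (hk.mul ((hm n).comp (f := fun p : Vel × Sph => (post v p.1 p.2).1) hp.fst)).mul
      ((hm n).comp (f := fun p : Vel × Sph => (post v p.1 p.2).2) hp.snd)
  have hA : Monotone fun n => ∫⁻ u, dker v u * h n u := fun i j hij =>
    lintegral_mono fun u => mul_le_mul' le_rfl (hmo hij u)
  have h1 : gainE (fun v => ⨆ n, h n v) v = ⨆ n, gainE (h n) v := by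
    simp only [gainE]
    rw [← lintegral_iSup (fun n => Measurable.lintegral_prod_right' (f := fun p : Vel × Sph =>
      ker v p.1 p.2 * h n (post v p.1 p.2).1 * h n (post v p.1 p.2).2) (hI n)) fun i j hij u =>
      lintegral_mono fun o => mul_le_mul' (mul_le_mul' le_rfl (hmo hij _)) (hmo hij _)]
    refine lintegral_congr fun u => ?_
    rw [← lintegral_iSup (fun n => show Measurable fun o =>
        ker v u o * h n (post v u o).1 * h n (post v u o).2 from
        (hI n).comp (f := fun o : Sph => (u, o)) (by fun_prop))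
      fun i j hij o => mul_le_mul' (mul_le_mul' le_rfl (hmo hij _)) (hmo hij _)]
    refine lintegral_congr fun o => ?_
    rw [mul_assoc, iSup_mul_iSup_mono (fun i j hij => hmo hij _) (fun i j hij => hmo hij _),
      ENNReal.mul_iSup]
    simp only [mul_assoc]
  have h2 : (∫⁻ u, dker v u * ⨆ n, h n u) = ⨆ n, ∫⁻ u, dker v u * h n u := by
    simp only [ENNReal.mul_iSup]
    exact lintegral_iSup (fun n => hD.mul (hm n)) fun i j hij u =>
      mul_le_mul' le_rfl (hmo hij u)
  simp only [shifted]
  rw [h1, h2, iSup_mul_iSup_mono (fun i j hij => hmo hij v) hA,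
    ENNReal.iSup_add_iSup_of_monotone (fun i j hij => gainE_mono (hmo hij) v)
      (fun i j hij => mul_le_mul' (hmo hij v) (hA hij))]

end Vale.Agent.P140.Homogeneous
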