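import Vale.Agent.P140.HomScheme

/-!
# P140, homogeneous data: the limit conserves mass and energy and solves the equation

The deficits of mass and energy satisfy a homogeneous linear integral inequality, so they vanish;
then the damping is exactly the loss part that was added.
-/

noncomputable section

namespace Vale.Agent.P140.Homogeneous

open MeasureTheory Set
open scoped ENNReal

/-- A bounded solution of a homogeneous Gronwall inequality is zero. -/
theorem gronwall_zero {φ : ℝ → ℝ≥0∞} {K B : ℝ≥0∞} {T : ℝ} (hK : K ≠ ∞) (hB : B ≠ ∞)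
    (hb : ∀ t ∈ Icc 0 T, φ t ≤ B)
    (h : ∀ t ∈ Icc 0 T, φ t ≤ ∫⁻ s in Icc 0 t, K * φ s) :
    ∀ t ∈ Icc 0 T, φ t = 0 := by
  set κ := K.toReal with hκ
  have hκ0 : 0 ≤ κ := ENNReal.toReal_nonneg
  set N := ⨆ t ∈ Icc (0 : ℝ) T, φ t * ENNReal.ofReal (Real.exp (-(2 * κ * t))) with hN
  have hNt : N ≠ ∞ := ne_top_of_le_ne_top hB <| iSup₂_le fun t ht =>
    (mul_le_mul' (hb t ht) (ENNReal.ofReal_le_one.2 (Real.exp_le_one_iff.2
      (neg_nonpos.2 (by have := ht.1; positivity))))).trans_eq (mul_one B)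
  have hφ : ∀ s ∈ Icc (0 : ℝ) T, φ s ≤ N * ENNReal.ofReal (Real.exp (2 * κ * s)) := fun s hs =>
    calc φ s = φ s * ENNReal.ofReal (Real.exp (-(2 * κ * s))) *
          ENNReal.ofReal (Real.exp (2 * κ * s)) := by
          rw [mul_assoc, ← ENNReal.ofReal_mul (Real.exp_pos _).le, ← Real.exp_add, neg_add_cancel,
            Real.exp_zero, ENNReal.ofReal_one, mul_one]
      _ ≤ _ := mul_le_mul' (le_iSup₂ (f := fun t (_ : t ∈ Icc (0 : ℝ) T) =>
          φ t * ENNReal.ofReal (Real.exp (-(2 * κ * t)))) s hs) le_rfl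
  have hd : ∀ x, HasDerivAt (fun s => Real.exp (2 * κ * s) / 2) (κ * Real.exp (2 * κ * x)) x :=
    fun x => by
      have := (((hasDerivAt_id x).const_mul (2 * κ)).exp).div_const 2
      simp only [id_eq, mul_one] at this
      exact this.congr_deriv (by ring)
  have hhalf : N ≤ N * ENNReal.ofReal (1 / 2) := iSup₂_le fun t ht => by
    have h1 : φ t ≤ N * ENNReal.ofReal
        (Real.exp (2 * κ * t) / 2 - Real.exp (2 * κ * 0) / 2) := by
      refine (h t ht).trans ?_
      rw [← lint_deriv hd (by fun_prop) (fun x => by positivity) ht.1,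
        ← lintegral_const_mul _ (by fun_prop)]
      refine setLIntegral_mono' measurableSet_Icc fun s hs => ?_
      refine (mul_le_mul' le_rfl (hφ s ⟨hs.1, hs.2.trans ht.2⟩)).trans_eq ?_
      rw [ENNReal.ofReal_mul hκ0, hκ, ENNReal.ofReal_toReal hK]
      ring
    refine (mul_le_mul' h1 le_rfl).trans ?_
    rw [mul_assoc, ← ENNReal.ofReal_mul' (Real.exp_pos _).le]
    refine mul_le_mul' le_rfl (ENNReal.ofReal_le_ofReal ?_)
    have h2 : Real.exp (2 * κ * t) * Real.exp (-(2 * κ * t)) = 1 := by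
      rw [← Real.exp_add, add_neg_cancel, Real.exp_zero]
    rw [mul_zero, Real.exp_zero]
    nlinarith [Real.exp_pos (-(2 * κ * t))]
  have hN0 : N = 0 := by
    have h2 := ENNReal.toReal_mono (ENNReal.mul_ne_top hNt ENNReal.ofReal_ne_top) hhalf
    rw [ENNReal.toReal_mul, ENNReal.toReal_ofReal (by norm_num)] at h2
    exact ((ENNReal.toReal_eq_zero_iff N).1 (by linarith [N.toReal_nonneg])).resolve_right hNt
  exact fun t ht => le_antisymm ((hφ t ht).trans_eq (by simp [hN0])) zero_le

variable {F : Vel → ℝ≥0∞}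

theorem mom_limit_identity (hF : Measurable F) (h0 : mom 0 F ≠ ∞) (h1 : mom 1 F ≠ ∞) {t : ℝ}
    (ht : 0 ≤ t) (k : ℕ) :
    mom k (limit F t) + ∫⁻ r in Icc 0 t,
        cst * (mom 0 F * mom (k + 1) (limit F r) + mom 1 F * mom k (limit F r)) =
      mom k F + ∫⁻ s in Icc 0 t, mom k (shifted (limit F s)) := by
  have e : step F (limit F) = limit F := funext fun t => funext fun v => step_limit hF t v
  have := mom_step hF h0 h1 (measurable_limit hF) ht k
  rwa [e] at this

theorem deficit_identity {a r P U : ℝ≥0∞} (ha : a ≠ ∞) (hP : P ≠ ∞)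
    (h : a + (P + U) = r + a + P) : U = r := by
  refine (ENNReal.add_right_inj (a := a + P) (ENNReal.add_ne_top.2 ⟨ha, hP⟩)).1 ?_
  rw [add_assoc, h]
  ring

/-- The mass and the energy are conserved. -/
theorem limit_conserved (hF : Measurable F) (h0 : mom 0 F ≠ ∞) (h1 : mom 1 F ≠ ∞)
    (h2 : mom 2 F ≠ ∞) {T : ℝ} :
    ∀ t ∈ Icc 0 T, mom 0 (limit F t) = mom 0 F ∧ mom 1 (limit F t) = mom 1 F := by
  set R0 := mom 0 F with hR0
  set R1 := mom 1 F with hR1
  set A := fun k s => mom k (limit F s) with hA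
  have hb : ∀ s, 0 ≤ s → A 0 s ≤ R0 ∧ A 1 s ≤ R1 ∧ A 2 s ≤ bound F s := fun s hs =>
    limit_bounds hF h0 h1 h2 hs
  have hAm : ∀ k, Measurable (A k) := fun k => measurable_mom (measurable_limit hF) k
  have hsl := fun s => measurable_slice (measurable_limit hF) s
  have key : ∀ t, 0 ≤ t →
      (R0 - A 0 t = ∫⁻ s in Icc 0 t, cst * ((R0 - A 0 s) * A 1 s + (R1 - A 1 s) * A 0 s)) ∧
        R1 - A 1 t = ∫⁻ s in Icc 0 t, cst * ((R0 - A 0 s) * A 2 s + (R1 - A 1 s) * A 1 s) := by
    intro t ht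
    have e : ∀ s ∈ Icc (0 : ℝ) t, ∀ j i,
        cst * (R0 * A j s + R1 * A i s) = cst * (A j s * A 0 s + A i s * A 1 s) +
          cst * ((R0 - A 0 s) * A j s + (R1 - A 1 s) * A i s) := fun s hs j i => by
      conv_lhs => rw [← tsub_add_cancel_of_le (hb s hs.1).1, ← tsub_add_cancel_of_le (hb s hs.1).2.1]
      ring
    refine ⟨(deficit_identity (P := ∫⁻ s in Icc 0 t, cst * (A 1 s * A 0 s + A 0 s * A 1 s))
        (ne_top_of_le_ne_top h0 (hb t ht).1) ?_ ?_).symm,
      (deficit_identity (P := ∫⁻ s in Icc 0 t, cst * (A 2 s * A 0 s + A 1 s * A 1 s))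
        (ne_top_of_le_ne_top h1 (hb t ht).2.1) ?_ ?_).symm⟩
    · refine setLIntegral_Icc_ne_top (C := cst * (R1 * R0 + R0 * R1))
        (by simp [ENNReal.mul_eq_top, cst_ne_top, h0, h1]) fun s hs => ?_
      exact mul_le_mul' le_rfl (add_le_add (mul_le_mul' (hb s hs.1).2.1 (hb s hs.1).1)
        (mul_le_mul' (hb s hs.1).1 (hb s hs.1).2.1))
    · rw [← lintegral_add_left (by fun_prop), tsub_add_cancel_of_le (hb t ht).1]
      have := mom_limit_identity hF h0 h1 ht 0
      rw [setLIntegral_congr_fun measurableSet_Icc fun s hs => e s hs 1 0,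
        setLIntegral_congr_fun measurableSet_Icc (g := fun s =>
          cst * (A 1 s * A 0 s + A 0 s * A 1 s)) fun s _ => mom_shifted_zero (hsl s)] at this
      exact this
    · refine setLIntegral_Icc_ne_top (C := cst * (bound F t * R0 + R1 * R1))
        (by simp [ENNReal.mul_eq_top, cst_ne_top, h0, h1, bound_ne_top h2]) fun s hs => ?_
      exact mul_le_mul' le_rfl (add_le_add
        (mul_le_mul' ((hb s hs.1).2.2.trans (bound_mono hs.2)) (hb s hs.1).1)
        (mul_le_mul' (hb s hs.1).2.1 (hb s hs.1).2.1))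
    · rw [← lintegral_add_left (by fun_prop), tsub_add_cancel_of_le (hb t ht).2.1]
      have := mom_limit_identity hF h0 h1 ht 1
      rw [setLIntegral_congr_fun measurableSet_Icc fun s hs => e s hs 2 1,
        setLIntegral_congr_fun measurableSet_Icc (g := fun s =>
          cst * (A 2 s * A 0 s + A 1 s * A 1 s)) fun s _ => mom_shifted_one (hsl s)] at this
      exact this
  have hz := gronwall_zero (T := T) (φ := fun t => (R0 - A 0 t) + (R1 - A 1 t))
    (K := cst * (R0 + R1 + (R1 + bound F T))) (B := R0 + R1)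
    (by simp [ENNReal.mul_eq_top, cst_ne_top, h0, h1, bound_ne_top h2])
    (ENNReal.add_ne_top.2 ⟨h0, h1⟩) (fun t _ => add_le_add tsub_le_self tsub_le_self)
    fun t ht => by
      rw [(key t ht.1).1, (key t ht.1).2, ← lintegral_add_left (by fun_prop)]
      refine setLIntegral_mono' measurableSet_Icc fun s hs => ?_
      rw [← mul_add, mul_assoc cst]
      refine mul_le_mul' le_rfl ?_
      calc (R0 - A 0 s) * A 1 s + (R1 - A 1 s) * A 0 s +
            ((R0 - A 0 s) * A 2 s + (R1 - A 1 s) * A 1 s)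
          = (A 1 s + A 2 s) * (R0 - A 0 s) + (A 0 s + A 1 s) * (R1 - A 1 s) := by ring
        _ ≤ (R0 + R1 + (R1 + bound F T)) * (R0 - A 0 s) +
            (R0 + R1 + (R1 + bound F T)) * (R1 - A 1 s) := by
          refine add_le_add (mul_le_mul' ?_ le_rfl) (mul_le_mul' ?_ le_rfl)
          · exact (add_le_add (hb s hs.1).2.1
              ((hb s hs.1).2.2.trans (bound_mono (hs.2.trans ht.2)))).trans le_add_self
          · exact (add_le_add (hb s hs.1).1 (hb s hs.1).2.1).trans le_self_add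
        _ = _ := by ring
  intro t ht
  have := hz t ht
  simp only [add_eq_zero, tsub_eq_zero_iff_le] at this
  exact ⟨le_antisymm (hb t ht.1).1 this.1, le_antisymm (hb t ht.1).2.1 this.2⟩

/-- The damped equation is the collision equation, in integrated form. -/
theorem limit_equation (hF : Measurable F) (h0 : mom 0 F ≠ ∞) (h1 : mom 1 F ≠ ∞)
    (h2 : mom 2 F ≠ ∞) {T t : ℝ} (ht : t ∈ Icc 0 T) {v : Vel} (hv : F v ≠ ∞)
    (hG : ∫⁻ s in Icc 0 T, shifted (limit F s) v ≠ ∞) :
    limit F t v + ∫⁻ s in Icc 0 t, limit F s v * freqE (limit F s) v =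
      F v + ∫⁻ s in Icc 0 t, gainE (limit F s) v := by
  have hgm := measurable_limit hF
  have e1 := step_add_lintegral hF h0 h1 hgm ht.1 v
  simp only [step_limit hF] at e1
  have hfin : F v + ∫⁻ s in Icc 0 t, shifted (limit F s) v ≠ ∞ := ENNReal.add_ne_top.2 ⟨hv,
    ne_top_of_le_ne_top hG (lintegral_mono_set (Icc_subset_Icc_right ht.2))⟩
  have hν : nu F v * ∫⁻ s in Icc 0 t, limit F s v ≠ ∞ :=
    ne_top_of_le_ne_top hfin (le_add_self.trans_eq e1)
  have hnu : nu F v ≠ ∞ := ENNReal.mul_ne_top cst_ne_top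
    (ENNReal.add_ne_top.2 ⟨ENNReal.mul_ne_top (wt_ne_top v) h0, h1⟩)
  have e2 : (∫⁻ s in Icc 0 t, shifted (limit F s) v) +
      ∫⁻ s in Icc 0 t, limit F s v * freqE (limit F s) v =
      (∫⁻ s in Icc 0 t, gainE (limit F s) v) + nu F v * ∫⁻ s in Icc 0 t, limit F s v := by
    have m1 : Measurable fun s => shifted (limit F s) v :=
      (measurable_shifted hgm).comp (f := fun s : ℝ => (s, v)) (by fun_prop)
    have m2 : Measurable fun s => gainE (limit F s) v :=
      (measurable_gainE hgm).comp (f := fun s : ℝ => (s, v)) (by fun_prop)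
    rw [← lintegral_const_mul' _ _ hnu, ← lintegral_add_left m1, ← lintegral_add_left m2]
    refine setLIntegral_congr_fun measurableSet_Icc fun s hs => ?_
    have hs' : s ∈ Icc (0 : ℝ) T := ⟨hs.1, hs.2.trans ht.2⟩
    rw [shifted_add_loss (measurable_slice hgm s) v, nu, (limit_conserved hF h0 h1 h2 s hs').1,
      (limit_conserved hF h0 h1 h2 s hs').2, mul_comm (limit F s v)]
  refine (ENNReal.add_left_inj hν).1 ?_
  calc limit F t v + (∫⁻ s in Icc 0 t, limit F s v * freqE (limit F s) v) +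
        nu F v * ∫⁻ s in Icc 0 t, limit F s v
      = (limit F t v + nu F v * ∫⁻ s in Icc 0 t, limit F s v) +
        ∫⁻ s in Icc 0 t, limit F s v * freqE (limit F s) v := by ring
    _ = F v + ((∫⁻ s in Icc 0 t, shifted (limit F s) v) +
        ∫⁻ s in Icc 0 t, limit F s v * freqE (limit F s) v) := by rw [e1, add_assoc]
    _ = _ := by rw [e2, add_assoc]

end Vale.Agent.P140.Homogeneous
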