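import Vale.Agent.P140.HomBasic

/-!
# P140, homogeneous data: the first three moments of the shifted operator
-/

noncomputable section

namespace Vale.Agent.P140.Homogeneous

open MeasureTheory Set
open scoped ENNReal

theorem wt_post (v u : Vel) (o : Sph) :
    wt (post v u o).1 + wt (post v u o).2 = wt v + wt u := by
  simp only [wt]
  rw [← ENNReal.ofReal_add (weight_pos _).le (weight_pos _).le,
    ← ENNReal.ofReal_add (weight_pos _).le (weight_pos _).le, weight_post]

variable {h : Vel → ℝ≥0∞}

theorem collInt_eq_pair (hh : Measurable h) (K : Vel → Vel → ℝ≥0∞) :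
    (collInt fun v u _ => K v u * (h v * h u)) = pair (fun v u => bker v u * K v u) h := by
  refine lintegral_congr fun v => lintegral_congr fun u => ?_
  have hm : Measurable fun o => ker v u o :=
    measurable_ker.comp (f := fun o : Sph => (v, u, o)) (by fun_prop)
  simp only [bker, mul_assoc]
  rw [← lintegral_mul_const _ hm]
  rfl

theorem measurable_postMoment (hh : Measurable h) (k : ℕ) :
    Measurable fun p : Vel × Vel × Sph =>
      wt (post p.1 p.2.1 p.2.2).1 ^ k * (h p.1 * h p.2.1) :=
  ((measurable_wt.comp continuous_post.fst.measurable).pow_const k).mul (by fun_prop)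

theorem mom_gainE (hh : Measurable h) (k : ℕ) :
    mom k (gainE h) = collInt fun v u o => wt (post v u o).1 ^ k * (h v * h u) := by
  rw [← collInt_post (measurable_postMoment hh k)]
  refine lintegral_congr fun v => ?_
  rw [gainE, ← lintegral_const_mul' _ _ (ENNReal.pow_ne_top (wt_ne_top v))]
  refine lintegral_congr fun u => ?_
  rw [← lintegral_const_mul' _ _ (ENNReal.pow_ne_top (wt_ne_top v))]
  refine lintegral_congr fun o => ?_
  simp only [ker, post_post]
  ring

theorem mom_gainE_two_mul (hh : Measurable h) (k : ℕ) :
    2 * mom k (gainE h) = collInt fun v u o =>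
      (wt (post v u o).1 ^ k + wt (post v u o).2 ^ k) * (h v * h u) := by
  have hs : collInt (fun v u o => wt (post v u o).2 ^ k * (h v * h u)) = mom k (gainE h) := by
    rw [mom_gainE hh k, ← collInt_swap (Φ := fun v u o => wt (post v u o).1 ^ k * (h v * h u))
      (measurable_postMoment hh k)]
    refine congrArg collInt (funext fun v => funext fun u => funext fun o => ?_)
    rw [post_swap v u o, mul_comm (h u)]
  rw [two_mul]
  nth_rw 2 [← hs]
  rw [mom_gainE hh k, collInt_add (measurable_postMoment hh k)]
  exact congrArg collInt (funext fun v => funext fun u => funext fun o => (add_mul _ _ _).symm)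

theorem pair_bker_le (hh : Measurable h) :
    pair (fun v u => bker v u * (wt v * wt u)) h ≤ cst * (2 * (mom 2 h * mom 1 h)) := by
  refine (pair_mono fun v u => mul_le_mul' (bker_le v u) le_rfl).trans_eq ?_
  have e : ∀ v u, cst * (wt v + wt u) * (wt v * wt u) =
      cst * (wt v ^ 2 * wt u ^ 1 + wt v ^ 1 * wt u ^ 2) := fun v u => by ring
  rw [pair_congr e, pair_const_mul cst_ne_top, pair_add hh (by fun_prop), pair_prod hh,
    pair_prod hh]
  ring

theorem mom_shifted (hh : Measurable h) (k : ℕ) :
    mom k (shifted h) = mom k (gainE h) + pair (fun v u => dker v u * wt v ^ k) h := by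
  have hg : Measurable fun v => wt v ^ k * gainE h v := by
    have hg' : Measurable (gainE h) :=
      (measurable_gainE (α := Unit) (g := fun _ => h) (hh.comp measurable_snd)).comp
        (f := fun v : Vel => ((), v)) (by fun_prop)
    fun_prop
  simp only [mom, shifted, mul_add]
  rw [lintegral_add_left hg]
  congr 1
  refine lintegral_congr fun v => ?_
  have hD : Measurable fun u => dker v u * h u :=
    (measurable_dker.comp (f := fun u : Vel => (v, u)) (by fun_prop)).mul hh
  rw [← mul_assoc, ← lintegral_const_mul _ hD]
  exact lintegral_congr fun u => by ring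

theorem mom_gainE_zero (hh : Measurable h) :
    mom 0 (gainE h) = pair bker h := by
  rw [mom_gainE hh 0]
  simp only [pow_zero]
  rw [collInt_eq_pair hh fun _ _ => (1 : ℝ≥0∞)]
  exact pair_congr fun v u => mul_one _

theorem mom_gainE_one (hh : Measurable h) :
    mom 1 (gainE h) = pair (fun v u => bker v u * wt v) h := by
  have h2 := mom_gainE_two_mul hh 1
  simp only [pow_one, wt_post] at h2
  rw [collInt_eq_pair hh fun v u => wt v + wt u] at h2
  have hm : Measurable fun p : Vel × Vel => bker p.1 p.2 * wt p.1 := by fun_prop
  have hs := pair_swap (h := h) (K := fun v u => bker v u * wt v) hh hm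
  simp only [mul_add, bker_swap] at h2 hs
  rw [pair_add hh hm, hs, ← two_mul] at h2
  exact (ENNReal.mul_right_inj (by norm_num) (by norm_num)).1 h2

theorem mom_gainE_two (hh : Measurable h) :
    mom 2 (gainE h) ≤
      pair (fun v u => bker v u * wt v ^ 2) h + cst * (2 * (mom 2 h * mom 1 h)) := by
  have h2 := mom_gainE_two_mul hh 2
  have hle : 2 * mom 2 (gainE h) ≤
      pair (fun v u => bker v u * wt v ^ 2 + bker v u * wt u ^ 2 +
        2 * (bker v u * (wt v * wt u))) h := by
    rw [h2]
    refine le_trans (lintegral_mono fun v => lintegral_mono fun u => lintegral_mono fun o => ?_)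
      (le_of_eq ((collInt_eq_pair hh fun v u => (wt v + wt u) ^ 2).trans
        (pair_congr fun v u => by ring)))
    refine mul_le_mul' le_rfl (mul_le_mul' ?_ le_rfl)
    rw [← wt_post v u o, add_sq, add_right_comm]
    exact le_self_add
  have hm : Measurable fun p : Vel × Vel => bker p.1 p.2 * wt p.1 ^ 2 := by fun_prop
  have hs := pair_swap (h := h) (K := fun v u => bker v u * wt v ^ 2) hh hm
  simp only [bker_swap] at hs
  rw [pair_add hh (by fun_prop), pair_add hh hm, hs, pair_const_mul (by norm_num), ← two_mul,
    ← mul_add] at hle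
  exact ((ENNReal.mul_le_mul_iff_right (by norm_num) (by norm_num)).1 hle).trans
    (add_le_add le_rfl (pair_bker_le hh))

theorem pair_bker_add_dker (hh : Measurable h) (k : ℕ) :
    pair (fun v u => bker v u * wt v ^ k) h + pair (fun v u => dker v u * wt v ^ k) h =
      cst * (mom (k + 1) h * mom 0 h + mom k h * mom 1 h) := by
  rw [← pair_add hh (by fun_prop)]
  have e : ∀ v u, bker v u * wt v ^ k + dker v u * wt v ^ k =
      cst * (wt v ^ (k + 1) * wt u ^ 0 + wt v ^ k * wt u ^ 1) := fun v u => by
    rw [← add_mul, bker_add_dker]; ring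
  rw [pair_congr e, pair_const_mul cst_ne_top, pair_add hh (by fun_prop), pair_prod hh,
    pair_prod hh]

theorem mom_shifted_zero (hh : Measurable h) :
    mom 0 (shifted h) = cst * (mom 1 h * mom 0 h + mom 0 h * mom 1 h) := by
  have := pair_bker_add_dker hh 0
  rw [mom_shifted hh, mom_gainE_zero hh]
  simpa using this

theorem mom_shifted_one (hh : Measurable h) :
    mom 1 (shifted h) = cst * (mom 2 h * mom 0 h + mom 1 h * mom 1 h) := by
  have := pair_bker_add_dker hh 1
  rw [mom_shifted hh, mom_gainE_one hh]
  simpa using this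

theorem mom_shifted_two (hh : Measurable h) :
    mom 2 (shifted h) ≤ cst * (mom 3 h * mom 0 h) + 3 * cst * (mom 2 h * mom 1 h) := by
  rw [mom_shifted hh]
  refine (add_le_add (mom_gainE_two hh) le_rfl).trans_eq ?_
  rw [add_right_comm, pair_bker_add_dker hh 2]
  ring

end Vale.Agent.P140.Homogeneous
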