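import Vale.Agent.P140.Collision

/-!
# P140: a Povzner inequality for the square of the weight

The collisions lose `|v|⁵` of the fourth moment on a band of directions whose surface measure is
bounded below uniformly in the axis.
-/

noncomputable section

namespace Vale.Agent.P140

open MeasureTheory Set Filter Real
open scoped Topology ENNReal InnerProductSpace

/-- The directions at a definite angle to `e`. -/
def band (r s : ℝ) (e : Vel) : Set Sph := {o | |⟪e, (o : Vel)⟫_ℝ| ∈ Ioo r s}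

lemma isOpen_band (r s : ℝ) (e : Vel) : IsOpen (band r s e) :=
  isOpen_Ioo.preimage (f := fun o : Sph => |⟪e, (o : Vel)⟫_ℝ|) (by fun_prop)

lemma band_nonempty {e : Vel} (he : ‖e‖ = 1) : (band (3 / 5) (7 / 10) e).Nonempty := by
  have hex : ∃ i, |e i| ≤ 3 / 5 := by
    by_contra! h
    have h2 := EuclideanSpace.norm_sq_eq e
    rw [he, one_pow, Fin.sum_univ_three] at h2
    have hp : ∀ i, (9 / 25 : ℝ) < ‖e i‖ ^ 2 := fun i => by
      rw [Real.norm_eq_abs]; nlinarith [h i]
    linarith [hp 0, hp 1, hp 2]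
  obtain ⟨i, hi⟩ := hex
  have hrank : 1 < Module.rank ℝ Vel := by
    rw [rank_eq_card_basis (EuclideanSpace.basisFun (Fin 3) ℝ).toBasis]
    simp
  have hpre := isPreconnected_sphere hrank (0 : Vel) 1
  have hc : ContinuousOn (fun o : Vel => |⟪e, o⟫_ℝ|) (Metric.sphere 0 1) := by fun_prop
  have h1 : |⟪e, EuclideanSpace.single i (1 : ℝ)⟫_ℝ| ≤ 3 / 5 := by
    simpa [EuclideanSpace.inner_single_right] using hi
  obtain ⟨o, ho, hval⟩ := hpre.intermediate_value (a := EuclideanSpace.single i (1 : ℝ)) (b := e)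
    (by simp) (by simpa using he) hc (show (13 / 20 : ℝ) ∈ Icc _ _ from
      ⟨h1.trans (by norm_num), by
        rw [real_inner_self_eq_norm_sq, he]; norm_num⟩)
  refine ⟨⟨o, ho⟩, ?_⟩
  show |⟪e, o⟫_ℝ| ∈ Ioo (3 / 5 : ℝ) (7 / 10)
  dsimp only at hval
  rw [hval]
  constructor <;> norm_num

/-- The band has measure bounded below uniformly in its axis. -/
lemma exists_band_lower :
    ∃ β : ℝ, 0 < β ∧ ∀ e : Vel, ‖e‖ = 1 → β ≤ surf.real (band (1 / 2) (4 / 5) e) := by
  have hK : IsCompact (Metric.sphere (0 : Vel) 1) := isCompact_sphere _ _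
  suffices h : ∃ β : ℝ, 0 < β ∧ ∀ e ∈ Metric.sphere (0 : Vel) 1,
      β ≤ surf.real (band (1 / 2) (4 / 5) e) by
    obtain ⟨β, hβ, h⟩ := h
    exact ⟨β, hβ, fun e he => h e (by simpa using he)⟩
  refine hK.induction_on
    (p := fun S => ∃ β : ℝ, 0 < β ∧ ∀ e ∈ S, β ≤ surf.real (band (1 / 2) (4 / 5) e))
    ⟨1, one_pos, by simp⟩
    (fun S S' hS h => h.imp fun β hb => ⟨hb.1, fun e he => hb.2 e (hS he)⟩)
    (fun S S' h h' => ?_) fun e he => ?_
  · obtain ⟨β, hβ, hb⟩ := h
    obtain ⟨β', hβ', hb'⟩ := h'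
    exact ⟨min β β', lt_min hβ hβ', fun e he => he.elim
      (fun h => (min_le_left _ _).trans (hb e h)) fun h => (min_le_right _ _).trans (hb' e h)⟩
  rw [mem_sphere_zero_iff_norm] at he
  refine ⟨Metric.sphere 0 1 ∩ Metric.ball e (1 / 10),
    inter_mem_nhdsWithin _ (Metric.ball_mem_nhds _ (by norm_num)),
    surf.real (band (3 / 5) (7 / 10) e), ?_, fun f hf => ?_⟩
  · rw [measureReal_def]
    have : surf.IsOpenPosMeasure := by unfold surf; infer_instance
    exact ENNReal.toReal_pos ((isOpen_band _ _ e).measure_ne_zero _ (band_nonempty he))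
      (measure_ne_top _ _)
  · refine measureReal_mono (fun o ho => ?_)
    have hd : |⟪f, (o : Vel)⟫_ℝ - ⟪e, (o : Vel)⟫_ℝ| ≤ 1 / 10 := by
      rw [← inner_sub_left]
      refine (abs_real_inner_le_norm _ _).trans ?_
      rw [norm_sph, mul_one]
      exact (mem_ball_iff_norm.1 hf.2).le
    have hd' := (abs_abs_sub_abs_le_abs_sub _ _).trans hd
    obtain ⟨h1, h2⟩ := ho
    rw [abs_le] at hd'
    constructor <;> linarith

/-- One direction in the band: the product of the weights after the collision is large. -/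
lemma band_bound {v u : Vel} (hv : 1 ≤ ‖v‖) (hu : ‖u‖ ≤ ‖v‖ / 4) {o : Sph}
    (ho : o ∈ band (1 / 2) (4 / 5) (‖v - u‖⁻¹ • (v - u))) :
    ‖v‖ ^ 5 / 5000 ≤ |rate v u o| * (weight (post v u o).1 * weight (post v u o).2) := by
  set n := ‖v - u‖
  have hn1 : 3 / 4 * ‖v‖ ≤ n := by linarith [norm_sub_norm_le v u]
  have hn : 0 < n := by linarith
  set c := ⟪n⁻¹ • (v - u), (o : Vel)⟫_ℝ with hc
  have hrc : rate v u o = n * c := by
    rw [hc, real_inner_smul_left, rate, ← mul_assoc, mul_inv_cancel₀ hn.ne', one_mul]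
  obtain ⟨c1, c2⟩ := ho
  change 1 / 2 < |c| at c1
  change |c| < 4 / 5 at c2
  have ha : |rate v u o| = n * |c| := by rw [hrc, abs_mul, abs_of_pos hn]
  have hperp : ‖(post v u o).1 - u‖ ^ 2 = n ^ 2 * (1 - c ^ 2) := by
    have e : (post v u o).1 - u = (v - u) - rate v u o • (o : Vel) := by simp only [post]; abel
    rw [e, norm_sub_sq_real, real_inner_smul_right, norm_smul, norm_sph, mul_one, Real.norm_eq_abs,
      sq_abs, show ⟪v - u, (o : Vel)⟫_ℝ = rate v u o from rfl, hrc]
    ring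
  have hp : 3 / 5 * n ≤ ‖(post v u o).1 - u‖ := by
    refine (sq_le_sq₀ (by positivity) (norm_nonneg _)).1 ?_
    rw [hperp, ← sq_abs c]
    nlinarith [mul_le_mul c2.le c2.le (abs_nonneg c) (by norm_num : (0 : ℝ) ≤ 4 / 5), sq_nonneg n]
  have h1 : ‖v‖ / 5 ≤ ‖(post v u o).1‖ := by linarith [norm_sub_le (post v u o).1 u]
  have hnc : n / 2 ≤ n * |c| := by nlinarith
  have h2 : ‖v‖ / 8 ≤ ‖(post v u o).2‖ := by
    have e : rate v u o • (o : Vel) = (post v u o).2 - u := by simp only [post]; abel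
    have h3 := norm_sub_le (post v u o).2 u
    rw [← e, norm_smul, norm_sph, mul_one, Real.norm_eq_abs, ha] at h3
    linarith
  have hv0 := norm_nonneg v
  calc ‖v‖ ^ 5 / 5000 ≤ (3 / 8 * ‖v‖) * ((‖v‖ / 5) ^ 2 * (‖v‖ / 8) ^ 2) := by
        nlinarith [pow_nonneg hv0 5]
    _ ≤ _ := by
        rw [ha]
        refine mul_le_mul (by linarith) (mul_le_mul ?_ ?_ (by positivity) (weight_pos _).le)
          (by positivity) (by positivity)
        · exact (pow_le_pow_left₀ (by positivity) h1 2).trans (le_add_of_nonneg_left zero_le_one)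
        · exact (pow_le_pow_left₀ (by positivity) h2 2).trans (le_add_of_nonneg_left zero_le_one)

lemma continuous_dissip (v u : Vel) : Continuous fun o : Sph =>
    |rate v u o| * (weight (post v u o).1 * weight (post v u o).2) := by
  unfold weight post rate; fun_prop

lemma integrable_sph {f : Sph → ℝ} (hf : Continuous f) : Integrable f surf :=
  hf.integrable_of_hasCompactSupport (HasCompactSupport.of_compactSpace f)

lemma integral_band_bound {β : ℝ}
    (hb : ∀ e : Vel, ‖e‖ = 1 → β ≤ surf.real (band (1 / 2) (4 / 5) e))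
    {v u : Vel} (hv : 1 ≤ ‖v‖) (hu : ‖u‖ ≤ ‖v‖ / 4) :
    β * (‖v‖ ^ 5 / 5000) ≤
      ∫ o, |rate v u o| * (weight (post v u o).1 * weight (post v u o).2) ∂surf := by
  have hne : v - u ≠ 0 := fun h => by rw [sub_eq_zero.1 h] at hv hu; linarith
  set e := ‖v - u‖⁻¹ • (v - u)
  set f := fun o : Sph => |rate v u o| * (weight (post v u o).1 * weight (post v u o).2)
  set B := band (1 / 2) (4 / 5) e
  have hf0 : ∀ o, 0 ≤ f o := fun o =>
    mul_nonneg (abs_nonneg _) (mul_nonneg (weight_pos _).le (weight_pos _).le)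
  calc β * (‖v‖ ^ 5 / 5000) ≤ surf.real B * (‖v‖ ^ 5 / 5000) :=
        mul_le_mul_of_nonneg_right (hb e (norm_smul_inv_norm hne)) (by positivity)
    _ = ∫ _o in B, ‖v‖ ^ 5 / 5000 ∂surf := by rw [setIntegral_const, smul_eq_mul]
    _ ≤ ∫ o in B, f o ∂surf := setIntegral_mono_on
        (integrableOn_const (measure_ne_top _ _)) (integrable_sph (continuous_dissip v u)).integrableOn
        (isOpen_band _ _ e).measurableSet fun o ho => band_bound hv hu ho
    _ ≤ _ := setIntegral_le_integral (integrable_sph (continuous_dissip v u))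
        (Eventually.of_forall hf0)

/-- The Povzner inequality: the gain of `w²` loses `|v|⁵ + |u|⁵`, up to lower moments. -/
theorem povzner : ∃ κ C : ℝ, 0 < κ ∧ 0 ≤ C ∧ ∀ v u : Vel,
    (∫⁻ o, ENNReal.ofReal |rate v u o| *
        ENNReal.ofReal (weight (post v u o).1 ^ 2 + weight (post v u o).2 ^ 2) ∂surf) +
      ENNReal.ofReal (κ * (‖v‖ ^ 5 + ‖u‖ ^ 5)) ≤
    (∫⁻ o, ENNReal.ofReal |rate v u o| * ENNReal.ofReal (weight v ^ 2 + weight u ^ 2) ∂surf) +
      ENNReal.ofReal (C * ((1 + ‖v‖ ^ 3) * weight u + weight v * (1 + ‖u‖ ^ 3))) := by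
  obtain ⟨β, hβ, hb⟩ := exists_band_lower
  set κ := β / 5000
  set S := surf.real univ
  have hS : 0 ≤ S := measureReal_nonneg
  refine ⟨κ, 8 * S + 16 * κ, by positivity, by positivity, fun v u => ?_⟩
  set R := (1 + ‖v‖ ^ 3) * weight u + weight v * (1 + ‖u‖ ^ 3)
  have hv0 := norm_nonneg v
  have hu0 := norm_nonneg u
  have hR1 : 1 ≤ R := by
    simp only [R, weight]
    nlinarith [pow_nonneg hv0 3, pow_nonneg hu0 3, mul_nonneg (pow_nonneg hv0 3) (sq_nonneg ‖u‖),
      sq_nonneg ‖u‖, sq_nonneg ‖v‖, mul_nonneg (sq_nonneg ‖v‖) (pow_nonneg hu0 3)]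
  set P := ∫ o, |rate v u o| * (weight (post v u o).1 * weight (post v u o).2) ∂surf
  set M := ∫ o, |rate v u o| * (weight v * weight u) ∂surf
  have hP0 : 0 ≤ P := integral_nonneg fun o =>
    mul_nonneg (abs_nonneg _) (mul_nonneg (weight_pos _).le (weight_pos _).le)
  have hM : M ≤ 4 * S * R := by
    have h1 : ∀ o : Sph, |rate v u o| * (weight v * weight u) ≤ 4 * R := fun o => by
      have hr : |rate v u o| ≤ (1 + ‖v‖) + (1 + ‖u‖) := by
        refine (abs_real_inner_le_norm _ _).trans ?_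
        rw [norm_sph, mul_one]
        linarith [norm_sub_le v u]
      refine (mul_le_mul_of_nonneg_right hr (mul_nonneg (weight_pos v).le (weight_pos u).le)).trans ?_
      have a1 := mul_le_mul_of_nonneg_right (one_add_norm_mul_weight_le v) (weight_pos u).le
      have a2 := mul_le_mul_of_nonneg_right (one_add_norm_mul_weight_le u) (weight_pos v).le
      simp only [R]
      linarith
    calc M ≤ ∫ _o, 4 * R ∂surf := integral_mono (integrable_sph (by unfold rate; fun_prop))
          (integrable_const _) h1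
      _ = 4 * S * R := by rw [integral_const, smul_eq_mul]; ring
  have hkey : κ * (‖v‖ ^ 5 + ‖u‖ ^ 5) ≤ 2 * P + 16 * κ * R := by
    have hκ : 0 < κ := by positivity
    have hκR : 0 ≤ 16 * κ * R := by positivity
    by_cases hA : 1 ≤ ‖v‖ ∧ ‖u‖ ≤ ‖v‖ / 4
    · have h1 := integral_band_bound hb hA.1 hA.2
      have h2 : ‖u‖ ^ 5 ≤ ‖v‖ ^ 5 := pow_le_pow_left₀ hu0 (by linarith [hA.2]) 5
      have h3 := mul_le_mul_of_nonneg_left h2 hκ.le
      have h4 : κ * ‖v‖ ^ 5 ≤ P := le_trans (le_of_eq (by simp only [κ]; ring)) h1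
      linarith
    by_cases hB : 1 ≤ ‖u‖ ∧ ‖v‖ ≤ ‖u‖ / 4
    · have h1 := integral_band_bound hb hB.1 hB.2
      have e : ∫ o, |rate u v o| * (weight (post u v o).1 * weight (post u v o).2) ∂surf = P :=
        integral_congr_ae (Eventually.of_forall fun o => by
          simp only [post_swap v u o, rate_swap v u o, abs_neg]; ring)
      rw [e] at h1
      have h2 : ‖v‖ ^ 5 ≤ ‖u‖ ^ 5 := pow_le_pow_left₀ hv0 (by linarith [hB.2]) 5
      have h3 := mul_le_mul_of_nonneg_left h2 hκ.le
      have h4 : κ * ‖u‖ ^ 5 ≤ P := le_trans (le_of_eq (by simp only [κ]; ring)) h1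
      linarith
    have hv5 : ‖v‖ ^ 5 ≤ 16 * ((1 + ‖v‖ ^ 3) * weight u) := by
      have hw : 1 ≤ (1 + ‖v‖ ^ 3) * weight u := one_le_mul_of_one_le_of_one_le
        (le_add_of_nonneg_right (pow_nonneg hv0 3)) (le_add_of_nonneg_right (sq_nonneg _))
      rcases le_or_gt ‖v‖ 1 with h | h
      · linarith [pow_le_one₀ (n := 5) hv0 h]
      · have hlt : ‖v‖ / 4 < ‖u‖ := not_le.1 fun h' => hA ⟨h.le, h'⟩
        calc ‖v‖ ^ 5 = ‖v‖ ^ 3 * ‖v‖ ^ 2 := by ring
          _ ≤ (1 + ‖v‖ ^ 3) * (16 * weight u) := mul_le_mul (by linarith)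
              (by simp only [weight]; nlinarith) (sq_nonneg _) (by positivity)
          _ = _ := by ring
    have hu5 : ‖u‖ ^ 5 ≤ 16 * (weight v * (1 + ‖u‖ ^ 3)) := by
      have hw : 1 ≤ weight v * (1 + ‖u‖ ^ 3) := one_le_mul_of_one_le_of_one_le
        (le_add_of_nonneg_right (sq_nonneg _)) (le_add_of_nonneg_right (pow_nonneg hu0 3))
      rcases le_or_gt ‖u‖ 1 with h | h
      · linarith [pow_le_one₀ (n := 5) hu0 h]
      · have hlt : ‖u‖ / 4 < ‖v‖ := not_le.1 fun h' => hB ⟨h.le, h'⟩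
        calc ‖u‖ ^ 5 = ‖u‖ ^ 2 * ‖u‖ ^ 3 := by ring
          _ ≤ (16 * weight v) * (1 + ‖u‖ ^ 3) := mul_le_mul
              (by simp only [weight]; nlinarith) (by linarith) (pow_nonneg hu0 3)
              (mul_nonneg (by norm_num) (weight_pos v).le)
          _ = _ := by ring
    have : κ * (‖v‖ ^ 5 + ‖u‖ ^ 5) ≤ κ * (16 * R) :=
      mul_le_mul_of_nonneg_left (by simp only [R]; linarith) hκ.le
    linarith
  have hi1 : Integrable (fun o : Sph => |rate v u o| *
      (weight (post v u o).1 ^ 2 + weight (post v u o).2 ^ 2)) surf :=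
    integrable_sph (by unfold weight post rate; fun_prop)
  have hi2 : Integrable (fun o : Sph => |rate v u o| * (weight v ^ 2 + weight u ^ 2)) surf :=
    integrable_sph (by unfold rate; fun_prop)
  have hdiff : (∫ o, |rate v u o| * (weight (post v u o).1 ^ 2 + weight (post v u o).2 ^ 2) ∂surf) +
      2 * P = (∫ o, |rate v u o| * (weight v ^ 2 + weight u ^ 2) ∂surf) + 2 * M := by
    have j1 : Integrable (fun o : Sph => |rate v u o| *
        (weight (post v u o).1 * weight (post v u o).2)) surf := integrable_sph (continuous_dissip v u)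
    have j2 : Integrable (fun o : Sph => |rate v u o| * (weight v * weight u)) surf :=
      integrable_sph (by unfold rate; fun_prop)
    simp only [P, M]
    rw [← integral_const_mul, ← integral_const_mul, ← integral_add hi1 (j1.const_mul 2),
      ← integral_add hi2 (j2.const_mul 2)]
    refine integral_congr_ae (Eventually.of_forall fun o => ?_)
    have h := weight_post v u o
    simp only
    linear_combination (|rate v u o| *
      (weight (post v u o).1 + weight (post v u o).2 + (weight v + weight u))) * h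
  have conv : ∀ {f : Sph → ℝ}, (∀ o, 0 ≤ f o) → Integrable (fun o => |rate v u o| * f o) surf →
      ∫⁻ o, ENNReal.ofReal |rate v u o| * ENNReal.ofReal (f o) ∂surf =
        ENNReal.ofReal (∫ o, |rate v u o| * f o ∂surf) := fun hf hint => by
    rw [ofReal_integral_eq_lintegral_ofReal hint
      (Eventually.of_forall fun o => mul_nonneg (abs_nonneg _) (hf o))]
    exact lintegral_congr fun o => (ENNReal.ofReal_mul (abs_nonneg _)).symm
  rw [conv (fun o => by positivity) hi1, conv (fun _ => by positivity) hi2,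
    ← ENNReal.ofReal_add (integral_nonneg fun o => mul_nonneg (abs_nonneg _) (by positivity))
      (by positivity),
    ← ENNReal.ofReal_add (integral_nonneg fun o => mul_nonneg (abs_nonneg _) (by positivity))
      (by positivity)]
  refine ENNReal.ofReal_le_ofReal ?_
  linarith

end Vale.Agent.P140
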