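import Vale.Agent.P140.HomConserve
import Vale.Agent.P140.Povzner

/-!
# P140, homogeneous data: the fourth moment of the gain is below that of the loss

The Povzner inequality, averaged against a profile, and the finiteness of the time integral of the
fifth moment along the monotone scheme.
-/

noncomputable section

namespace Vale.Agent.P140.Homogeneous

open MeasureTheory Set
open scoped ENNReal

/-- `|v|⁵` as an extended number. -/
def r5 (v : Vel) : ℝ≥0∞ := ENNReal.ofReal (‖v‖ ^ 5)

/-- `1 + |v|³` as an extended number. -/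
def q3 (v : Vel) : ℝ≥0∞ := ENNReal.ofReal (1 + ‖v‖ ^ 3)

/-- `∫ φ h`. -/
def wsum (φ : Vel → ℝ≥0∞) (h : Vel → ℝ≥0∞) : ℝ≥0∞ := ∫⁻ v, φ v * h v

@[fun_prop]
theorem measurable_r5 : Measurable r5 := by unfold r5; fun_prop

@[fun_prop]
theorem measurable_q3 : Measurable q3 := by unfold q3; fun_prop

theorem wsum_mom (k : ℕ) (h : Vel → ℝ≥0∞) : wsum (fun v => wt v ^ k) h = mom k h := rfl

theorem wsum_mono {φ : Vel → ℝ≥0∞} {h h' : Vel → ℝ≥0∞} (hle : h ≤ h') : wsum φ h ≤ wsum φ h' :=
  lintegral_mono fun v => mul_le_mul' le_rfl (hle v)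

theorem measurable_wsum {α : Type*} [MeasurableSpace α] {g : α → Vel → ℝ≥0∞} {φ : Vel → ℝ≥0∞}
    (hφ : Measurable φ) (hg : Measurable fun p : α × Vel => g p.1 p.2) :
    Measurable fun a => wsum φ (g a) :=
  Measurable.lintegral_prod_right' (f := fun p : α × Vel => φ p.2 * g p.1 p.2)
    ((hφ.comp measurable_snd).mul hg)

theorem q3_le (v : Vel) : q3 v ≤ 2 * wt v ^ 2 := by
  have e : ENNReal.ofReal (2 * weight v ^ 2) = 2 * ENNReal.ofReal (weight v ^ 2) := by
    rw [ENNReal.ofReal_mul zero_le_two, ENNReal.ofReal_ofNat]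
  rw [q3, wt, ← ENNReal.ofReal_pow (weight_pos v).le, ← e]
  refine ENNReal.ofReal_le_ofReal ?_
  unfold weight
  nlinarith [norm_nonneg v, sq_nonneg (‖v‖ - 1), sq_nonneg (‖v‖ ^ 2 - ‖v‖), sq_nonneg (‖v‖ ^ 2)]

theorem wsum_q3_le (h : Vel → ℝ≥0∞) : wsum q3 h ≤ 2 * mom 2 h := by
  rw [mom, ← lintegral_const_mul' _ _ ENNReal.ofNat_ne_top]
  exact lintegral_mono fun v => (mul_le_mul' (q3_le v) le_rfl).trans_eq (mul_assoc _ _ _)

theorem pair_wsum {h : Vel → ℝ≥0∞} (hh : Measurable h) {φ ψ : Vel → ℝ≥0∞} (hφ : Measurable φ)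
    (hψ : Measurable ψ) : pair (fun v u => φ v * ψ u) h = wsum φ h * wsum ψ h := by
  simp only [pair, wsum]
  rw [← lintegral_mul_const _ (f := fun v => φ v * h v) (hφ.mul hh)]
  refine lintegral_congr fun v => ?_
  rw [← lintegral_const_mul _ (f := fun u => ψ u * h u) (hψ.mul hh)]
  exact lintegral_congr fun u => by ring

theorem pair_wsum_sym {h : Vel → ℝ≥0∞} (hh : Measurable h) {φ ψ : Vel → ℝ≥0∞} (hφ : Measurable φ)
    (hψ : Measurable ψ) :
    pair (fun v u => φ v * ψ u + ψ v * φ u) h = 2 * (wsum φ h * wsum ψ h) := by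
  rw [pair_add hh (by fun_prop), pair_wsum hh hφ hψ, pair_wsum hh hψ hφ]
  ring

/-- **The Povzner inequality, averaged.** -/
theorem exists_gain_loss : ∃ κ C : ℝ, 0 < κ ∧ 0 ≤ C ∧ ∀ h : Vel → ℝ≥0∞, Measurable h →
    mom 2 (gainE h) + ENNReal.ofReal κ * (wsum r5 h * mom 0 h) ≤
      pair (fun v u => bker v u * wt v ^ 2) h + ENNReal.ofReal C * (wsum q3 h * mom 1 h) := by
  obtain ⟨κ, C, hκ, hC, hP⟩ := povzner
  refine ⟨κ, C, hκ, hC, fun h hh => ?_⟩
  set a := ENNReal.ofReal κ
  set b := ENNReal.ofReal C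
  have hw2 : ∀ v, wt v ^ 2 = ENNReal.ofReal (weight v ^ 2) := fun v => by
    rw [wt, ← ENNReal.ofReal_pow (weight_pos v).le]
  have hpt : ∀ v u : Vel,
      (∫⁻ o, ker v u o * (wt (post v u o).1 ^ 2 + wt (post v u o).2 ^ 2) ∂surf) +
          a * (r5 v * 1 + 1 * r5 u) ≤
        bker v u * (wt v ^ 2 + wt u ^ 2) + b * (q3 v * wt u + wt v * q3 u) := by
    intro v u
    have h1 := hP v u
    have hm : Measurable fun o => ker v u o :=
      measurable_ker.comp (f := fun o : Sph => (v, u, o)) (by fun_prop)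
    have e1 : ∀ x y : Vel, ENNReal.ofReal (weight x ^ 2 + weight y ^ 2) = wt x ^ 2 + wt y ^ 2 :=
      fun x y => by rw [hw2, hw2, ENNReal.ofReal_add (sq_nonneg _) (sq_nonneg _)]
    have e2 : ENNReal.ofReal (κ * (‖v‖ ^ 5 + ‖u‖ ^ 5)) = a * (r5 v * 1 + 1 * r5 u) := by
      rw [mul_one, one_mul, ENNReal.ofReal_mul hκ.le,
        ENNReal.ofReal_add (pow_nonneg (norm_nonneg v) 5) (pow_nonneg (norm_nonneg u) 5)]
      rfl
    have e3 : ENNReal.ofReal (C * ((1 + ‖v‖ ^ 3) * weight u + weight v * (1 + ‖u‖ ^ 3))) =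
        b * (q3 v * wt u + wt v * q3 u) := by
      have hv := (weight_pos v).le
      have hu := (weight_pos u).le
      rw [ENNReal.ofReal_mul hC, ENNReal.ofReal_add (by positivity) (by positivity),
        ENNReal.ofReal_mul (by positivity), ENNReal.ofReal_mul hv]
      rfl
    simp only [e1, e2, e3] at h1
    rw [lintegral_mul_const _ (f := fun o => ENNReal.ofReal |rate v u o|) hm] at h1
    exact h1
  have hmp : Measurable fun p : Vel × Vel =>
      ∫⁻ o, ker p.1 p.2 o * (wt (post p.1 p.2 o).1 ^ 2 + wt (post p.1 p.2 o).2 ^ 2) ∂surf :=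
    Measurable.lintegral_prod_right' (ν := surf) (f := fun q : (Vel × Vel) × Sph =>
      ker q.1.1 q.1.2 q.2 * (wt (post q.1.1 q.1.2 q.2).1 ^ 2 + wt (post q.1.1 q.1.2 q.2).2 ^ 2))
      ((measurable_ker.comp (f := fun q : (Vel × Vel) × Sph => (q.1.1, q.1.2, q.2)) (by fun_prop)).mul
        (((measurable_wt.comp continuous_post.fst.measurable).pow_const 2).add
          ((measurable_wt.comp continuous_post.snd.measurable).pow_const 2) |>.comp
            (f := fun q : (Vel × Vel) × Sph => (q.1.1, q.1.2, q.2)) (by fun_prop)))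
  have e0 : 2 * mom 2 (gainE h) = pair (fun v u =>
      ∫⁻ o, ker v u o * (wt (post v u o).1 ^ 2 + wt (post v u o).2 ^ 2) ∂surf) h := by
    rw [mom_gainE_two_mul hh 2]
    refine lintegral_congr fun v => lintegral_congr fun u => ?_
    rw [← lintegral_mul_const _ (f := fun o =>
      ker v u o * (wt (post v u o).1 ^ 2 + wt (post v u o).2 ^ 2))]
    · exact lintegral_congr fun o => (mul_assoc _ _ _).symm
    · have hk : Measurable fun o => ker v u o :=
        measurable_ker.comp (f := fun o : Sph => (v, u, o)) (by fun_prop)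
      have hp : Measurable fun o => post v u o :=
        continuous_post.measurable.comp (f := fun o : Sph => (v, u, o)) (by fun_prop)
      exact hk.mul (((measurable_wt.comp hp.fst).pow_const 2).add ((measurable_wt.comp hp.snd).pow_const 2))
  have hb : Measurable fun p : Vel × Vel => bker p.1 p.2 * wt p.1 ^ 2 := by fun_prop
  have hs := pair_swap (h := h) (K := fun v u => bker v u * wt v ^ 2) hh hb
  simp only [bker_swap] at hs
  have e5 : wsum (fun _ => (1 : ℝ≥0∞)) h = mom 0 h := by simp [wsum, mom]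
  have e6 : wsum wt h = mom 1 h := by simp [wsum, mom]
  have key : 2 * mom 2 (gainE h) + a * (2 * (wsum r5 h * mom 0 h)) ≤
      2 * pair (fun v u => bker v u * wt v ^ 2) h + b * (2 * (wsum q3 h * mom 1 h)) := by
    have h1 := pair_mono (h := h) hpt
    rw [pair_add hh hmp, pair_const_mul ENNReal.ofReal_ne_top,
      pair_wsum_sym hh measurable_r5 measurable_const, e5, ← e0] at h1
    have e7 : pair (fun v u => bker v u * (wt v ^ 2 + wt u ^ 2) + b * (q3 v * wt u + wt v * q3 u)) h =
        2 * pair (fun v u => bker v u * wt v ^ 2) h + b * (2 * (wsum q3 h * mom 1 h)) := by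
      simp only [mul_add (bker _ _)]
      rw [pair_add hh (by fun_prop), pair_add hh hb, hs, pair_const_mul ENNReal.ofReal_ne_top,
        pair_wsum_sym hh measurable_q3 measurable_wt, e6, two_mul (pair _ h)]
    exact h1.trans_eq e7
  refine (ENNReal.mul_le_mul_iff_right (a := 2) two_ne_zero ENNReal.ofNat_ne_top).1 ?_
  refine le_of_eq_of_le ?_ (key.trans_eq ?_) <;> ring

theorem exists_shifted_povzner : ∃ κ C : ℝ, 0 < κ ∧ 0 ≤ C ∧ ∀ h : Vel → ℝ≥0∞, Measurable h →
    mom 2 (shifted h) + ENNReal.ofReal κ * (wsum r5 h * mom 0 h) ≤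
      cst * (mom 3 h * mom 0 h + mom 2 h * mom 1 h) + ENNReal.ofReal C * (wsum q3 h * mom 1 h) := by
  obtain ⟨κ, C, hκ, hC, h⟩ := exists_gain_loss
  refine ⟨κ, C, hκ, hC, fun g hg => ?_⟩
  rw [mom_shifted hg, add_right_comm, ← pair_bker_add_dker hg 2]
  refine (add_le_add (h g hg) le_rfl).trans_eq ?_
  ring

variable {F : Vel → ℝ≥0∞}

/-- The fifth moment of the limit is integrable in time. -/
theorem lintegral_r5_ne_top (hF : Measurable F) (h0 : mom 0 F ≠ ∞) (h1 : mom 1 F ≠ ∞)
    (h2 : mom 2 F ≠ ∞) (hpos : mom 0 F ≠ 0) {t : ℝ} (ht : 0 ≤ t) :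
    ∫⁻ s in Icc 0 t, wsum r5 (limit F s) ≠ ∞ := by
  obtain ⟨κ, C, hκ, hC, hP⟩ := exists_shifted_povzner
  set a := ENNReal.ofReal κ with ha
  set B := mom 2 F + ENNReal.ofReal C * (2 * bound F t * mom 1 F) * ENNReal.ofReal t with hBdef
  have hn : ∀ n, a * ∫⁻ s in Icc 0 t, wsum r5 (iter F n s) * mom 0 (iter F n s) ≤ B := by
    intro n
    have hm := measurable_iter (F := F) hF n
    have hsl := fun s => measurable_slice hm s
    have hA : ∀ k, Measurable fun s => mom k (iter F (n + 1) s) :=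
      fun k => measurable_mom (measurable_iter hF (n + 1)) k
    set L := ∫⁻ s in Icc 0 t,
      cst * (mom 0 F * mom 3 (iter F (n + 1) s) + mom 1 F * mom 2 (iter F (n + 1) s)) with hLdef
    have key : mom 2 (iter F (n + 1) t) + L = mom 2 F + ∫⁻ s in Icc 0 t, mom 2 (shifted (iter F n s)) :=
      mom_step hF h0 h1 hm ht 2
    have hLfin : L ≠ ∞ := by
      have b := fun s (hs : s ∈ Icc (0 : ℝ) t) => iter_bounds hF h0 h1 h2 (n + 1) s hs.1
      simp only [hLdef, mul_add]
      rw [lintegral_add_left (((hA 3).const_mul _).const_mul _)]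
      refine ENNReal.add_ne_top.2 ⟨(iter_bounds hF h0 h1 h2 (n + 1) t ht).2.2.2,
        setLIntegral_Icc_ne_top (C := cst * (mom 1 F * bound F t))
          (by simp [ENNReal.mul_eq_top, cst_ne_top, h1, bound_ne_top h2]) fun s hs => ?_⟩
      exact mul_le_mul' le_rfl (mul_le_mul' le_rfl ((b s hs).2.2.1.trans (bound_mono hs.2)))
    have hpt : ∀ s ∈ Icc (0 : ℝ) t, mom 2 (shifted (iter F n s)) +
        a * (wsum r5 (iter F n s) * mom 0 (iter F n s)) ≤
          cst * (mom 0 F * mom 3 (iter F (n + 1) s) + mom 1 F * mom 2 (iter F (n + 1) s)) +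
            ENNReal.ofReal C * (2 * bound F t * mom 1 F) := fun s hs => by
      have hb := iter_bounds hF h0 h1 h2 n s hs.1
      have hle : ∀ k, mom k (iter F n s) ≤ mom k (iter F (n + 1) s) := fun k =>
        mom_mono k (iter_mono F n.le_succ s)
      refine (hP _ (hsl s)).trans (add_le_add (mul_le_mul' le_rfl (add_le_add ?_ ?_))
        (mul_le_mul' le_rfl (mul_le_mul' ?_ hb.2.1)))
      · exact (mul_comm _ _).trans_le (mul_le_mul' hb.1 (hle 3))
      · exact (mul_comm _ _).trans_le (mul_le_mul' hb.2.1 (hle 2))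
      · exact (wsum_q3_le _).trans (mul_le_mul' le_rfl (hb.2.2.1.trans (bound_mono hs.2)))
    have hint := setLIntegral_mono' (μ := (volume : Measure ℝ)) measurableSet_Icc hpt
    have hms : Measurable fun s => mom 2 (shifted (iter F n s)) :=
      measurable_mom (measurable_shifted hm) 2
    rw [lintegral_add_left hms, lintegral_const_mul' _ _ ENNReal.ofReal_ne_top,
      lintegral_add_right _ (g := fun _ : ℝ => ENNReal.ofReal C * (2 * bound F t * mom 1 F))
        measurable_const, setLIntegral_const,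
      Real.volume_Icc, sub_zero, ← hLdef] at hint
    refine ENNReal.le_of_add_le_add_right hLfin ?_
    calc a * (∫⁻ s in Icc 0 t, wsum r5 (iter F n s) * mom 0 (iter F n s)) + L
        ≤ a * (∫⁻ s in Icc 0 t, wsum r5 (iter F n s) * mom 0 (iter F n s)) +
          (mom 2 F + ∫⁻ s in Icc 0 t, mom 2 (shifted (iter F n s))) := by
          rw [← key]; exact add_le_add le_rfl le_add_self
      _ = mom 2 F + ((∫⁻ s in Icc 0 t, mom 2 (shifted (iter F n s))) +
          a * ∫⁻ s in Icc 0 t, wsum r5 (iter F n s) * mom 0 (iter F n s)) := by ring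
      _ ≤ mom 2 F + (L + ENNReal.ofReal C * (2 * bound F t * mom 1 F) * ENNReal.ofReal t) :=
          add_le_add le_rfl hint
      _ = B + L := by rw [hBdef]; ring
  have hmono : ∀ s, Monotone fun n => wsum r5 (iter F n s) := fun s i j hij =>
    wsum_mono (iter_mono F hij s)
  have hmono0 : ∀ s, Monotone fun n => mom 0 (iter F n s) := fun s i j hij =>
    mom_mono 0 (iter_mono F hij s)
  have hsup : ∀ s, wsum r5 (limit F s) = ⨆ n, wsum r5 (iter F n s) := fun s => by
    simp only [wsum, limit, ENNReal.mul_iSup]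
    exact lintegral_iSup (fun n => measurable_r5.mul (measurable_slice (measurable_iter hF n) s))
      fun i j hij v => mul_le_mul' le_rfl (iter_mono F hij s v)
  have hprod : a * ∫⁻ s in Icc 0 t, wsum r5 (limit F s) * mom 0 (limit F s) ≤ B := by
    have e : ∀ s, wsum r5 (limit F s) * mom 0 (limit F s) =
        ⨆ n, wsum r5 (iter F n s) * mom 0 (iter F n s) := fun s => by
      rw [hsup, mom_limit hF, iSup_mul_iSup_mono (hmono s) (hmono0 s)]
    simp only [e]
    rw [lintegral_iSup (fun n => (measurable_wsum measurable_r5 (measurable_iter hF n)).fun_mul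
      (measurable_mom (measurable_iter hF n) 0))
      fun i j hij s => mul_le_mul' (hmono s hij) (hmono0 s hij), ENNReal.mul_iSup]
    exact iSup_le hn
  have hBfin : B ≠ ∞ := by
    simp [hBdef, ENNReal.mul_eq_top, h1, h2, bound_ne_top h2]
  have e : ∫⁻ s in Icc 0 t, wsum r5 (limit F s) * mom 0 (limit F s) =
      mom 0 F * ∫⁻ s in Icc 0 t, wsum r5 (limit F s) := by
    rw [← lintegral_const_mul' _ _ h0]
    refine setLIntegral_congr_fun measurableSet_Icc fun s hs => ?_
    rw [(limit_conserved hF h0 h1 h2 s hs).1, mul_comm]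
  rw [e, ← mul_assoc] at hprod
  intro htop
  rw [htop, ENNReal.mul_top (mul_ne_zero (ENNReal.ofReal_pos.2 hκ).ne' hpos)] at hprod
  exact hBfin (top_le_iff.1 hprod)

end Vale.Agent.P140.Homogeneous
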