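import Vale.Agent.P140.HomMoments

/-!
# P140, homogeneous data: the monotone scheme

`iter n` increases to a fixed point `limit` of the damped equation, whose first three weighted
moments are bounded.
-/

noncomputable section

namespace Vale.Agent.P140.Homogeneous

open MeasureTheory Set
open scoped ENNReal

/-- The integral of a nonnegative derivative. -/
theorem lint_deriv {G G' : ℝ → ℝ} (hd : ∀ x, HasDerivAt G (G' x) x) (hc : Continuous G')
    (hn : ∀ x, 0 ≤ G' x) {a b : ℝ} (hab : a ≤ b) :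
    ∫⁻ x in Icc a b, ENNReal.ofReal (G' x) = ENNReal.ofReal (G b - G a) := by
  rw [← ofReal_integral_eq_lintegral_ofReal hc.continuousOn.integrableOn_Icc
    (Filter.Eventually.of_forall hn), integral_Icc_eq_integral_Ioc,
    ← intervalIntegral.integral_of_le hab,
    intervalIntegral.integral_eq_sub_of_hasDerivAt (fun x _ => hd x) (hc.intervalIntegrable a b)]

/-- `exp (-(a r))`. -/
def damp (a : ℝ≥0∞) (r : ℝ) : ℝ≥0∞ := ENNReal.ofReal (Real.exp (-(a.toReal * r)))

theorem damp_add_lintegral {a : ℝ≥0∞} (ha : a ≠ ∞) {p t : ℝ} (hpt : p ≤ t) :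
    damp a (t - p) + a * ∫⁻ r in Icc p t, damp a (r - p) = 1 := by
  set b := a.toReal with hb
  have hb0 : 0 ≤ b := ENNReal.toReal_nonneg
  have h1 : ∀ r, a * damp a (r - p) = ENNReal.ofReal (b * Real.exp (-(b * (r - p)))) := fun r => by
    rw [damp, ← hb, ENNReal.ofReal_mul hb0, hb, ENNReal.ofReal_toReal ha]
  have hd : ∀ x, HasDerivAt (fun r => -Real.exp (-(b * (r - p))))
      (b * Real.exp (-(b * (x - p)))) x := fun x => by
    have := ((((hasDerivAt_id x).sub_const p).const_mul b).fun_neg).exp.fun_neg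
    simpa [mul_comm] using this
  rw [← lintegral_const_mul' _ _ ha]
  simp only [h1]
  rw [lint_deriv hd (by fun_prop) (fun x => by positivity) hpt]
  have h3 : Real.exp (-(b * (t - p))) ≤ 1 :=
    Real.exp_le_one_iff.2 (neg_nonpos.2 (mul_nonneg hb0 (sub_nonneg.2 hpt)))
  simp only [damp, ← hb, sub_self, mul_zero, neg_zero, Real.exp_zero]
  rw [← ENNReal.ofReal_add (Real.exp_pos _).le (by linarith)]
  simp

/-- Tonelli on the triangle. -/
theorem lintegral_triangle {φ : ℝ → ℝ → ℝ≥0∞} (hφ : Measurable fun p : ℝ × ℝ => φ p.1 p.2) (t : ℝ) :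
    ∫⁻ r in Icc 0 t, ∫⁻ s in Icc 0 r, φ r s = ∫⁻ s in Icc 0 t, ∫⁻ r in Icc s t, φ r s := by
  have hL : ∀ r ∈ Icc (0 : ℝ) t, ∫⁻ s in Icc 0 r, φ r s =
      ∫⁻ s in Icc 0 t, {p : ℝ × ℝ | p.2 ≤ p.1}.indicator (fun p => φ p.1 p.2) (r, s) := fun r hr => by
    rw [← lintegral_indicator measurableSet_Icc, ← lintegral_indicator measurableSet_Icc]
    refine lintegral_congr fun s => ?_
    simp only [indicator_apply, mem_Icc, mem_ofPred_eq]
    split_ifs <;> first | rfl | (exfalso; grind)
  have hR : ∀ s ∈ Icc (0 : ℝ) t, ∫⁻ r in Icc s t, φ r s =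
      ∫⁻ r in Icc 0 t, {p : ℝ × ℝ | p.2 ≤ p.1}.indicator (fun p => φ p.1 p.2) (r, s) := fun s hs => by
    rw [← lintegral_indicator measurableSet_Icc, ← lintegral_indicator measurableSet_Icc]
    refine lintegral_congr fun r => ?_
    simp only [indicator_apply, mem_Icc, mem_ofPred_eq]
    split_ifs <;> first | rfl | (exfalso; grind)
  rw [setLIntegral_congr_fun measurableSet_Icc hL, setLIntegral_congr_fun measurableSet_Icc hR]
  exact lintegral_lintegral_swap
    (hφ.indicator (measurableSet_le measurable_snd measurable_fst)).aemeasurable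

/-- The damped Duhamel formula solves `X' + a X = A`, in integrated form. -/
theorem duhamel_identity {a : ℝ≥0∞} (ha : a ≠ ∞) (F : ℝ≥0∞) {A : ℝ → ℝ≥0∞} (hA : Measurable A)
    {t : ℝ} (ht : 0 ≤ t) :
    (F * damp a t + ∫⁻ s in Icc 0 t, damp a (t - s) * A s) +
        a * ∫⁻ r in Icc 0 t, (F * damp a r + ∫⁻ s in Icc 0 r, damp a (r - s) * A s) =
      F + ∫⁻ s in Icc 0 t, A s := by
  have m1 : Measurable fun r => damp a r := by unfold damp; fun_prop
  have m2 : Measurable fun p : ℝ × ℝ => damp a (p.1 - p.2) * A p.2 :=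
    (m1.comp (measurable_fst.sub measurable_snd)).mul (hA.comp measurable_snd)
  have m3 : Measurable fun s => damp a (t - s) * A s :=
    (m1.comp (measurable_const.sub measurable_id)).mul hA
  have e0 := damp_add_lintegral ha ht
  simp only [sub_zero] at e0
  rw [lintegral_add_left (m1.const_mul F), lintegral_triangle (φ := fun r s => damp a (r - s) * A s) m2,
    lintegral_const_mul _ m1, mul_add]
  have e1 : (∫⁻ s in Icc 0 t, damp a (t - s) * A s) +
      a * (∫⁻ s in Icc 0 t, ∫⁻ r in Icc s t, damp a (r - s) * A s) = ∫⁻ s in Icc 0 t, A s := by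
    rw [← lintegral_const_mul' _ _ ha, ← lintegral_add_left m3]
    refine setLIntegral_congr_fun measurableSet_Icc fun s hs => ?_
    rw [lintegral_mul_const _ (show Measurable fun r => damp a (r - s) from
      m1.comp (measurable_id.sub_const s)), ← mul_assoc, ← add_mul,
      damp_add_lintegral ha hs.2, one_mul]
  calc _ = F * (damp a t + a * ∫⁻ r in Icc 0 t, damp a r) +
        ((∫⁻ s in Icc 0 t, damp a (t - s) * A s) +
          a * ∫⁻ s in Icc 0 t, ∫⁻ r in Icc s t, damp a (r - s) * A s) := by ring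
    _ = _ := by rw [e0, e1, mul_one]

/-- The collision frequency majorant `ν`. -/
def nu (F : Vel → ℝ≥0∞) (v : Vel) : ℝ≥0∞ := cst * (wt v * mom 0 F + mom 1 F)

/-- One step of the scheme. -/
def step (F : Vel → ℝ≥0∞) (g : ℝ → Vel → ℝ≥0∞) (t : ℝ) (v : Vel) : ℝ≥0∞ :=
  F v * damp (nu F v) t + ∫⁻ s in Icc 0 t, damp (nu F v) (t - s) * shifted (g s) v

/-- The scheme. -/
def iter (F : Vel → ℝ≥0∞) : ℕ → ℝ → Vel → ℝ≥0∞
  | 0 => 0
  | n + 1 => step F (iter F n)

/-- The limit of the scheme. -/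
def limit (F : Vel → ℝ≥0∞) (t : ℝ) (v : Vel) : ℝ≥0∞ := ⨆ n, iter F n t v

theorem step_mono (F : Vel → ℝ≥0∞) {g g' : ℝ → Vel → ℝ≥0∞} (hle : g ≤ g') :
    step F g ≤ step F g' := fun _ v =>
  add_le_add le_rfl (lintegral_mono fun s => mul_le_mul' le_rfl (shifted_mono (hle s) v))

theorem iter_mono (F : Vel → ℝ≥0∞) : Monotone (iter F) := by
  refine monotone_nat_of_le_succ fun n => ?_
  induction n with
  | zero => exact fun t v => zero_le
  | succ n ih => exact step_mono F ih

variable {F : Vel → ℝ≥0∞}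

theorem measurable_step (hF : Measurable F) {g : ℝ → Vel → ℝ≥0∞}
    (hg : Measurable fun p : ℝ × Vel => g p.1 p.2) :
    Measurable fun p : ℝ × Vel => step F g p.1 p.2 := by
  have hn : Measurable (nu F) := by unfold nu; fun_prop
  have hd : Measurable fun q : ℝ≥0∞ × ℝ => damp q.1 q.2 := by unfold damp; fun_prop
  have h1 : Measurable fun p : ℝ × Vel => F p.2 * damp (nu F p.2) p.1 :=
    (hF.comp measurable_snd).mul
      (hd.comp (f := fun p : ℝ × Vel => (nu F p.2, p.1)) (by fun_prop))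
  have hS : MeasurableSet {q : (ℝ × Vel) × ℝ | 0 ≤ q.2 ∧ q.2 ≤ q.1.1} :=
    (measurableSet_le measurable_const measurable_snd).inter
      (measurableSet_le measurable_snd measurable_fst.fst)
  have h2 : Measurable fun q : (ℝ × Vel) × ℝ =>
      {q : (ℝ × Vel) × ℝ | 0 ≤ q.2 ∧ q.2 ≤ q.1.1}.indicator
        (fun q => damp (nu F q.1.2) (q.1.1 - q.2) * shifted (g q.2) q.1.2) q :=
    ((hd.comp (f := fun q : (ℝ × Vel) × ℝ => (nu F q.1.2, q.1.1 - q.2)) (by fun_prop)).mul
      ((measurable_shifted hg).comp (f := fun q : (ℝ × Vel) × ℝ => (q.2, q.1.2))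
        (by fun_prop))).indicator hS
  have e : (fun p : ℝ × Vel => step F g p.1 p.2) = fun p : ℝ × Vel =>
      F p.2 * damp (nu F p.2) p.1 + ∫⁻ s, {q : (ℝ × Vel) × ℝ | 0 ≤ q.2 ∧ q.2 ≤ q.1.1}.indicator
        (fun q => damp (nu F q.1.2) (q.1.1 - q.2) * shifted (g q.2) q.1.2) (p, s) := by
    funext p
    rw [step, ← lintegral_indicator measurableSet_Icc]
    simp only [indicator_apply, mem_Icc, mem_ofPred_eq]
  rw [e]
  exact h1.add (Measurable.lintegral_prod_right' (f := fun q : (ℝ × Vel) × ℝ =>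
      {q : (ℝ × Vel) × ℝ | 0 ≤ q.2 ∧ q.2 ≤ q.1.1}.indicator
        (fun q => damp (nu F q.1.2) (q.1.1 - q.2) * shifted (g q.2) q.1.2) q) h2)

theorem measurable_iter (hF : Measurable F) (n : ℕ) :
    Measurable fun p : ℝ × Vel => iter F n p.1 p.2 := by
  induction n with
  | zero => exact measurable_const
  | succ n ih => exact measurable_step hF ih

theorem measurable_limit (hF : Measurable F) :
    Measurable fun p : ℝ × Vel => limit F p.1 p.2 :=
  Measurable.iSup fun n => measurable_iter hF n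

theorem measurable_slice {g : ℝ → Vel → ℝ≥0∞}
    (hg : Measurable fun p : ℝ × Vel => g p.1 p.2) (t : ℝ) : Measurable (g t) :=
  hg.comp (f := fun v : Vel => (t, v)) (by fun_prop)

theorem step_add_lintegral (hF : Measurable F) (h0 : mom 0 F ≠ ∞) (h1 : mom 1 F ≠ ∞)
    {g : ℝ → Vel → ℝ≥0∞} (hg : Measurable fun p : ℝ × Vel => g p.1 p.2) {t : ℝ} (ht : 0 ≤ t)
    (v : Vel) :
    step F g t v + nu F v * ∫⁻ r in Icc 0 t, step F g r v =
      F v + ∫⁻ s in Icc 0 t, shifted (g s) v := by
  have ha : nu F v ≠ ∞ := ENNReal.mul_ne_top cst_ne_top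
    (ENNReal.add_ne_top.2 ⟨ENNReal.mul_ne_top (wt_ne_top v) h0, h1⟩)
  exact duhamel_identity ha (F v)
    ((measurable_shifted hg).comp (f := fun s : ℝ => (s, v)) (by fun_prop)) ht

theorem mom_lintegral {g : ℝ → Vel → ℝ≥0∞} (hg : Measurable fun p : ℝ × Vel => g p.1 p.2)
    (S : Set ℝ) (k : ℕ) :
    mom k (fun v => ∫⁻ s in S, g s v) = ∫⁻ s in S, mom k (g s) := by
  have hm : Measurable fun q : Vel × ℝ => wt q.1 ^ k * g q.2 q.1 :=
    ((measurable_wt.comp measurable_fst).pow_const k).mul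
      (hg.comp (f := fun q : Vel × ℝ => (q.2, q.1)) (by fun_prop))
  simp only [mom]
  rw [← lintegral_lintegral_swap (f := fun v s => wt v ^ k * g s v) hm.aemeasurable]
  exact lintegral_congr fun v => (lintegral_const_mul' _ _ (ENNReal.pow_ne_top (wt_ne_top v))).symm

/-- The moment identity of one step. -/
theorem mom_step (hF : Measurable F) (h0 : mom 0 F ≠ ∞) (h1 : mom 1 F ≠ ∞)
    {g : ℝ → Vel → ℝ≥0∞} (hg : Measurable fun p : ℝ × Vel => g p.1 p.2) {t : ℝ} (ht : 0 ≤ t)
    (k : ℕ) :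
    mom k (step F g t) + ∫⁻ r in Icc 0 t,
        cst * (mom 0 F * mom (k + 1) (step F g r) + mom 1 F * mom k (step F g r)) =
      mom k F + ∫⁻ s in Icc 0 t, mom k (shifted (g s)) := by
  have hm := measurable_step hF hg
  have hs := measurable_shifted hg
  have hI : Measurable fun v => ∫⁻ r in Icc 0 t, step F g r v :=
    Measurable.lintegral_prod_right' (f := fun q : Vel × ℝ => step F g q.2 q.1)
      (hm.comp (f := fun q : Vel × ℝ => (q.2, q.1)) (by fun_prop))
  have hM := measurable_mom hm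
  have e : ∀ v, wt v ^ k * step F g t v +
      ((cst * mom 0 F) * (wt v ^ (k + 1) * ∫⁻ r in Icc 0 t, step F g r v) +
        (cst * mom 1 F) * (wt v ^ k * ∫⁻ r in Icc 0 t, step F g r v)) =
      wt v ^ k * F v + wt v ^ k * ∫⁻ s in Icc 0 t, shifted (g s) v := fun v => by
    rw [← mul_add, ← step_add_lintegral hF h0 h1 hg ht v, nu]
    ring
  have key := lintegral_congr (μ := (volume : Measure Vel)) e
  have hst : Measurable (step F g t) := measurable_slice hm t
  rw [lintegral_add_left (by fun_prop), lintegral_add_left (by fun_prop),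
    lintegral_add_left (by fun_prop), lintegral_const_mul' _ _ (ENNReal.mul_ne_top cst_ne_top h0),
    lintegral_const_mul' _ _ (ENNReal.mul_ne_top cst_ne_top h1)] at key
  have i1 := mom_lintegral hm (Icc 0 t) (k + 1)
  have i2 := mom_lintegral hm (Icc 0 t) k
  have i3 := mom_lintegral (g := fun s => shifted (g s)) hs (Icc 0 t) k
  simp only [mom] at i1 i2 i3
  rw [i1, i2, i3] at key
  rw [lintegral_const_mul' _ _ cst_ne_top, lintegral_add_left ((hM (k + 1)).const_mul _),
    lintegral_const_mul' _ _ h0, lintegral_const_mul' _ _ h1]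
  simp only [mom] at key ⊢
  rw [← key]
  ring

/-- The a priori bound of the second moment. -/
def bound (F : Vel → ℝ≥0∞) (t : ℝ) : ℝ≥0∞ :=
  mom 2 F * ENNReal.ofReal (Real.exp ((3 * cst * mom 1 F).toReal * t))

theorem bound_ne_top (h2 : mom 2 F ≠ ∞) (t : ℝ) : bound F t ≠ ∞ :=
  ENNReal.mul_ne_top h2 ENNReal.ofReal_ne_top

theorem bound_mono {s t : ℝ} (hst : s ≤ t) : bound F s ≤ bound F t :=
  mul_le_mul' le_rfl (ENNReal.ofReal_le_ofReal (Real.exp_le_exp.2
    (mul_le_mul_of_nonneg_left hst ENNReal.toReal_nonneg)))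

theorem bound_identity (h1 : mom 1 F ≠ ∞) {t : ℝ} (ht : 0 ≤ t) :
    mom 2 F + ∫⁻ s in Icc 0 t, 3 * cst * mom 1 F * bound F s = bound F t := by
  have hc : 3 * cst * mom 1 F ≠ ∞ :=
    ENNReal.mul_ne_top (ENNReal.mul_ne_top (by norm_num) cst_ne_top) h1
  set b := (3 * cst * mom 1 F).toReal with hb
  have hb0 : 0 ≤ b := ENNReal.toReal_nonneg
  have e : ∀ s, 3 * cst * mom 1 F * bound F s =
      mom 2 F * ENNReal.ofReal (b * Real.exp (b * s)) := fun s => by
    rw [bound, ENNReal.ofReal_mul hb0, ← hb, hb, ENNReal.ofReal_toReal hc]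
    ring
  have hd : ∀ x, HasDerivAt (fun s => Real.exp (b * s)) (b * Real.exp (b * x)) x := fun x => by
    simpa [mul_comm] using ((hasDerivAt_id x).const_mul b).exp
  simp only [e]
  rw [lintegral_const_mul _ (by fun_prop), lint_deriv hd (by fun_prop) (fun x => by positivity) ht,
    mul_zero, Real.exp_zero, bound, ← hb]
  nth_rw 1 [← mul_one (mom 2 F)]
  rw [← mul_add, ← ENNReal.ofReal_one, ← ENNReal.ofReal_add zero_le_one
    (sub_nonneg.2 (Real.one_le_exp (mul_nonneg hb0 ht))), add_sub_cancel]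

theorem setLIntegral_Icc_ne_top {φ : ℝ → ℝ≥0∞} {t : ℝ} {C : ℝ≥0∞} (hC : C ≠ ∞)
    (h : ∀ s ∈ Icc (0 : ℝ) t, φ s ≤ C) : ∫⁻ s in Icc 0 t, φ s ≠ ∞ :=
  ne_top_of_le_ne_top (ENNReal.mul_ne_top hC measure_Icc_lt_top.ne)
    ((setLIntegral_mono measurable_const h).trans_eq (setLIntegral_const _ _))

theorem add_le_cancel {a P b R P' : ℝ≥0∞} (h : a + P = R + P') (hP : P' ≤ b + P) (hb : P ≠ ∞) :
    a ≤ R + b :=
  ENNReal.le_of_add_le_add_right hb (by rw [h, add_assoc]; exact add_le_add le_rfl hP)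

/-- The a priori bounds along the scheme. -/
theorem iter_bounds (hF : Measurable F) (h0 : mom 0 F ≠ ∞) (h1 : mom 1 F ≠ ∞) (h2 : mom 2 F ≠ ∞)
    (n : ℕ) : ∀ t, 0 ≤ t →
      mom 0 (iter F n t) ≤ mom 0 F ∧ mom 1 (iter F n t) ≤ mom 1 F ∧
        mom 2 (iter F n t) ≤ bound F t ∧
          ∫⁻ s in Icc 0 t, cst * (mom 0 F * mom 3 (iter F n s)) ≠ ∞ := by
  induction n with
  | zero =>
    intro t _
    have : ∀ k, ∀ s, mom k (iter F 0 s) = 0 := fun k s => by simp [iter, mom]
    simp [this]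
  | succ n ih =>
    intro t ht
    set R0 := mom 0 F with hR0
    set R1 := mom 1 F with hR1
    set A := fun k s => mom k (iter F (n + 1) s) with hAdef
    have hle : ∀ k s, mom k (iter F n s) ≤ A k s := fun k s =>
      mom_mono k (iter_mono F n.le_succ s)
    have hm := measurable_iter (F := F) hF n
    have hsl := fun s => measurable_slice hm s
    have hA : ∀ k, Measurable (A k) := fun k => measurable_mom (measurable_iter hF (n + 1)) k
    have key : ∀ k, A k t + ∫⁻ s in Icc 0 t, cst * (R0 * A (k + 1) s + R1 * A k s) =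
        mom k F + ∫⁻ s in Icc 0 t, mom k (shifted (iter F n s)) := fun k =>
      mom_step hF h0 h1 hm ht k
    have fin : ∀ k, (∫⁻ s in Icc 0 t, mom k (shifted (iter F n s))) ≠ ∞ → mom k F ≠ ∞ →
        (∫⁻ s in Icc 0 t, cst * (R0 * A (k + 1) s + R1 * A k s)) ≠ ∞ := fun k hk hF' =>
      ne_top_of_le_ne_top (ENNReal.add_ne_top.2 ⟨hF', hk⟩) (le_add_self.trans_eq (key k))
    have b0 : ∀ s ∈ Icc (0 : ℝ) t, mom 0 (shifted (iter F n s)) ≤ cst * (R1 * R0 + R0 * R1) :=
      fun s hs => (mom_shifted_zero (hsl s)).trans_le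
        (mul_le_mul' le_rfl (add_le_add (mul_le_mul' (ih s hs.1).2.1 (ih s hs.1).1)
          (mul_le_mul' (ih s hs.1).1 (ih s hs.1).2.1)))
    have f0 := setLIntegral_Icc_ne_top (by
      simp [ENNReal.mul_eq_top, cst_ne_top, h0, h1]) b0
    have c0 : A 0 t ≤ R0 + 0 := by
      refine add_le_cancel (key 0) ?_ (fin 0 f0 h0)
      rw [zero_add]
      refine setLIntegral_mono' measurableSet_Icc fun s hs => ?_
      rw [mom_shifted_zero (hsl s)]
      refine mul_le_mul' le_rfl (add_le_add ?_ ?_)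
      · exact (mul_comm (mom 1 _) _).trans_le (mul_le_mul' (ih s hs.1).1 (hle 1 s))
      · exact (mul_comm (mom 0 _) _).trans_le (mul_le_mul' (ih s hs.1).2.1 (hle 0 s))
    have b1 : ∀ s ∈ Icc (0 : ℝ) t,
        mom 1 (shifted (iter F n s)) ≤ cst * (bound F t * R0 + R1 * R1) := fun s hs =>
      (mom_shifted_one (hsl s)).trans_le (mul_le_mul' le_rfl (add_le_add
        (mul_le_mul' ((ih s hs.1).2.2.1.trans (bound_mono hs.2)) (ih s hs.1).1)
        (mul_le_mul' (ih s hs.1).2.1 (ih s hs.1).2.1)))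
    have f1 := setLIntegral_Icc_ne_top (by
      simp [ENNReal.mul_eq_top, cst_ne_top, h0, h1, bound_ne_top h2]) b1
    have c1 : A 1 t ≤ R1 + 0 := by
      refine add_le_cancel (key 1) ?_ (fin 1 f1 h1)
      rw [zero_add]
      refine setLIntegral_mono' measurableSet_Icc fun s hs => ?_
      rw [mom_shifted_one (hsl s)]
      refine mul_le_mul' le_rfl (add_le_add ?_ ?_)
      · exact (mul_comm (mom 2 _) _).trans_le (mul_le_mul' (ih s hs.1).1 (hle 2 s))
      · exact mul_le_mul' (ih s hs.1).2.1 (hle 1 s)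
    have b2 : ∀ s ∈ Icc (0 : ℝ) t, mom 2 (shifted (iter F n s)) ≤
        cst * (R0 * mom 3 (iter F n s)) + 3 * cst * R1 * bound F s := fun s hs => by
      refine (mom_shifted_two (hsl s)).trans (add_le_add ?_ ?_)
      · rw [mul_comm R0]
        exact mul_le_mul' le_rfl (mul_le_mul' le_rfl (ih s hs.1).1)
      · rw [mul_assoc (3 * cst) R1, mul_comm R1]
        exact mul_le_mul' le_rfl (mul_le_mul' (ih s hs.1).2.2.1 (ih s hs.1).2.1)
    have hm3 : Measurable fun s => cst * (R0 * mom 3 (iter F n s)) :=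
      ((measurable_mom hm 3).const_mul _).const_mul _
    have s2 : ∫⁻ s in Icc 0 t, mom 2 (shifted (iter F n s)) ≤
        (∫⁻ s in Icc 0 t, cst * (R0 * mom 3 (iter F n s))) +
          ∫⁻ s in Icc 0 t, 3 * cst * R1 * bound F s := by
      rw [← lintegral_add_left hm3]
      exact setLIntegral_mono' measurableSet_Icc b2
    have f2 : (∫⁻ s in Icc 0 t, mom 2 (shifted (iter F n s))) ≠ ∞ :=
      ne_top_of_le_ne_top (ENNReal.add_ne_top.2 ⟨(ih t ht).2.2.2,
        setLIntegral_Icc_ne_top (ENNReal.mul_ne_top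
          (ENNReal.mul_ne_top (ENNReal.mul_ne_top (by norm_num) cst_ne_top) h1) (bound_ne_top h2 t))
          fun s hs => mul_le_mul' le_rfl (bound_mono hs.2)⟩) s2
    have c2 : A 2 t ≤ mom 2 F + ∫⁻ s in Icc 0 t, 3 * cst * R1 * bound F s := by
      refine add_le_cancel (key 2) ?_ (fin 2 f2 h2)
      refine s2.trans ?_
      rw [add_comm]
      exact add_le_add le_rfl (lintegral_mono fun s =>
        mul_le_mul' le_rfl ((mul_le_mul' le_rfl (hle 3 s)).trans le_self_add))
    rw [bound_identity h1 ht] at c2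
    refine ⟨by simpa using c0, by simpa using c1, c2, ne_top_of_le_ne_top (fin 2 f2 h2)
      (lintegral_mono fun s => mul_le_mul' le_rfl le_self_add)⟩

theorem mom_limit (hF : Measurable F) (k : ℕ) (t : ℝ) :
    mom k (limit F t) = ⨆ n, mom k (iter F n t) := by
  simp only [mom, limit, ENNReal.mul_iSup]
  exact lintegral_iSup
    (fun n => ((measurable_wt.pow_const k).mul (measurable_slice (measurable_iter hF n) t)))
    fun i j hij v => mul_le_mul' le_rfl (iter_mono F hij t v)

/-- The moment bounds of the limit. -/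
theorem limit_bounds (hF : Measurable F) (h0 : mom 0 F ≠ ∞) (h1 : mom 1 F ≠ ∞) (h2 : mom 2 F ≠ ∞)
    {t : ℝ} (ht : 0 ≤ t) :
    mom 0 (limit F t) ≤ mom 0 F ∧ mom 1 (limit F t) ≤ mom 1 F ∧
      mom 2 (limit F t) ≤ bound F t := by
  simp only [mom_limit hF]
  exact ⟨iSup_le fun n => (iter_bounds hF h0 h1 h2 n t ht).1,
    iSup_le fun n => (iter_bounds hF h0 h1 h2 n t ht).2.1,
    iSup_le fun n => (iter_bounds hF h0 h1 h2 n t ht).2.2.1⟩

/-- The limit is a fixed point. -/
theorem step_limit (hF : Measurable F) (t : ℝ) (v : Vel) :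
    step F (limit F) t v = limit F t v := by
  have hs : ∀ s, shifted (limit F s) v = ⨆ n, shifted (iter F n s) v := fun s =>
    shifted_iSup (h := fun n => iter F n s) (fun n => measurable_slice (measurable_iter hF n) s)
      (fun i j hij => iter_mono F hij s) v
  have hd : Measurable fun r => damp (nu F v) r := by unfold damp; fun_prop
  have hm : ∀ n, Measurable fun s => damp (nu F v) (t - s) * shifted (iter F n s) v := fun n =>
    (hd.comp (measurable_const.sub measurable_id)).mul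
      ((measurable_shifted (measurable_iter hF n)).comp (f := fun s : ℝ => (s, v)) (by fun_prop))
  simp only [step, hs, ENNReal.mul_iSup]
  rw [lintegral_iSup hm fun i j hij s => mul_le_mul' le_rfl (shifted_mono (iter_mono F hij s) v),
    ENNReal.add_iSup]
  refine le_antisymm (iSup_le fun n => le_iSup_of_le (n + 1) le_rfl) (iSup_le fun n => ?_)
  exact le_iSup_of_le n (iter_mono F n.le_succ t v)

end Vale.Agent.P140.Homogeneous
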