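import Vale.Agent.P140.HomAll
import Vale.Agent.P140.HomPovzner

/-!
# P140: truncated data, and the creation of the fourth moment

Between two times the fourth moment decreases by the time integral of the fifth up to a linear
term; hence it is at most `A / t²`, whatever its initial value.
-/

noncomputable section

namespace Vale.Agent.P140.Homogeneous

open MeasureTheory Set Filter
open scoped ENNReal Topology

variable {F : Vel → ℝ≥0∞} {T : ℝ}

theorem cut_ae_eq (hF : Measurable F) (h0 : mom 0 F ≠ ∞) (h1 : mom 1 F ≠ ∞) (h2 : mom 2 F ≠ ∞)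
    {s : ℝ} (hs : s ∈ Icc 0 T) : cut F T s =ᵐ[volume] limit F s := by
  filter_upwards [ae_not_bad hF h0 h1 h2 T] with v hv
  exact cut_eq F hs hv

theorem mom_cut_eq (hF : Measurable F) (h0 : mom 0 F ≠ ∞) (h1 : mom 1 F ≠ ∞) (h2 : mom 2 F ≠ ∞)
    {s : ℝ} (hs : s ∈ Icc 0 T) : mom 0 (cut F T s) = mom 0 F ∧ mom 1 (cut F T s) = mom 1 F := by
  have e : ∀ k, mom k (cut F T s) = mom k (limit F s) := fun k =>
    lintegral_congr_ae ((cut_ae_eq hF h0 h1 h2 hs).mono fun v hv => by simp only [hv])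
  rw [e, e]
  exact limit_conserved hF h0 h1 h2 s hs

theorem mom_two_cut_le (hF : Measurable F) (h0 : mom 0 F ≠ ∞) (h1 : mom 1 F ≠ ∞) (h2 : mom 2 F ≠ ∞)
    {s : ℝ} (hs : s ∈ Icc 0 T) : mom 2 (cut F T s) ≤ bound F T :=
  (mom_mono 2 (cut_le F T s)).trans ((limit_bounds hF h0 h1 h2 hs.1).2.2.trans (bound_mono hs.2))

theorem mom_lossE {h : Vel → ℝ≥0∞} (hh : Measurable h) (k : ℕ) :
    mom k (fun v => h v * freqE h v) = pair (fun v u => bker v u * wt v ^ k) h := by
  refine lintegral_congr fun v => ?_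
  have hm : Measurable fun u => bker v u * h u :=
    (measurable_bker.comp (f := fun u : Vel => (v, u)) (by fun_prop)).mul hh
  simp only [freqE]
  rw [← mul_assoc, ← lintegral_const_mul _ hm]
  exact lintegral_congr fun u => by ring

theorem pair_bker_two_le {h : Vel → ℝ≥0∞} (hh : Measurable h) :
    pair (fun v u => bker v u * wt v ^ 2) h ≤
      cst * (16 * (mom 0 h + wsum r5 h) * (2 * mom 1 h)) := by
  have hφ : Measurable fun v : Vel => (16 : ℝ≥0∞) * (1 + r5 v) := by fun_prop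
  have hψ : Measurable fun u : Vel => 2 * wt u := by fun_prop
  have hpt : ∀ v u : Vel, bker v u * wt v ^ 2 ≤ cst * ((16 * (1 + r5 v)) * (2 * wt u)) := by
    intro v u
    have hb : bker v u ≤ cst * ENNReal.ofReal ((1 + ‖v‖) * (1 + ‖u‖)) := by
      refine (lintegral_mono fun o => ?_).trans_eq (by rw [lintegral_const, mul_comm]; rfl)
      refine ENNReal.ofReal_le_ofReal ((abs_real_inner_le_norm _ _).trans ?_)
      rw [norm_sph, mul_one]
      nlinarith [norm_sub_le v u, norm_nonneg v, norm_nonneg u]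
    refine (mul_le_mul' hb le_rfl).trans ?_
    rw [mul_assoc]
    refine mul_le_mul' le_rfl ?_
    rw [wt, wt, r5, ← ENNReal.ofReal_pow (weight_pos v).le, ← ENNReal.ofReal_mul (by positivity),
      ← ENNReal.ofReal_one, ← ENNReal.ofReal_add zero_le_one (pow_nonneg (norm_nonneg v) 5)]
    have e : (16 : ℝ≥0∞) * ENNReal.ofReal (1 + ‖v‖ ^ 5) * (2 * ENNReal.ofReal (weight u)) =
        ENNReal.ofReal (16 * (1 + ‖v‖ ^ 5) * (2 * weight u)) := by
      rw [ENNReal.ofReal_mul (by positivity), ENNReal.ofReal_mul (by norm_num : (0 : ℝ) ≤ 16),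
        ENNReal.ofReal_mul (by norm_num : (0 : ℝ) ≤ 2), ENNReal.ofReal_ofNat, ENNReal.ofReal_ofNat]
    rw [e]
    refine ENNReal.ofReal_le_ofReal ?_
    rw [mul_right_comm]
    refine mul_le_mul ?_ (one_add_norm_le_weight u) (by positivity) (by positivity)
    unfold weight
    rcases le_total ‖v‖ 1 with hv | hv
    · have : (1 + ‖v‖) * (1 + ‖v‖ ^ 2) ^ 2 ≤ 2 * 2 ^ 2 := mul_le_mul (by linarith)
        (pow_le_pow_left₀ (by positivity) (by nlinarith [norm_nonneg v]) 2) (by positivity)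
        (by norm_num)
      nlinarith [pow_nonneg (norm_nonneg v) 5]
    · have h2 : (1 + ‖v‖ ^ 2) ^ 2 ≤ (2 * ‖v‖ ^ 2) ^ 2 :=
        pow_le_pow_left₀ (by positivity) (by nlinarith) 2
      have : (1 + ‖v‖) * (1 + ‖v‖ ^ 2) ^ 2 ≤ (2 * ‖v‖) * (2 * ‖v‖ ^ 2) ^ 2 :=
        mul_le_mul (by linarith) h2 (by positivity) (by positivity)
      nlinarith [pow_nonneg (norm_nonneg v) 5]
  refine (pair_mono hpt).trans_eq ?_
  rw [pair_const_mul cst_ne_top, pair_wsum hh hφ hψ]
  congr 2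
  · simp only [wsum, mul_assoc]
    rw [lintegral_const_mul' _ _ (by norm_num)]
    congr 1
    simp only [add_mul, one_mul]
    rw [lintegral_add_left hh]
    simp [mom]
  · simp only [wsum, mul_assoc]
    rw [lintegral_const_mul' _ _ (by norm_num)]
    simp [mom]

theorem lintegral_Ioc_r5_ne_top (hF : Measurable F) (h0 : mom 0 F ≠ ∞) (h1 : mom 1 F ≠ ∞)
    (h2 : mom 2 F ≠ ∞) (hpos : mom 0 F ≠ 0) {r t : ℝ} (hr : 0 ≤ r) (ht : t ≤ T) :
    ∫⁻ s in Ioc r t, wsum r5 (cut F T s) ≠ ∞ := by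
  rcases le_or_gt r t with h | h
  · refine ne_top_of_le_ne_top (lintegral_r5_ne_top hF h0 h1 h2 hpos ((hr.trans h).trans ht)) ?_
    have hsub : Ioc r t ⊆ Icc 0 T := fun s hs => ⟨hr.trans hs.1.le, hs.2.trans ht⟩
    exact (lintegral_mono_set hsub).trans (lintegral_mono fun s => wsum_mono (cut_le F T s))
  · simp [Ioc_eq_empty (not_lt.2 h.le)]

/-- The equation between two times. -/
theorem cut_increment (hF : Measurable F) (h0 : mom 0 F ≠ ∞) (h1 : mom 1 F ≠ ∞) (h2 : mom 2 F ≠ ∞)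
    (hfin : ∀ v, F v ≠ ∞) {r t : ℝ} (hr : r ∈ Icc 0 T) (ht : t ∈ Icc 0 T) (hrt : r ≤ t) :
    ∀ᵐ v, cut F T t v + ∫⁻ s in Ioc r t, cut F T s v * freqE (cut F T s) v =
      cut F T r v + ∫⁻ s in Ioc r t, gainE (cut F T s) v := by
  filter_upwards [cut_equation hF h0 h1 h2 hfin hr, cut_equation hF h0 h1 h2 hfin ht] with v hvr hvt
  obtain ⟨har, er⟩ := hvr
  obtain ⟨hat, et⟩ := hvt
  have hsplit : ∀ φ : ℝ → ℝ≥0∞,
      ∫⁻ s in Icc 0 t, φ s = (∫⁻ s in Icc 0 r, φ s) + ∫⁻ s in Ioc r t, φ s := fun φ => by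
    rw [← Icc_union_Ioc_eq_Icc hr.1 hrt]
    refine lintegral_union measurableSet_Ioc ?_
    rw [disjoint_left]
    exact fun s hs hs' => absurd hs.2 (not_le.2 hs'.1)
  have hLr : ∫⁻ s in Icc 0 r, cut F T s v * freqE (cut F T s) v ≠ ∞ :=
    ne_top_of_le_ne_top (ENNReal.add_ne_top.2 ⟨hfin v, har⟩) (le_add_self.trans_eq er)
  rw [hsplit, hsplit, ← add_assoc (F v), ← er] at et
  refine (ENNReal.add_left_inj hLr).1 ?_
  calc cut F T t v + (∫⁻ s in Ioc r t, cut F T s v * freqE (cut F T s) v) +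
        ∫⁻ s in Icc 0 r, cut F T s v * freqE (cut F T s) v
      = cut F T t v + ((∫⁻ s in Icc 0 r, cut F T s v * freqE (cut F T s) v) +
          ∫⁻ s in Ioc r t, cut F T s v * freqE (cut F T s) v) := by ring
    _ = _ := et
    _ = _ := by ring

/-- The fourth moment between two times. -/
theorem moment_step {κ C : ℝ}
    (hP : ∀ h : Vel → ℝ≥0∞, Measurable h → mom 2 (gainE h) + ENNReal.ofReal κ * (wsum r5 h * mom 0 h) ≤
      pair (fun v u => bker v u * wt v ^ 2) h + ENNReal.ofReal C * (wsum q3 h * mom 1 h))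
    (hF : Measurable F) (h0 : mom 0 F ≠ ∞) (h1 : mom 1 F ≠ ∞) (h2 : mom 2 F ≠ ∞)
    (hfin : ∀ v, F v ≠ ∞) (hpos : mom 0 F ≠ 0) {r t : ℝ} (hr : r ∈ Icc 0 T) (ht : t ∈ Icc 0 T)
    (hrt : r ≤ t) :
    mom 2 (cut F T t) + ENNReal.ofReal κ * (mom 0 F * ∫⁻ s in Ioc r t, wsum r5 (cut F T s)) ≤
      mom 2 (cut F T r) + ENNReal.ofReal C * (mom 1 F * ∫⁻ s in Ioc r t, wsum q3 (cut F T s)) := by
  have hc := measurable_cut hF T
  have hmc : ∀ s, Measurable (cut F T s) := fun s => measurable_slice hc s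
  have hl : Measurable fun p : ℝ × Vel => cut F T p.1 p.2 * freqE (cut F T p.1) p.2 :=
    hc.mul (measurable_freqE hc)
  have hgm := measurable_gainE hc
  set L := ∫⁻ s in Ioc r t, pair (fun v u => bker v u * wt v ^ 2) (cut F T s) with hLdef
  set G := ∫⁻ s in Ioc r t, mom 2 (gainE (cut F T s)) with hGdef
  have hid : mom 2 (cut F T t) + L = mom 2 (cut F T r) + G := by
    have eL := mom_lintegral (g := fun s v => cut F T s v * freqE (cut F T s) v) hl (Ioc r t) 2
    have eG := mom_lintegral (g := fun s => gainE (cut F T s)) hgm (Ioc r t) 2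
    have e := lintegral_congr_ae ((cut_increment hF h0 h1 h2 hfin hr ht hrt).mono fun v hv =>
      congrArg (fun x => wt v ^ 2 * x) hv)
    simp only [mul_add] at e
    rw [lintegral_add_left (f := fun v => wt v ^ 2 * cut F T t v) (by fun_prop),
      lintegral_add_left (f := fun v => wt v ^ 2 * cut F T r v) (by fun_prop)] at e
    simp only [mom] at eL eG ⊢
    rw [eL, eG] at e
    have eLL : L = ∫⁻ s in Ioc r t, ∫⁻ v, wt v ^ 2 * (cut F T s v * freqE (cut F T s) v) :=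
      lintegral_congr fun s => (mom_lossE (hmc s) 2).symm
    rw [eLL]
    exact e
  have hmW := measurable_wsum measurable_r5 hc
  have hm3 := measurable_wsum measurable_q3 hc
  have hLfin : L ≠ ∞ := by
    have hbd : ∀ s ∈ Ioc r t, pair (fun v u => bker v u * wt v ^ 2) (cut F T s) ≤
        cst * (16 * (2 * mom 1 F)) * mom 0 F + cst * (16 * (2 * mom 1 F)) * wsum r5 (cut F T s) := by
      intro s hs
      obtain ⟨e0, e1⟩ := mom_cut_eq hF h0 h1 h2 (s := s) ⟨hr.1.trans hs.1.le, hs.2.trans ht.2⟩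
      refine (pair_bker_two_le (hmc s)).trans_eq ?_
      rw [e0, e1]; ring
    have hK : cst * (16 * (2 * mom 1 F)) ≠ ∞ := by simp [ENNReal.mul_eq_top, cst_ne_top, h1]
    refine ne_top_of_le_ne_top ?_ (setLIntegral_mono' measurableSet_Ioc hbd)
    rw [lintegral_add_left measurable_const, setLIntegral_const, lintegral_const_mul' _ _ hK]
    exact ENNReal.add_ne_top.2 ⟨ENNReal.mul_ne_top (ENNReal.mul_ne_top hK h0) measure_Ioc_lt_top.ne,
      ENNReal.mul_ne_top hK (lintegral_Ioc_r5_ne_top hF h0 h1 h2 hpos hr.1 ht.2)⟩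
  have hineq : G + ENNReal.ofReal κ * (mom 0 F * ∫⁻ s in Ioc r t, wsum r5 (cut F T s)) ≤
      L + ENNReal.ofReal C * (mom 1 F * ∫⁻ s in Ioc r t, wsum q3 (cut F T s)) := by
    rw [← lintegral_const_mul' _ _ h0, ← lintegral_const_mul' _ _ h1,
      ← lintegral_const_mul' _ _ ENNReal.ofReal_ne_top, ← lintegral_const_mul' _ _ ENNReal.ofReal_ne_top,
      hGdef, hLdef, ← lintegral_add_right _ ((hmW.const_mul _).const_mul _),
      ← lintegral_add_right _ ((hm3.const_mul _).const_mul _)]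
    refine setLIntegral_mono' measurableSet_Ioc fun s hs => ?_
    obtain ⟨e0, e1⟩ := mom_cut_eq hF h0 h1 h2 (s := s) ⟨hr.1.trans hs.1.le, hs.2.trans ht.2⟩
    have h := hP _ (hmc s)
    rwa [e0, e1, mul_comm (wsum r5 _), mul_comm (wsum q3 _)] at h
  refine ENNReal.le_of_add_le_add_right hLfin ?_
  calc mom 2 (cut F T t) + ENNReal.ofReal κ * (mom 0 F * ∫⁻ s in Ioc r t, wsum r5 (cut F T s)) + L
      = mom 2 (cut F T r) + (G + ENNReal.ofReal κ * (mom 0 F * ∫⁻ s in Ioc r t, wsum r5 (cut F T s))) := by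
        rw [add_right_comm, hid, add_assoc]
    _ ≤ mom 2 (cut F T r) + (L + ENNReal.ofReal C * (mom 1 F * ∫⁻ s in Ioc r t, wsum q3 (cut F T s))) :=
        add_le_add le_rfl hineq
    _ = _ := by ring

theorem wsum_q3_le_r5 {h : Vel → ℝ≥0∞} (hh : Measurable h) {ε : ℝ} (hε : 0 < ε) :
    wsum q3 h ≤ ENNReal.ofReal ε * wsum r5 h + ENNReal.ofReal (1 / ε ^ 2 + 2) * mom 0 h := by
  simp only [wsum, mom, pow_zero, one_mul]
  rw [← lintegral_const_mul' _ _ ENNReal.ofReal_ne_top, ← lintegral_const_mul' _ _ ENNReal.ofReal_ne_top,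
    ← lintegral_add_left (by fun_prop)]
  refine lintegral_mono fun v => ?_
  rw [← mul_assoc, ← add_mul, q3, r5, ← ENNReal.ofReal_mul hε.le,
    ← ENNReal.ofReal_add (by positivity) (by positivity)]
  refine mul_le_mul' (ENNReal.ofReal_le_ofReal ?_) le_rfl
  set x := ‖v‖
  have hx : 0 ≤ x := norm_nonneg v
  rcases le_or_gt 1 (ε * x ^ 2) with h1 | h1
  · nlinarith [mul_le_mul_of_nonneg_left h1 (pow_nonneg hx 3), show 0 ≤ 1 / ε ^ 2 by positivity]
  · have h2 : (ε * x ^ 2) ^ 2 < 1 := by nlinarith [mul_nonneg hε.le (sq_nonneg x)]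
    have h3 : x ^ 4 ≤ 1 / ε ^ 2 := by
      rw [le_div_iff₀ (by positivity)]
      nlinarith
    nlinarith [sq_nonneg (x - 1), sq_nonneg (x ^ 2 - x), mul_nonneg hε.le (pow_nonneg hx 5)]

theorem mom_two_le_r5 {h : Vel → ℝ≥0∞} (hh : Measurable h) {τ : ℝ} (hτ : 0 < τ) :
    mom 2 h ≤ ENNReal.ofReal (2 * τ) * wsum r5 h + ENNReal.ofReal (2 * (1 + 1 / τ ^ 2)) * mom 1 h := by
  simp only [wsum, mom, pow_one]
  rw [← lintegral_const_mul' _ _ ENNReal.ofReal_ne_top, ← lintegral_const_mul' _ _ ENNReal.ofReal_ne_top,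
    ← lintegral_add_left (by fun_prop)]
  refine lintegral_mono fun v => ?_
  rw [← mul_assoc, ← mul_assoc, ← add_mul, r5, wt, ← ENNReal.ofReal_pow (weight_pos v).le,
    ← ENNReal.ofReal_mul (by positivity), ← ENNReal.ofReal_mul (by positivity),
    ← ENNReal.ofReal_add (by positivity) (mul_nonneg (by positivity) (weight_pos v).le)]
  refine mul_le_mul' (ENNReal.ofReal_le_ofReal ?_) le_rfl
  unfold weight
  set x := ‖v‖
  have hx : 0 ≤ x := norm_nonneg v
  have key : x ^ 4 ≤ τ * x ^ 5 + x ^ 2 * (1 / τ ^ 2) := by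
    rcases le_or_gt 1 (τ * x) with h1 | h1
    · nlinarith [mul_le_mul_of_nonneg_left h1 (pow_nonneg hx 4),
        mul_nonneg (sq_nonneg x) (show 0 ≤ 1 / τ ^ 2 by positivity)]
    · have h2 : (τ * x) ^ 2 < 1 := by nlinarith [mul_nonneg hτ.le hx]
      have h3 : x ^ 2 ≤ 1 / τ ^ 2 := by
        rw [le_div_iff₀ (by positivity)]
        nlinarith
      nlinarith [mul_le_mul_of_nonneg_left h3 (sq_nonneg x), mul_nonneg hτ.le (pow_nonneg hx 5)]
  nlinarith [show 0 ≤ 1 / τ ^ 2 by positivity, sq_nonneg (1 - x ^ 2)]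

theorem wsum_q3_le_split {h : Vel → ℝ≥0∞} (hh : Measurable h) {l : ℝ} (hl : 0 < l) :
    wsum q3 h ≤ ENNReal.ofReal l⁻¹ * mom 1 h + ENNReal.ofReal l * mom 2 h := by
  simp only [wsum, mom, pow_one]
  rw [← lintegral_const_mul' _ _ ENNReal.ofReal_ne_top, ← lintegral_const_mul' _ _ ENNReal.ofReal_ne_top,
    ← lintegral_add_left (by fun_prop)]
  refine lintegral_mono fun v => ?_
  rw [← mul_assoc, ← mul_assoc, ← add_mul, q3, wt, ← ENNReal.ofReal_pow (weight_pos v).le,
    ← ENNReal.ofReal_mul (inv_nonneg.2 hl.le), ← ENNReal.ofReal_mul hl.le,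
    ← ENNReal.ofReal_add (mul_nonneg (inv_nonneg.2 hl.le) (weight_pos v).le) (by positivity)]
  refine mul_le_mul' (ENNReal.ofReal_le_ofReal ?_) le_rfl
  have h1 : l * l⁻¹ = 1 := mul_inv_cancel₀ hl.ne'
  refine le_of_mul_le_mul_left ?_ hl
  rw [mul_add l (l⁻¹ * weight v), ← mul_assoc l l⁻¹, h1, one_mul]
  unfold weight
  set x := ‖v‖
  set w := 1 + x ^ 2
  have hw : 1 ≤ w := le_add_of_nonneg_right (sq_nonneg x)
  have hx : 0 ≤ x := norm_nonneg v
  have key : 1 + x ^ 3 ≤ w * (1 + x) := by simp only [w]; nlinarith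
  have h2 : l * w * (1 + x) ≤ w + l * (l * w ^ 2) := by
    simp only [w]
    nlinarith [sq_nonneg (l * (1 + x ^ 2) - 1), sq_nonneg (l * (1 + x ^ 2) - x)]
  nlinarith [mul_le_mul_of_nonneg_left key hl.le]

/-- Creation: an inequality between two times gives `1 / t²`. -/
theorem creation {M P : ℝ → ℝ≥0∞} {Bd : ℝ≥0∞} (hBd : Bd ≠ ∞) {k c E : ℝ}
    (hk : 0 < k) (hc : 0 ≤ c) (hE : 0 ≤ E) (hbd : ∀ s ∈ Icc 0 T, M s ≤ Bd)
    (hstep : ∀ r ∈ Icc 0 T, ∀ t ∈ Icc 0 T, r ≤ t →
      M t + ENNReal.ofReal k * ∫⁻ s in Ioc r t, P s ≤ M r + ENNReal.ofReal (c * (t - r)))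
    (hint : ∀ τ : ℝ, 0 < τ → ∀ s ∈ Icc 0 T,
      M s ≤ ENNReal.ofReal (2 * τ) * P s + ENNReal.ofReal (2 * (1 + 1 / τ ^ 2) * E)) :
    ∀ t ∈ Ioc 0 T, M t ≤ ENNReal.ofReal (2 * (c * T ^ 3 + 2 * (T ^ 2 + (32 / k) ^ 2) * E) / t ^ 2) := by
  set N := ⨆ t ∈ Ioc (0 : ℝ) T, ENNReal.ofReal (t ^ 2) * M t with hN
  have hNfin : N ≠ ∞ := ne_top_of_le_ne_top (ENNReal.mul_ne_top (ENNReal.ofReal_ne_top (r := T ^ 2)) hBd) <|
    iSup₂_le fun t ht => mul_le_mul' (ENNReal.ofReal_le_ofReal (pow_le_pow_left₀ ht.1.le ht.2 2))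
      (hbd t (Ioc_subset_Icc_self ht))
  set K := c * T ^ 3 + 2 * (T ^ 2 + (32 / k) ^ 2) * E with hK
  have key : ∀ t ∈ Ioc 0 T, (ENNReal.ofReal (t ^ 2) * M t).toReal ≤ N.toReal / 2 + K := by
    intro t ht
    have ht0 := ht.1
    set r := t / 2 with hrdef
    have hr : r ∈ Icc 0 T := ⟨by simp only [hrdef]; linarith, by simp only [hrdef]; linarith [ht.2]⟩
    have htI := Ioc_subset_Icc_self ht
    have hrt : r ≤ t := by simp only [hrdef]; linarith
    set τ := k / 32 * t with hτdef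
    have hτ : 0 < τ := by positivity
    set I := ∫⁻ s in Ioc r t, P s with hI
    have hMt : M t ≠ ∞ := ne_top_of_le_ne_top hBd (hbd t htI)
    have hMr : M r ≠ ∞ := ne_top_of_le_ne_top hBd (hbd r hr)
    have s1 := hstep r hr t htI hrt
    have hIfin : I ≠ ∞ := fun htop => by
      have h := le_add_self.trans s1
      rw [← hI, htop, ENNReal.mul_top (ENNReal.ofReal_pos.2 hk).ne'] at h
      exact ENNReal.add_ne_top.2 ⟨hMr, ENNReal.ofReal_ne_top⟩ (top_le_iff.1 h)
    have s2 : ENNReal.ofReal (t - r) * M t ≤ ENNReal.ofReal (2 * τ) * I +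
        ENNReal.ofReal (2 * (1 + 1 / τ ^ 2) * E + c * (t - r)) * ENNReal.ofReal (t - r) := by
      have h : ∫⁻ _ : ℝ in Ioc r t, M t ≤ ∫⁻ s in Ioc r t,
          (ENNReal.ofReal (2 * τ) * P s + ENNReal.ofReal (2 * (1 + 1 / τ ^ 2) * E + c * (t - r))) := by
        refine setLIntegral_mono' measurableSet_Ioc fun s hs => ?_
        have hsI : s ∈ Icc 0 T := ⟨hr.1.trans hs.1.le, hs.2.trans ht.2⟩
        refine le_trans (le_self_add.trans (hstep s hsI t htI hs.2)) ?_
        rw [ENNReal.ofReal_add (by positivity) (mul_nonneg hc (by linarith)), ← add_assoc]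
        exact add_le_add (hint τ hτ s hsI)
          (ENNReal.ofReal_le_ofReal (mul_le_mul_of_nonneg_left (by linarith [hs.1]) hc))
      rw [setLIntegral_const, lintegral_add_right _ measurable_const, setLIntegral_const,
        Real.volume_Ioc, lintegral_const_mul' _ _ ENNReal.ofReal_ne_top, mul_comm] at h
      exact h
    have e1 := ENNReal.toReal_mono (ENNReal.add_ne_top.2 ⟨hMr, ENNReal.ofReal_ne_top⟩) s1
    have e2 := ENNReal.toReal_mono (ENNReal.add_ne_top.2 ⟨ENNReal.mul_ne_top ENNReal.ofReal_ne_top hIfin,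
      ENNReal.mul_ne_top ENNReal.ofReal_ne_top ENNReal.ofReal_ne_top⟩) s2
    rw [← hI, ENNReal.toReal_add hMt (ENNReal.mul_ne_top ENNReal.ofReal_ne_top hIfin),
      ENNReal.toReal_add hMr ENNReal.ofReal_ne_top, ENNReal.toReal_mul, ENNReal.toReal_ofReal hk.le,
      ENNReal.toReal_ofReal (mul_nonneg hc (by linarith))] at e1
    rw [ENNReal.toReal_mul, ENNReal.toReal_add (ENNReal.mul_ne_top ENNReal.ofReal_ne_top hIfin)
      (ENNReal.mul_ne_top ENNReal.ofReal_ne_top ENNReal.ofReal_ne_top), ENNReal.toReal_mul,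
      ENNReal.toReal_mul, ENNReal.toReal_ofReal (by linarith : 0 ≤ t - r),
      ENNReal.toReal_ofReal (by positivity : 0 ≤ 2 * τ),
      ENNReal.toReal_ofReal (add_nonneg (by positivity) (mul_nonneg hc (by linarith)))] at e2
    have hNr : r ^ 2 * (M r).toReal ≤ N.toReal := by
      rw [← ENNReal.toReal_ofReal (sq_nonneg r), ← ENNReal.toReal_mul]
      exact ENNReal.toReal_mono hNfin (le_iSup₂ (f := fun t (_ : t ∈ Ioc (0 : ℝ) T) =>
        ENNReal.ofReal (t ^ 2) * M t) r ⟨by simp only [hrdef]; linarith, hr.2⟩)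
    rw [ENNReal.toReal_mul, ENNReal.toReal_ofReal (sq_nonneg t)]
    set x := (M t).toReal
    set y := (M r).toReal
    set z := I.toReal
    have hx : 0 ≤ x := ENNReal.toReal_nonneg
    have f1 : k * z ≤ y + c * (t / 2) := by
      have : t - r = t / 2 := by simp only [hrdef]; ring
      rw [this] at e1; linarith
    have f2 : x ≤ k / 8 * z + (2 * (1 + 1 / τ ^ 2) * E + c * (t / 2)) := by
      have : t - r = t / 2 := by simp only [hrdef]; ring
      rw [this, hτdef] at e2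
      refine le_of_mul_le_mul_left (le_trans e2 (le_of_eq ?_)) (by linarith : 0 < t / 2)
      simp only [hτdef]
      ring
    have f3 : t ^ 2 * (2 * (1 + 1 / τ ^ 2) * E) = 2 * (t ^ 2 + (32 / k) ^ 2) * E := by
      simp only [hτdef]
      field_simp
    have f4 : t ^ 2 * y ≤ 4 * N.toReal := by
      have : r ^ 2 = t ^ 2 / 4 := by simp only [hrdef]; ring
      rw [this] at hNr; linarith
    have f5 : t ^ 2 * E ≤ T ^ 2 * E :=
      mul_le_mul_of_nonneg_right (pow_le_pow_left₀ ht0.le ht.2 2) hE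
    have f6 : c * t ^ 3 ≤ c * T ^ 3 := mul_le_mul_of_nonneg_left (pow_le_pow_left₀ ht0.le ht.2 3) hc
    have f7 := mul_le_mul_of_nonneg_left f2 (sq_nonneg t)
    have f8 := mul_le_mul_of_nonneg_left f1 (sq_nonneg t)
    have f9 : 0 ≤ c * t ^ 3 := by positivity
    rw [hK]
    nlinarith
  have hK0 : ∀ t ∈ Ioc 0 T, 0 ≤ K := fun t ht => by
    have : 0 < T := ht.1.trans_le ht.2
    rw [hK]; positivity
  intro t ht
  have hN2 : N.toReal ≤ 2 * K := by
    have h : N ≤ ENNReal.ofReal (N.toReal / 2 + K) := iSup₂_le fun s hs => by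
      rw [← ENNReal.ofReal_toReal (ENNReal.mul_ne_top ENNReal.ofReal_ne_top
        (ne_top_of_le_ne_top hBd (hbd s (Ioc_subset_Icc_self hs))))]
      exact ENNReal.ofReal_le_ofReal (key s hs)
    have h2 := ENNReal.toReal_mono ENNReal.ofReal_ne_top h
    rw [ENNReal.toReal_ofReal (add_nonneg (by positivity) (hK0 t ht))] at h2
    linarith
  have h3 := key t ht
  rw [ENNReal.toReal_mul, ENNReal.toReal_ofReal (sq_nonneg t)] at h3
  rw [← ENNReal.ofReal_toReal (ne_top_of_le_ne_top hBd (hbd t (Ioc_subset_Icc_self ht)))]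
  refine ENNReal.ofReal_le_ofReal ?_
  rw [le_div_iff₀ (pow_pos ht.1 2)]
  linarith

/-- The third moment of the solution of a truncated datum, uniformly. -/
theorem exists_uniform_bound {ρ E : ℝ} (hρ : 0 < ρ) (hE : 0 ≤ E) (hT : 0 < T) :
    ∃ A : ℝ, 0 ≤ A ∧ ∀ (F : Vel → ℝ≥0∞) (n : ℕ), Measurable F → (∀ v, F v ≠ ∞) → mom 2 F ≠ ∞ →
      ENNReal.ofReal ρ ≤ mom 0 F → mom 1 F ≤ ENNReal.ofReal E → 1 ≤ n →
      mom 2 F ≤ ENNReal.ofReal ((1 + (n : ℝ) ^ 2) * E) →
      ∀ t ∈ Ioc 0 T, wsum q3 (cut F T t) ≤ ENNReal.ofReal (A / max t (1 / (n : ℝ))) := by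
  obtain ⟨κ, C, hκ, hC, hP⟩ := exists_gain_loss
  set ε := κ * ρ / (2 * ((C + 1) * (E + 1))) with hεdef
  have hε : 0 < ε := by positivity
  set k := κ * ρ / 2 with hkdef
  have hk : 0 < k := by positivity
  set c := C * E * ((1 / ε ^ 2 + 2) * E) with hcdef
  have hc : 0 ≤ c := by positivity
  set A2 := 2 * (c * T ^ 3 + 2 * (T ^ 2 + (32 / k) ^ 2) * E) with hA2
  have hA2' : 0 ≤ A2 := by positivity
  refine ⟨E + (A2 + (2 * E + c * T)), by positivity, fun F n hF hfin h2 hlo hhi hn hM0 => ?_⟩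
  have h1 : mom 1 F ≠ ∞ := ne_top_of_le_ne_top ENNReal.ofReal_ne_top hhi
  have h0 : mom 0 F ≠ ∞ := ne_top_of_le_ne_top h1 (mom_le_succ 0 F)
  have hpos : mom 0 F ≠ 0 := ((ENNReal.ofReal_pos.2 hρ).trans_le hlo).ne'
  have hcm := measurable_cut hF T
  set P : ℝ → ℝ≥0∞ := fun s => wsum r5 (cut F T s) with hPdef
  set M : ℝ → ℝ≥0∞ := fun s => mom 2 (cut F T s) with hMdef
  have hstep : ∀ r ∈ Icc 0 T, ∀ t ∈ Icc 0 T, r ≤ t →
      M t + ENNReal.ofReal k * ∫⁻ s in Ioc r t, P s ≤ M r + ENNReal.ofReal (c * (t - r)) := by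
    intro r hr t ht hrt
    set I := ∫⁻ s in Ioc r t, P s with hI
    have hIfin : I ≠ ∞ := lintegral_Ioc_r5_ne_top hF h0 h1 h2 hpos hr.1 ht.2
    have hq : mom 1 F * ∫⁻ s in Ioc r t, wsum q3 (cut F T s) ≤
        ENNReal.ofReal E * (ENNReal.ofReal ε * I + ENNReal.ofReal ((1 / ε ^ 2 + 2) * E * (t - r))) := by
      refine mul_le_mul' hhi ((setLIntegral_mono' (g := fun s => ENNReal.ofReal ε * P s +
        ENNReal.ofReal ((1 / ε ^ 2 + 2) * E)) measurableSet_Ioc fun s hs => ?_).trans_eq ?_)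
      · refine (wsum_q3_le_r5 (measurable_slice hcm s) hε).trans (add_le_add le_rfl ?_)
        rw [(mom_cut_eq hF h0 h1 h2 (s := s) ⟨hr.1.trans hs.1.le, hs.2.trans ht.2⟩).1,
          ENNReal.ofReal_mul (by positivity : (0 : ℝ) ≤ 1 / ε ^ 2 + 2)]
        exact mul_le_mul' le_rfl ((mom_le_succ 0 F).trans hhi)
      · rw [lintegral_add_right _ measurable_const, lintegral_const_mul' _ _ ENNReal.ofReal_ne_top,
          setLIntegral_const, Real.volume_Ioc, ← ENNReal.ofReal_mul (by positivity)]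
    have h := moment_step hP hF h0 h1 h2 hfin hpos hr ht hrt
    have h' : M t + ENNReal.ofReal k * I + ENNReal.ofReal k * I ≤
        M r + ENNReal.ofReal (c * (t - r)) + ENNReal.ofReal k * I := by
      calc M t + ENNReal.ofReal k * I + ENNReal.ofReal k * I
          = M t + ENNReal.ofReal κ * (ENNReal.ofReal ρ * I) := by
            rw [add_assoc, ← two_mul, ← mul_assoc (ENNReal.ofReal κ), ← ENNReal.ofReal_mul hκ.le,
              show κ * ρ = 2 * k by rw [hkdef]; ring, ENNReal.ofReal_mul zero_le_two,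
              ENNReal.ofReal_ofNat, mul_assoc]
        _ ≤ M t + ENNReal.ofReal κ * (mom 0 F * I) := by gcongr
        _ ≤ M r + ENNReal.ofReal C * (mom 1 F * ∫⁻ s in Ioc r t, wsum q3 (cut F T s)) := h
        _ ≤ M r + ENNReal.ofReal C * (ENNReal.ofReal E *
              (ENNReal.ofReal ε * I + ENNReal.ofReal ((1 / ε ^ 2 + 2) * E * (t - r)))) := by gcongr
        _ = M r + ENNReal.ofReal (c * (t - r)) + ENNReal.ofReal (C * E * ε) * I := by
            rw [show c * (t - r) = C * (E * ((1 / ε ^ 2 + 2) * E * (t - r))) by rw [hcdef]; ring,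
              ENNReal.ofReal_mul hC, ENNReal.ofReal_mul hE, ENNReal.ofReal_mul (mul_nonneg hC hE),
              ENNReal.ofReal_mul hC]
            ring
        _ ≤ _ := by
            refine add_le_add le_rfl (mul_le_mul' (ENNReal.ofReal_le_ofReal ?_) le_rfl)
            rw [hkdef, hεdef, mul_div_assoc', div_le_div_iff₀ (by positivity) two_pos]
            nlinarith [mul_pos hκ hρ, mul_nonneg (mul_pos hκ hρ).le hC, mul_nonneg (mul_pos hκ hρ).le hE]
    exact ENNReal.le_of_add_le_add_right (ENNReal.mul_ne_top ENNReal.ofReal_ne_top hIfin) h'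
  have hint : ∀ τ : ℝ, 0 < τ → ∀ s ∈ Icc 0 T,
      M s ≤ ENNReal.ofReal (2 * τ) * P s + ENNReal.ofReal (2 * (1 + 1 / τ ^ 2) * E) := by
    intro τ hτ s hs
    refine (mom_two_le_r5 (measurable_slice hcm s) hτ).trans (add_le_add le_rfl ?_)
    rw [(mom_cut_eq hF h0 h1 h2 hs).2, ENNReal.ofReal_mul (by positivity : (0 : ℝ) ≤ 2 * (1 + 1 / τ ^ 2))]
    exact mul_le_mul' le_rfl hhi
  intro t ht
  have htI := Ioc_subset_Icc_self ht
  have hcr := creation (bound_ne_top h2 T) hk hc hE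
    (fun s hs => mom_two_cut_le hF h0 h1 h2 hs) hstep hint t ht
  have h00 : (0 : ℝ) ∈ Icc 0 T := ⟨le_rfl, hT.le⟩
  have hn1 : (1 : ℝ) ≤ n := by exact_mod_cast hn
  have hn0 : (0 : ℝ) < n := zero_lt_one.trans_le hn1
  set l := max t (1 / (n : ℝ)) with hldef
  have hl : 0 < l := lt_max_of_lt_left ht.1
  have hMl : M t ≤ ENNReal.ofReal ((A2 + (2 * E + c * T)) / l ^ 2) := by
    rcases le_total (1 / (n : ℝ)) t with hcase | hcase
    · refine hcr.trans (ENNReal.ofReal_le_ofReal ?_)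
      rw [← hA2, hldef, max_eq_left hcase]
      gcongr
      linarith [mul_nonneg hc hT.le]
    · have h := (le_self_add (b := ENNReal.ofReal k * ∫⁻ s in Ioc 0 t, P s)).trans
        (hstep 0 h00 t htI ht.1.le)
      have hM00 : M 0 ≤ mom 2 F := by
        refine (mom_mono 2 (cut_le F T 0)).trans ((limit_bounds hF h0 h1 h2 le_rfl).2.2.trans_eq ?_)
        simp [bound]
      refine (h.trans (add_le_add (hM00.trans hM0) le_rfl)).trans ?_
      rw [← ENNReal.ofReal_add (by positivity) (mul_nonneg hc (by linarith [ht.1]))]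
      refine ENNReal.ofReal_le_ofReal ?_
      rw [hldef, max_eq_right hcase, div_pow, one_pow, div_div_eq_mul_div, div_one]
      have hn2 : (1 : ℝ) ≤ (n : ℝ) ^ 2 := one_le_pow₀ hn1
      nlinarith [mul_le_mul_of_nonneg_left ht.2 hc, mul_le_mul_of_nonneg_left hn2 (mul_nonneg hc hT.le),
        mul_le_mul_of_nonneg_left hn2 hE, mul_nonneg hA2' (sq_nonneg (n : ℝ))]
  refine (wsum_q3_le_split (measurable_slice hcm t) hl).trans ?_
  rw [(mom_cut_eq hF h0 h1 h2 htI).2]
  refine (add_le_add (mul_le_mul' le_rfl hhi) (mul_le_mul' le_rfl hMl)).trans_eq ?_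
  rw [← ENNReal.ofReal_mul (by positivity), ← ENNReal.ofReal_mul hl.le,
    ← ENNReal.ofReal_add (by positivity) (by positivity)]
  congr 1
  field_simp

end Vale.Agent.P140.Homogeneous

namespace Vale.Agent.P140

open MeasureTheory Set Filter Homogeneous
open scoped ENNReal Topology

/-- Truncated data have strong solutions whose third moment decays like `1 / t`. -/
theorem truncatedOut : TruncatedOut := by
  intro f hf h0 hint T hT
  set F : ℕ → Vel → ℝ≥0∞ := fun n v => ENNReal.ofReal (trunc f n v) with hFdef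
  have hFm : ∀ n, Measurable (F n) := fun n => (measurable_trunc hf n).ennreal_ofReal
  set F' : Vel → ℝ≥0∞ := fun v => ENNReal.ofReal (f v) with hF'def
  have hle : ∀ n, F n ≤ F' := fun n v => ENNReal.ofReal_le_ofReal (trunc_le h0 n v)
  have hfin1 : mom 1 F' ≠ ∞ := by
    refine ne_of_eq_of_ne (lintegral_congr fun v => ?_) hint.lintegral_lt_top.ne
    rw [pow_one, wt, hF'def, ENNReal.ofReal_mul (weight_pos v).le]
  set E := (mom 1 F').toReal with hEdef
  have hE : 0 ≤ E := ENNReal.toReal_nonneg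
  have hEof : ENNReal.ofReal E = mom 1 F' := ENNReal.ofReal_toReal hfin1
  have hm2 : ∀ n, mom 2 (F n) ≤ ENNReal.ofReal ((1 + (n : ℝ) ^ 2) * E) := fun n => by
    rw [ENNReal.ofReal_mul (by positivity), hEof]
    simp only [mom]
    rw [← lintegral_const_mul' _ _ ENNReal.ofReal_ne_top]
    refine lintegral_mono fun v => ?_
    by_cases hv : ‖v‖ ≤ n
    · rw [pow_one, ← mul_assoc, pow_two]
      refine mul_le_mul' (mul_le_mul' (ENNReal.ofReal_le_ofReal ?_) le_rfl) (hle n v)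
      unfold weight
      nlinarith [norm_nonneg v]
    · simp [hFdef, trunc, hv]
  have hm2fin : ∀ n, mom 2 (F n) ≠ ∞ := fun n => ne_top_of_le_ne_top ENNReal.ofReal_ne_top (hm2 n)
  have hm1 : ∀ n, mom 1 (F n) ≤ ENNReal.ofReal E := fun n => hEof.symm ▸ mom_mono 1 (hle n)
  have hsol : ∀ n, StrongSolution T (fun z => trunc f n z.2)
      (fun t z => (cut (F n) T t z.2).toReal) := fun n =>
    strongSolution_cut (measurable_trunc hf n) (fun v => indicator_nonneg (fun x _ => h0 x) v)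
      (hm2fin n) hT
  have hfinF : ∀ n v, F n v ≠ ∞ := fun n v => ENNReal.ofReal_ne_top
  have hn1 : ∀ n, mom 1 (F n) ≠ ∞ := fun n => ne_top_of_le_ne_top ENNReal.ofReal_ne_top (hm1 n)
  have hn0 : ∀ n, mom 0 (F n) ≠ ∞ := fun n => ne_top_of_le_ne_top (hn1 n) (mom_le_succ 0 _)
  have hmoment : ∀ n t, moment3 (fun v => (cut (F n) T t v).toReal) = wsum q3 (cut (F n) T t) :=
    fun n t => by
      refine lintegral_congr fun v => ?_
      rw [ENNReal.ofReal_mul (by positivity),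
        ENNReal.ofReal_toReal (cut_ne_top (hFm n) (hn0 n) (hn1 n) (hfinF n) T t v)]
      rfl
  have hcrude : ∀ n, ∀ t ∈ Ioc 0 T, wsum q3 (cut (F n) T t) ≤ 2 * bound (F n) T := fun n t ht =>
    (wsum_q3_le _).trans (mul_le_mul' le_rfl
      (mom_two_cut_le (hFm n) (hn0 n) (hn1 n) (hm2fin n) (Ioc_subset_Icc_self ht)))
  suffices h : ∃ A : ℝ, 0 ≤ A ∧ ∀ n : ℕ, 1 ≤ n → ∀ t ∈ Ioc 0 T,
      wsum q3 (cut (F n) T t) ≤ ENNReal.ofReal (A / max t (1 / (n : ℝ))) by
    obtain ⟨A, hA, hA'⟩ := h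
    refine ⟨A, hA, fun n hn => ⟨fun t v => (cut (F n) T t v).toReal, hsol n, ?_⟩⟩
    filter_upwards [ae_restrict_mem measurableSet_Ioc] with t ht
    rw [hmoment]
    exact hA' n hn t ht
  rcases eq_or_ne (mom 0 F') 0 with hz | hz
  · refine ⟨0, le_rfl, fun n _ t ht => ?_⟩
    have hF0 : F' =ᵐ[volume] 0 := by
      have := (lintegral_eq_zero_iff (f := fun v => wt v ^ 0 * F' v) (by fun_prop)).1 hz
      filter_upwards [this] with v hv
      simpa using hv
    have h20 : mom 2 (F n) = 0 := by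
      refine le_antisymm ((mom_mono 2 (hle n)).trans_eq ?_) zero_le
      refine (lintegral_congr_ae ?_).trans lintegral_zero
      filter_upwards [hF0] with v hv
      simp [hv]
    refine (hcrude n t ht).trans ?_
    simp [bound, h20]
  have hfin0 : mom 0 F' ≠ ∞ := ne_top_of_le_ne_top hfin1 (mom_le_succ 0 _)
  set ρ := (mom 0 F').toReal / 2 with hρdef
  have hρ : 0 < ρ := half_pos (ENNReal.toReal_pos hz hfin0)
  have htend : Tendsto (fun n => mom 0 (F n)) atTop (𝓝 (mom 0 F')) := by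
    refine tendsto_lintegral_of_dominated_convergence (fun v => wt v ^ 0 * F' v)
      (fun n => by fun_prop) (fun n => ae_of_all _ fun v => mul_le_mul' le_rfl (hle n v)) hfin0
      (ae_of_all _ fun v => tendsto_const_nhds.congr' ?_)
    filter_upwards [eventually_ge_atTop ⌈‖v‖⌉₊] with n hn
    have : v ∈ {u : Vel | ‖u‖ ≤ (n : ℝ)} := (Nat.le_ceil _).trans (Nat.cast_le.2 hn)
    simp only [hFdef, hF'def, trunc, indicator_of_mem this]
  have hlt : ENNReal.ofReal ρ < mom 0 F' := by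
    rw [ENNReal.ofReal_lt_iff_lt_toReal hρ.le hfin0]
    linarith
  obtain ⟨n₀, hn₀⟩ := (htend.eventually (lt_mem_nhds hlt)).exists_forall_of_atTop
  obtain ⟨A₁, hA₁, hA₁'⟩ := exists_uniform_bound (T := T) hρ hE hT
  set S := ∑ m ∈ Finset.range n₀, (2 * bound (F m) T).toReal with hS
  have hS0 : 0 ≤ S := Finset.sum_nonneg fun m _ => ENNReal.toReal_nonneg
  refine ⟨A₁ + S * (T + 1), by positivity, fun n hn t ht => ?_⟩
  have hl : 0 < max t (1 / (n : ℝ)) := lt_max_of_lt_left ht.1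
  rcases le_or_gt n₀ n with hcase | hcase
  · refine (hA₁' (F n) n (hFm n) (hfinF n) (hm2fin n) (hn₀ n hcase).le (hm1 n) hn (hm2 n) t ht).trans
      (ENNReal.ofReal_le_ofReal ?_)
    gcongr
    exact le_add_of_nonneg_right (by positivity)
  · refine (hcrude n t ht).trans ?_
    rw [← ENNReal.ofReal_toReal (ENNReal.mul_ne_top ENNReal.ofNat_ne_top (bound_ne_top (hm2fin n) T))]
    refine ENNReal.ofReal_le_ofReal ?_
    rw [le_div_iff₀ hl]
    have hle1 : (2 * bound (F n) T).toReal ≤ S :=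
      Finset.single_le_sum (f := fun m => (2 * bound (F m) T).toReal)
        (fun m _ => ENNReal.toReal_nonneg) (Finset.mem_range.2 hcase)
    have hle2 : max t (1 / (n : ℝ)) ≤ T + 1 := by
      refine max_le (by linarith [ht.2]) ?_
      have : 1 / (n : ℝ) ≤ 1 := by
        rw [div_le_one (by exact_mod_cast hn)]
        exact_mod_cast hn
      linarith
    nlinarith [mul_le_mul hle1 hle2 hl.le hS0, ENNReal.toReal_nonneg (a := 2 * bound (F n) T)]

end Vale.Agent.P140
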