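import Mathlib

/-!
# P140: the positive part of a primitive and a Grönwall lemma

The positive part of `u₀ + ∫ σ` grows at most like `σ` where it is positive and like `max σ 0` where
it vanishes: compare with the Riemann sums of the convex function `max · 0`.
-/

noncomputable section

namespace Vale.Agent.P140

open MeasureTheory Set Filter
open scoped Topology ENNReal

/-- The growth rate of the positive part of a function with value `u` and slope `σ`. -/
def posSlope (u σ : ℝ) : ℝ := if 0 < u then σ else if u = 0 then max σ 0 else 0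

lemma abs_posSlope_le (u σ : ℝ) : |posSlope u σ| ≤ |σ| := by
  unfold posSlope
  split_ifs with h h'
  · rfl
  · exact abs_max_le_max_abs_abs.trans (by simp)
  · simp

lemma measurable_posSlope : Measurable fun p : ℝ × ℝ => posSlope p.1 p.2 :=
  Measurable.ite (measurableSet_lt measurable_const measurable_fst) measurable_snd
    (Measurable.ite (measurableSet_eq_fun measurable_fst measurable_const)
      (measurable_snd.max measurable_const) measurable_const)

/-- The positive part of a primitive. -/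
theorem posPart_primitive_le {t : ℝ} (ht : 0 ≤ t) {σ : ℝ → ℝ}
    (hσ : IntervalIntegrable σ volume 0 t) (u₀ : ℝ) :
    max (u₀ + ∫ r in (0 : ℝ)..t, σ r) 0 ≤
      max u₀ 0 + ∫ s in (0 : ℝ)..t, posSlope (u₀ + ∫ r in (0 : ℝ)..s, σ r) (σ s) := by
  rcases ht.eq_or_lt with rfl | htp
  · simp
  set u : ℝ → ℝ := fun s => u₀ + ∫ r in (0 : ℝ)..s, σ r with hu
  have hcont : ContinuousOn u (Icc 0 t) := by
    have := intervalIntegral.continuousOn_primitive_interval' hσ left_mem_uIcc
    rw [uIcc_of_le ht] at this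
    exact continuousOn_const.add this
  set next : ℕ → ℝ → ℝ := fun n s => t * (⌈(n : ℝ) * s / t⌉₊ : ℝ) / n with hnext
  set h : ℕ → ℝ → ℝ := fun n s => if 0 < u (next n s) then σ s else 0 with hh
  set b : ℕ → ℝ → ℝ := fun n s => max (h n s) (posSlope (u s) (σ s)) with hb
  have hσm : AEMeasurable σ (volume.restrict (uIoc 0 t)) := by
    rw [uIoc_of_le ht]
    exact hσ.1.aestronglyMeasurable.aemeasurable
  have hbound : ∀ n s, |h n s| ≤ |σ s| := fun n s => by
    simp only [hh]
    split_ifs <;> simp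
  have hmh : ∀ n, AEMeasurable (h n) (volume.restrict (uIoc 0 t)) := fun n => by
    have hms : MeasurableSet {s : ℝ | 0 < u (next n s)} := by
      have : Measurable fun s : ℝ => u (next n s) :=
        (measurable_from_top (f := fun k : ℕ => u (t * (k : ℝ) / n))).comp
          (Nat.measurable_ceil.comp (by fun_prop : Measurable fun s : ℝ => (n : ℝ) * s / t))
      exact measurableSet_lt measurable_const this
    have : h n = {s : ℝ | 0 < u (next n s)}.indicator σ := by
      funext s; simp [hh, Set.indicator_apply]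
    rw [this]
    exact hσm.indicator hms
  have hmp : AEMeasurable (fun s => posSlope (u s) (σ s)) (volume.restrict (uIoc 0 t)) := by
    refine measurable_posSlope.comp_aemeasurable (AEMeasurable.prodMk ?_ hσm)
    rw [uIoc_of_le ht]
    exact (hcont.mono Ioc_subset_Icc_self).aemeasurable measurableSet_Ioc
  have hmb : ∀ n, AEMeasurable (b n) (volume.restrict (uIoc 0 t)) := fun n => (hmh n).max hmp
  have hib : ∀ n, IntervalIntegrable (b n) volume 0 t := fun n =>
    hσ.abs.mono_fun (hmb n).aestronglyMeasurable (ae_of_all _ fun s => by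
      simpa using abs_max_le_max_abs_abs.trans (max_le (hbound n s) (abs_posSlope_le _ _)))
  have hih : ∀ n, IntervalIntegrable (h n) volume 0 t := fun n =>
    hσ.abs.mono_fun (hmh n).aestronglyMeasurable (ae_of_all _ fun s => by simpa using hbound n s)
  have hstep : ∀ n : ℕ, 0 < n → max (u t) 0 ≤ max u₀ 0 + ∫ s in (0 : ℝ)..t, b n s := by
    intro n hn
    have hnr : (0 : ℝ) < n := Nat.cast_pos.2 hn
    set τ : ℕ → ℝ := fun i => t * (i : ℝ) / n with hτ
    have hτmem : ∀ i, i ≤ n → τ i ∈ Icc 0 t := fun i hi => by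
      refine ⟨by simp only [hτ]; positivity, ?_⟩
      rw [hτ, div_le_iff₀ hnr]
      exact mul_le_mul_of_nonneg_left (by exact_mod_cast hi) ht
    have hsub : ∀ i, i < n → uIcc (τ i) (τ (i + 1)) ⊆ uIcc 0 t := fun i hi => by
      rw [uIcc_of_le ht]
      exact uIcc_subset_Icc (hτmem i hi.le) (hτmem (i + 1) hi)
    have hτle : ∀ i, τ i ≤ τ (i + 1) := fun i => by
      simp only [hτ]; gcongr; exact i.le_succ
    have hone : ∀ i, i < n → max (u (τ (i + 1))) 0 - max (u (τ i)) 0 ≤
        ∫ s in τ i..τ (i + 1), h n s := by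
      intro i hi
      have hnx : ∀ s ∈ uIoc (τ i) (τ (i + 1)), next n s = τ (i + 1) := by
        intro s hs
        rw [uIoc_of_le (hτle i)] at hs
        have e : ⌈(n : ℝ) * s / t⌉₊ = i + 1 := by
          rw [Nat.ceil_eq_iff (Nat.succ_ne_zero i)]
          simp only [hτ, mem_Ioc, div_lt_iff₀ hnr, le_div_iff₀ hnr] at hs
          push_cast [Nat.add_sub_cancel] at hs ⊢
          constructor
          · rw [lt_div_iff₀ htp]; linarith [hs.1]
          · rw [div_le_iff₀ htp]; linarith [hs.2]
        simp only [hnext, hτ, e]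
      have hint : ∀ i, i ≤ n → IntervalIntegrable σ volume 0 (τ i) := fun i hi =>
        hσ.mono_set (uIcc_subset_uIcc left_mem_uIcc (by rw [uIcc_of_le ht]; exact hτmem i hi))
      by_cases hp : 0 < u (τ (i + 1))
      · have : ∫ s in τ i..τ (i + 1), h n s = ∫ s in τ i..τ (i + 1), σ s :=
          intervalIntegral.integral_congr_ae (ae_of_all _ fun s hs => by simp [hh, hnx s hs, hp])
        rw [this, max_eq_left hp.le, ← intervalIntegral.integral_interval_sub_left (hint _ hi) (hint _ hi.le)]
        have := le_max_left (u (τ i)) 0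
        simp only [hu] at this ⊢
        linarith
      · have : ∫ s in τ i..τ (i + 1), h n s = ∫ s in τ i..τ (i + 1), (0 : ℝ) :=
          intervalIntegral.integral_congr_ae (ae_of_all _ fun s hs => by simp [hh, hnx s hs, hp])
        rw [this, intervalIntegral.integral_zero, max_eq_right (not_lt.1 hp)]
        linarith [le_max_right (u (τ i)) 0]
    have hsum := Finset.sum_le_sum (s := Finset.range n) fun i hi => hone i (Finset.mem_range.1 hi)
    rw [Finset.sum_range_sub (fun i => max (u (τ i)) 0),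
      intervalIntegral.sum_integral_adjacent_intervals fun i hi => (hih n).mono_set (hsub i hi)] at hsum
    have e0 : τ 0 = 0 := by simp [hτ]
    have en : τ n = t := by simp only [hτ]; field_simp
    rw [e0, en] at hsum
    have eu : u 0 = u₀ := by simp [hu]
    rw [eu] at hsum
    have := intervalIntegral.integral_mono_on ht (hih n) (hib n) fun s _ => le_max_left _ _
    linarith
  have hlim : Tendsto (fun n => ∫ s in (0 : ℝ)..t, b n s) atTop
      (𝓝 (∫ s in (0 : ℝ)..t, posSlope (u s) (σ s))) := by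
    refine intervalIntegral.tendsto_integral_filter_of_dominated_convergence (fun s => |σ s|)
      (Eventually.of_forall fun n => (hmb n).aestronglyMeasurable)
      (Eventually.of_forall fun n => ae_of_all _ fun s _ => by
        simpa using abs_max_le_max_abs_abs.trans (max_le (hbound n s) (abs_posSlope_le _ _)))
      hσ.abs (ae_of_all _ fun s hs => ?_)
    rw [uIoc_of_le ht] at hs
    have hmem : ∀ n : ℕ, 0 < n → next n s ∈ Icc 0 t := fun n hn => by
      have hnr : (0 : ℝ) < n := Nat.cast_pos.2 hn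
      refine ⟨by simp only [hnext]; positivity, ?_⟩
      rw [hnext, div_le_iff₀ hnr]
      refine mul_le_mul_of_nonneg_left ?_ ht
      refine Nat.cast_le.2 (Nat.ceil_le.2 ?_)
      rw [div_le_iff₀ htp]
      exact mul_le_mul_of_nonneg_left hs.2 hnr.le
    have htn : Tendsto (fun n => next n s) atTop (𝓝[Icc 0 t] s) := by
      refine tendsto_nhdsWithin_iff.2 ⟨?_, (eventually_gt_atTop 0).mono hmem⟩
      have h2 : Tendsto (fun n : ℕ => t * ((⌈(n : ℝ) * (s / t)⌉₊ : ℝ) / n)) atTop (𝓝 (t * (s / t))) :=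
        ((tendsto_nat_ceil_mul_div_atTop (div_nonneg hs.1.le ht)).comp tendsto_natCast_atTop_atTop |>.congr
          fun n => by simp [mul_comm]).const_mul t
      rw [mul_div_cancel₀ _ htp.ne'] at h2
      exact h2.congr fun n => by simp only [hnext]; ring_nf
    have hu' : Tendsto (fun n => u (next n s)) atTop (𝓝 (u s)) :=
      (hcont s (Ioc_subset_Icc_self hs)).tendsto.comp htn
    rcases lt_trichotomy (u s) 0 with hn | hn | hn
    · refine tendsto_const_nhds.congr' ((hu'.eventually (gt_mem_nhds hn)).mono fun n hn' => ?_)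
      simp [hb, hh, posSlope, not_lt.2 hn'.le, not_lt.2 hn.le, hn.ne]
    · refine tendsto_const_nhds.congr fun n => ?_
      simp only [hb, hh, posSlope, hn, lt_irrefl, if_false, if_true]
      split_ifs <;> simp
    · refine tendsto_const_nhds.congr' ((hu'.eventually (lt_mem_nhds hn)).mono fun n hn' => ?_)
      simp [hb, hh, posSlope, hn, hn']
  exact ge_of_tendsto (hlim.const_add _) ((eventually_gt_atTop 0).mono hstep)

/-- Grönwall, for a finite measure without atoms. -/
theorem lintegral_eq_zero_of_le_lintegral_Iic {T : ℝ} {ν : Measure ℝ} [IsFiniteMeasure ν]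
    [NullSingletonClass ν] (hν : ν (Icc 0 T)ᶜ = 0) {z : ℝ → ℝ≥0∞} (hz : ∫⁻ t, z t ∂ν ≠ ⊤) {c : ℝ≥0∞}
    (hc : c ≠ ⊤) (hle : ∀ᵐ t ∂ν, z t ≤ c * ∫⁻ s in Iic t, z s ∂ν) :
    ∫⁻ t, z t ∂ν = 0 := by
  set μ := ν.withDensity z with hμ
  have hW : ∀ t, ∫⁻ s in Iic t, z s ∂ν = μ (Iic t) := fun t =>
    (withDensity_apply _ measurableSet_Iic).symm
  simp only [hW] at hle
  have hac : μ ≪ ν := withDensity_absolutelyContinuous _ _
  have hfin : μ univ ≠ ⊤ := by rwa [hμ, withDensity_apply _ MeasurableSet.univ, setLIntegral_univ]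
  have hout : μ (Icc 0 T)ᶜ = 0 := hac hν
  suffices h : μ univ = 0 by rwa [hμ, withDensity_apply _ MeasurableSet.univ, setLIntegral_univ] at h
  rcases le_or_gt 0 T with hT | hT
  swap
  · rwa [Icc_eq_empty (not_le.2 hT), compl_empty] at hout
  set A := {t ∈ Icc (0 : ℝ) T | μ (Iic t) = 0} with hA
  have h0 : (0 : ℝ) ∈ A := by
    refine ⟨left_mem_Icc.2 hT, le_antisymm ?_ zero_le⟩
    calc μ (Iic 0) ≤ μ ((Icc 0 T)ᶜ ∪ {0}) := measure_mono fun x (hx : x ≤ 0) => by
          rcases hx.lt_or_eq with h | h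
          · exact Or.inl fun hm => (not_le.2 h) hm.1
          · exact Or.inr h
      _ = 0 := measure_union_null hout (hac (measure_singleton 0))
  have hbdd : BddAbove A := ⟨T, fun x hx => hx.1.2⟩
  obtain ⟨a, ha⟩ : ∃ a, a = sSup A := ⟨_, rfl⟩
  have haI : a ∈ Icc 0 T := ⟨ha ▸ le_csSup hbdd h0, ha ▸ csSup_le ⟨0, h0⟩ fun x hx => hx.1.2⟩
  have haA : μ (Iic a) = 0 := by
    obtain ⟨s, -, hs, hsA⟩ := exists_seq_tendsto_sSup ⟨0, h0⟩ hbdd
    refine measure_mono_null (t := (⋃ n, Iic (s n)) ∪ {a}) (fun x (hx : x ≤ a) => ?_)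
      (measure_union_null (measure_iUnion_null fun n => (hsA n).2) (hac (measure_singleton a)))
    rcases hx.lt_or_eq with h | h
    · rw [← ha] at hs
      obtain ⟨n, hn⟩ := (hs.eventually (lt_mem_nhds h)).exists
      exact Or.inl (mem_iUnion.2 ⟨n, le_of_lt hn⟩)
    · exact Or.inr h
  rcases haI.2.eq_or_lt with rfl | hlt
  · refine measure_mono_null (t := Iic a ∪ (Icc 0 a)ᶜ) (fun x _ => ?_) (measure_union_null haA hout)
    rcases le_or_gt x a with h | h
    · exact Or.inl h
    · exact Or.inr fun hm => (not_le.2 h) hm.2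
  exfalso
  have hsmall : Tendsto (fun n : ℕ => c * ν (Ioc a (a + ((n : ℝ) + 1)⁻¹))) atTop (𝓝 0) := by
    have hanti : Antitone fun n : ℕ => Ioc a (a + ((n : ℝ) + 1)⁻¹) := fun m n hmn => by
      refine Ioc_subset_Ioc_right ?_
      gcongr
    have he : (⋂ n : ℕ, Ioc a (a + ((n : ℝ) + 1)⁻¹)) = ∅ := eq_empty_of_forall_notMem fun x hx => by
      rw [mem_iInter] at hx
      have h1 : Tendsto (fun n : ℕ => a + ((n : ℝ) + 1)⁻¹) atTop (𝓝 (a + 0)) := by
        simpa only [one_div] using (tendsto_one_div_add_atTop_nhds_zero_nat (𝕜 := ℝ)).const_add a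
      have := le_of_tendsto_of_tendsto' tendsto_const_nhds h1 fun n => (hx n).2
      linarith [(hx 0).1]
    have := tendsto_measure_iInter_atTop (μ := ν) (fun n => measurableSet_Ioc.nullMeasurableSet) hanti
      ⟨0, measure_ne_top _ _⟩
    rw [he, measure_empty] at this
    simpa using ENNReal.Tendsto.const_mul this (Or.inr hc)
  have hT' : Tendsto (fun n : ℕ => a + ((n : ℝ) + 1)⁻¹) atTop (𝓝 (a + 0)) := by
    simpa only [one_div] using (tendsto_one_div_add_atTop_nhds_zero_nat (𝕜 := ℝ)).const_add a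
  obtain ⟨n, hn, hnT⟩ := ((hsmall.eventually (gt_mem_nhds zero_lt_one)).and
    (hT'.eventually (gt_mem_nhds (by linarith : a + 0 < T)))).exists
  set b := a + ((n : ℝ) + 1)⁻¹ with hb
  have hab : a < b := by rw [hb]; have : (0 : ℝ) < ((n : ℝ) + 1)⁻¹ := (by positivity); linarith
  have hW0 : μ (Iic b) = 0 := by
    have h1 : μ (Iic b) ≤ c * ν (Ioc a b) * μ (Iic b) :=
      calc μ (Iic b) ≤ μ (Iic a ∪ Ioc a b) := measure_mono Iic_subset_Iic_union_Ioc
        _ ≤ μ (Iic a) + μ (Ioc a b) := measure_union_le _ _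
        _ = ∫⁻ t in Ioc a b, z t ∂ν := by rw [haA, zero_add, hμ, withDensity_apply _ measurableSet_Ioc]
        _ ≤ ∫⁻ _ in Ioc a b, c * μ (Iic b) ∂ν := by
            refine lintegral_mono_ae ?_
            filter_upwards [ae_restrict_of_ae hle, ae_restrict_mem measurableSet_Ioc] with t ht htm
            exact ht.trans (mul_le_mul' le_rfl (measure_mono (Iic_subset_Iic.2 htm.2)))
        _ = c * ν (Ioc a b) * μ (Iic b) := by rw [setLIntegral_const]; ring
    by_contra hne
    have hlt' : μ (Iic b) ≠ ⊤ := fun htop => hfin (top_le_iff.1 (htop ▸ measure_mono (subset_univ _)))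
    have h2 := ENNReal.mul_lt_mul_left hne hlt' hn
    rw [one_mul] at h2
    exact absurd h1 (not_le.2 h2)
  have hle' : b ≤ sSup A := le_csSup hbdd ⟨⟨haI.1.trans hab.le, hnT.le⟩, hW0⟩
  linarith

end Vale.Agent.P140
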