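import Vale.Agent.P140.Collision
import Vale.Agent.P140.Scalar

/-!
# P140: the pointwise limit of the renormalized difference and its weighted bound

For profiles `f` (renormalized) and `g` (strong), the positive part of `g - f_δ` grows at most like
`K = Q⁺(h,g) + Q⁺(g,h) + g L(e) - h L g` in the limit, with `h = (g - f)₊` and `e = (f - g)₊`;
the velocity average of `weight * K` is controlled by those of `h` and `e` and the third moment of `g`.
-/

noncomputable section

namespace Vale.Agent.P140

open MeasureTheory Set Filter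
open scoped Topology ENNReal

/-- `log (1 + δ r) / δ`. -/
def betaδ (δ r : ℝ) : ℝ := Real.log (1 + δ * r) / δ

/-- The renormalized density. -/
def renδ (δ : ℝ) (f : ℝ) (v : Vel) : ℝ := stdMax v * betaδ δ (f / stdMax v)

/-- The damping `β'`. -/
def dampδ (δ : ℝ) (f : ℝ) (v : Vel) : ℝ := (1 + δ * (f / stdMax v))⁻¹

lemma stdMax_pos (v : Vel) : 0 < stdMax v :=
  mul_pos (inv_pos.2 (Real.rpow_pos_of_pos (by positivity) _)) (Real.exp_pos _)

lemma continuous_stdMax : Continuous stdMax := by unfold stdMax; fun_prop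

lemma betaδ_le {δ r : ℝ} (hδ : 0 < δ) (hr : 0 ≤ r) : betaδ δ r ≤ r := by
  rw [betaδ, div_le_iff₀ hδ]
  linarith [Real.log_le_sub_one_of_pos (show 0 < 1 + δ * r by positivity)]

lemma le_betaδ {δ r : ℝ} (hδ : 0 < δ) (hr : 0 ≤ r) : (1 + δ * r)⁻¹ * r ≤ betaδ δ r := by
  have h : 0 < 1 + δ * r := by positivity
  have h1 := Real.one_sub_inv_le_log_of_pos h
  rw [betaδ, le_div_iff₀ hδ]
  have h2 : (1 + δ * r)⁻¹ * r * δ = 1 - (1 + δ * r)⁻¹ := by field_simp; ring
  linarith

lemma betaδ_nonneg {δ r : ℝ} (hδ : 0 < δ) (hr : 0 ≤ r) : 0 ≤ betaδ δ r :=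
  div_nonneg (Real.log_nonneg (le_add_of_nonneg_right (by positivity))) hδ.le

variable {δ f : ℝ} {v : Vel}

lemma dampδ_pos (hδ : 0 < δ) (hf : 0 ≤ f) : 0 < dampδ δ f v := by
  have := stdMax_pos v
  unfold dampδ; positivity

lemma dampδ_le_one (hδ : 0 < δ) (hf : 0 ≤ f) : dampδ δ f v ≤ 1 := by
  have := stdMax_pos v
  exact inv_le_one_of_one_le₀ (le_add_of_nonneg_right (by positivity))

lemma renδ_nonneg (hδ : 0 < δ) (hf : 0 ≤ f) : 0 ≤ renδ δ f v :=
  mul_nonneg (stdMax_pos v).le (betaδ_nonneg hδ (div_nonneg hf (stdMax_pos v).le))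

lemma renδ_le (hδ : 0 < δ) (hf : 0 ≤ f) : renδ δ f v ≤ f := by
  refine (mul_le_mul_of_nonneg_left (betaδ_le hδ (div_nonneg hf (stdMax_pos v).le)) (stdMax_pos v).le).trans_eq ?_
  field_simp [(stdMax_pos v).ne']

lemma dampδ_mul_le (hδ : 0 < δ) (hf : 0 ≤ f) : dampδ δ f v * f ≤ renδ δ f v := by
  have h := mul_le_mul_of_nonneg_left (le_betaδ hδ (div_nonneg hf (stdMax_pos v).le)) (stdMax_pos v).le
  refine le_trans (le_of_eq ?_) h
  simp only [dampδ]
  field_simp [(stdMax_pos v).ne']

lemma renδ_lt (hδ : 0 < δ) (hf : 0 < f) : renδ δ f v < f := by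
  have hr : 0 < f / stdMax v := div_pos hf (stdMax_pos v)
  have h : betaδ δ (f / stdMax v) < f / stdMax v := by
    rw [betaδ, div_lt_iff₀ hδ]
    have := Real.log_lt_sub_one_of_pos (show 0 < 1 + δ * (f / stdMax v) by positivity)
      (by nlinarith [mul_pos hδ hr])
    linarith
  refine (mul_lt_mul_of_pos_left h (stdMax_pos v)).trans_eq ?_
  field_simp [(stdMax_pos v).ne']

lemma tendsto_dampδ (f : ℝ) (v : Vel) :
    Tendsto (fun n : ℕ => dampδ (1 / ((n : ℝ) + 1)) f v) atTop (𝓝 1) := by
  have h := ((tendsto_one_div_add_atTop_nhds_zero_nat (𝕜 := ℝ)).mul_const (f / stdMax v)).const_add 1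
  rw [zero_mul, add_zero] at h
  simpa [dampδ] using h.inv₀ one_ne_zero

lemma tendsto_renδ (hf : 0 ≤ f) :
    Tendsto (fun n : ℕ => renδ (1 / ((n : ℝ) + 1)) f v) atTop (𝓝 f) := by
  have h := (tendsto_dampδ f v).mul_const f
  rw [one_mul] at h
  exact tendsto_of_tendsto_of_tendsto_of_le_of_le h tendsto_const_nhds
    (fun n => dampδ_mul_le (by positivity) hf) fun n => renδ_le (by positivity) hf

/-- The slope of the positive part of `g - f_δ` along a line. -/
def slopeδ (δ : ℝ) (f g : Vel → ℝ) (v : Vel) : ℝ :=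
  posSlope (g v - renδ δ (f v) v) (collision g v - dampδ δ (f v) v * collision f v)

/-- `(g - f)₊`. -/
def lack (f g : Vel → ℝ) (v : Vel) : ℝ := max (g v - f v) 0

/-- The dominating rate. -/
def domRate (f g : Vel → ℝ) (v : Vel) : ℝ≥0∞ := gain g g v + loss g f v

/-- The positive part of the limiting rate. -/
def upRate (f g : Vel → ℝ) (v : Vel) : ℝ≥0∞ :=
  gain (lack f g) g v + gain g (lack f g) v + loss g (lack g f) v

/-- The negative part of the limiting rate. -/
def downRate (f g : Vel → ℝ) (v : Vel) : ℝ≥0∞ := loss (lack f g) g v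

variable {f g : Vel → ℝ}

lemma lack_nonneg (f g : Vel → ℝ) (v : Vel) : 0 ≤ lack f g v := le_max_right _ _

lemma lack_le (hf : ∀ v, 0 ≤ f v) (hg : ∀ v, 0 ≤ g v) (v : Vel) : lack f g v ≤ g v :=
  max_le (by linarith [hf v]) (hg v)

lemma measurable_lack (hf : Measurable f) (hg : Measurable g) : Measurable (lack f g) :=
  (hg.sub hf).max measurable_const

lemma freq_mono {g' : Vel → ℝ} (h : ∀ v, g v ≤ g' v) (v : Vel) : freq g v ≤ freq g' v :=
  lintegral_mono fun u => lintegral_mono fun _ => mul_le_mul' le_rfl (ENNReal.ofReal_le_ofReal (h u))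

lemma upRate_le (hf : ∀ v, 0 ≤ f v) (hg : ∀ v, 0 ≤ g v) (v : Vel) :
    upRate f g v ≤ gain g g v + gain g g v + loss g f v := by
  refine add_le_add (add_le_add ?_ ?_) (mul_le_mul' le_rfl (freq_mono (lack_le hg hf) v))
  · exact gain_mono (lack_le hf hg) (fun _ => le_rfl) v
  · exact gain_mono (fun _ => le_rfl) (lack_le hf hg) v

lemma downRate_le (hf : ∀ v, 0 ≤ f v) (hg : ∀ v, 0 ≤ g v) (v : Vel) :
    downRate f g v ≤ loss g g v :=
  mul_le_mul' (ENNReal.ofReal_le_ofReal (lack_le hf hg v)) le_rfl

lemma freq_le_add (hg : ∀ v, 0 ≤ g v) (hgm : Measurable g) (v : Vel) :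
    freq f v ≤ freq g v + freq (lack g f) v := by
  have hk : Measurable fun p : Vel × Sph => ENNReal.ofReal |rate v p.1 p.2| * ENNReal.ofReal (g p.1) :=
    ((continuous_rate.abs.measurable.ennreal_ofReal.comp
      (f := fun p : Vel × Sph => (v, p.1, p.2)) (by fun_prop))).mul (hgm.comp measurable_fst).ennreal_ofReal
  unfold freq
  rw [← lintegral_add_left hk.lintegral_prod_right']
  refine lintegral_mono fun u => ?_
  rw [← lintegral_add_left (f := fun o => ENNReal.ofReal |rate v u o| * ENNReal.ofReal (g u))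
    (hk.comp (f := fun o : Sph => (u, o)) (by fun_prop))]
  refine lintegral_mono fun o => ?_
  rw [← mul_add, ← ENNReal.ofReal_add (hg u) (lack_nonneg g f u)]
  exact mul_le_mul' le_rfl (ENNReal.ofReal_le_ofReal (by
    unfold lack; linarith [le_max_left (f u - g u) 0]))

lemma gain_le_add (hfm : Measurable f) (hgm : Measurable g) (hf : ∀ v, 0 ≤ f v)
    (hg : ∀ v, 0 ≤ g v) (v : Vel) :
    gain g g v ≤ gain f f v + (gain (lack f g) g v + gain g (lack f g) v) := by
  have hm : ∀ {a b : Vel → ℝ}, Measurable a → Measurable b → Measurable fun p : Vel × Sph =>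
      ENNReal.ofReal |rate v p.1 p.2| * ENNReal.ofReal (a (post v p.1 p.2).1) *
        ENNReal.ofReal (b (post v p.1 p.2).2) := fun ha hb =>
    ((continuous_rate.abs.measurable.ennreal_ofReal.mul
      (ha.comp continuous_post.fst.measurable).ennreal_ofReal).mul
      (hb.comp continuous_post.snd.measurable).ennreal_ofReal).comp
      (f := fun p : Vel × Sph => (v, p.1, p.2)) (by fun_prop)
  have hh := measurable_lack hfm hgm
  unfold gain
  rw [← lintegral_add_left (hm hh hgm).lintegral_prod_right',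
    ← lintegral_add_left (hm hfm hfm).lintegral_prod_right']
  refine lintegral_mono fun u => ?_
  rw [← lintegral_add_left (f := fun o => ENNReal.ofReal |rate v u o| *
      ENNReal.ofReal (lack f g (post v u o).1) * ENNReal.ofReal (g (post v u o).2))
      ((hm hh hgm).comp (f := fun o : Sph => (u, o)) (by fun_prop)),
    ← lintegral_add_left (f := fun o => ENNReal.ofReal |rate v u o| *
      ENNReal.ofReal (f (post v u o).1) * ENNReal.ofReal (f (post v u o).2))
      ((hm hfm hfm).comp (f := fun o : Sph => (u, o)) (by fun_prop))]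
  refine lintegral_mono fun o => ?_
  set x := (post v u o).1
  set y := (post v u o).2
  have ha := hf x
  have hb := hf y
  have hc := hg x
  have hd := hg y
  have hx := lack_nonneg f g x
  have hy := lack_nonneg f g y
  simp only [mul_assoc, ← mul_add, ← ENNReal.ofReal_mul ha, ← ENNReal.ofReal_mul hc,
    ← ENNReal.ofReal_mul hx]
  rw [← ENNReal.ofReal_add (mul_nonneg hx hd) (mul_nonneg hc hy),
    ← ENNReal.ofReal_add (mul_nonneg ha hb) (add_nonneg (mul_nonneg hx hd) (mul_nonneg hc hy))]
  refine mul_le_mul' le_rfl (ENNReal.ofReal_le_ofReal ?_)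
  simp only [lack]
  rcases le_total (g x) (f x) with h1 | h1 <;> rcases le_total (g y) (f y) with h2 | h2
  · rw [max_eq_right (sub_nonpos.2 h1), max_eq_right (sub_nonpos.2 h2)]
    nlinarith [mul_le_mul h1 h2 hd ha]
  · rw [max_eq_right (sub_nonpos.2 h1), max_eq_left (sub_nonneg.2 h2)]
    nlinarith [mul_le_mul_of_nonneg_right h1 hb]
  · rw [max_eq_left (sub_nonneg.2 h1), max_eq_right (sub_nonpos.2 h2)]
    nlinarith [mul_le_mul_of_nonneg_left h2 ha]
  · rw [max_eq_left (sub_nonneg.2 h1), max_eq_left (sub_nonneg.2 h2)]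
    nlinarith [mul_nonneg (sub_nonneg.2 h1) (sub_nonneg.2 h2)]

lemma loss_add_le (hgm : Measurable g) (hf : ∀ v, 0 ≤ f v) (hg : ∀ v, 0 ≤ g v) {v : Vel}
    (hv : f v ≤ g v) :
    loss f f v + loss (lack f g) g v ≤ loss g g v + loss g (lack g f) v := by
  have e : ENNReal.ofReal (g v) = ENNReal.ofReal (f v) + ENNReal.ofReal (lack f g v) := by
    rw [← ENNReal.ofReal_add (hf v) (lack_nonneg f g v), lack, max_eq_left (sub_nonneg.2 hv)]
    ring_nf
  unfold loss
  calc ENNReal.ofReal (f v) * freq f v + ENNReal.ofReal (lack f g v) * freq g v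
      ≤ ENNReal.ofReal (f v) * (freq g v + freq (lack g f) v) +
          ENNReal.ofReal (lack f g v) * (freq g v + 0) := by
        rw [add_zero]; gcongr; exact freq_le_add hg hgm v
    _ ≤ ENNReal.ofReal (f v) * (freq g v + freq (lack g f) v) +
          ENNReal.ofReal (lack f g v) * (freq g v + freq (lack g f) v) := by gcongr; exact zero_le
    _ = _ := by rw [← add_mul, ← e, mul_add]

/-- The places where the renormalized rates are meaningful. -/
structure Finite (f g : Vel → ℝ) (v : Vel) : Prop where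
  gf : gain f f v ≠ ⊤
  lf : loss f f v ≠ ⊤
  gg : gain g g v ≠ ⊤
  lg : loss g g v ≠ ⊤
  lgf : loss g f v ≠ ⊤

lemma Finite.dom {v : Vel} (h : Finite f g v) : domRate f g v ≠ ⊤ := ENNReal.add_ne_top.2 ⟨h.gg, h.lgf⟩

lemma slopeδ_le {δ : ℝ} (hδ : 0 < δ) (hf : ∀ v, 0 ≤ f v) {v : Vel} (h : Finite f g v) :
    slopeδ δ f g v ≤ (domRate f g v).toReal := by
  set θ := dampδ δ (f v) v with hθ
  have hθ0 : 0 < θ := dampδ_pos hδ (hf v)
  have key : 0 ≤ g v - renδ δ (f v) v →
      collision g v - θ * collision f v ≤ (domRate f g v).toReal := by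
    intro hu
    have h1 : θ * f v ≤ g v := (dampδ_mul_le hδ (hf v)).trans (by linarith)
    have h2 : θ * (loss f f v).toReal ≤ (loss g f v).toReal := by
      rw [← ENNReal.toReal_ofReal hθ0.le, ← ENNReal.toReal_mul]
      refine ENNReal.toReal_mono h.lgf ?_
      rw [loss, loss, ← mul_assoc, ← ENNReal.ofReal_mul hθ0.le]
      exact mul_le_mul' (ENNReal.ofReal_le_ofReal h1) le_rfl
    rw [domRate, ENNReal.toReal_add h.gg h.lgf, collision, collision, mul_sub]
    have := mul_nonneg hθ0.le (ENNReal.toReal_nonneg (a := gain f f v))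
    linarith [ENNReal.toReal_nonneg (a := loss g g v)]
  unfold slopeδ posSlope
  rw [← hθ]
  split_ifs with h1 h2
  · exact key h1.le
  · exact max_le (key h2.ge) ENNReal.toReal_nonneg
  · exact ENNReal.toReal_nonneg

lemma collision_sub_le (hfm : Measurable f) (hgm : Measurable g) (hf : ∀ v, 0 ≤ f v)
    (hg : ∀ v, 0 ≤ g v) {v : Vel} (h : Finite f g v) (hv : f v ≤ g v) :
    collision g v - collision f v + (downRate f g v).toReal ≤ (upRate f g v).toReal := by
  have hu : upRate f g v ≠ ⊤ := ne_top_of_le_ne_top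
    (ENNReal.add_ne_top.2 ⟨ENNReal.add_ne_top.2 ⟨h.gg, h.gg⟩, h.lgf⟩) (upRate_le hf hg v)
  have hd : downRate f g v ≠ ⊤ := ne_top_of_le_ne_top h.lg (downRate_le hf hg v)
  have key : gain g g v + (loss f f v + downRate f g v) ≤
      gain f f v + loss g g v + upRate f g v := by
    refine (add_le_add (gain_le_add hfm hgm hf hg v) (loss_add_le hgm hf hg hv)).trans_eq ?_
    unfold upRate; ring
  have := ENNReal.toReal_mono (ENNReal.add_ne_top.2 ⟨ENNReal.add_ne_top.2 ⟨h.gf, h.lg⟩, hu⟩) key
  rw [ENNReal.toReal_add h.gg (ENNReal.add_ne_top.2 ⟨h.lf, hd⟩), ENNReal.toReal_add h.lf hd,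
    ENNReal.toReal_add (ENNReal.add_ne_top.2 ⟨h.gf, h.lg⟩) hu, ENNReal.toReal_add h.gf h.lg] at this
  unfold collision
  linarith

/-- The slopes converge, and the limit is at most `upRate - downRate`. -/
lemma exists_slope_limit (hfm : Measurable f) (hgm : Measurable g) (hf : ∀ v, 0 ≤ f v)
    (hg : ∀ v, 0 ≤ g v) {v : Vel} (h : Finite f g v) :
    ∃ L : ℝ, Tendsto (fun n : ℕ => slopeδ (1 / ((n : ℝ) + 1)) f g v) atTop (𝓝 L) ∧
      L + (downRate f g v).toReal ≤ (upRate f g v).toReal := by
  rcases lt_or_ge (g v) (f v) with hlt | hle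
  · refine ⟨0, tendsto_const_nhds.congr' ?_, ?_⟩
    · filter_upwards [((tendsto_renδ (v := v) (hf v)).eventually (lt_mem_nhds hlt))] with n hn
      rw [slopeδ, posSlope, if_neg (not_lt.2 (sub_nonpos.2 hn.le)), if_neg (sub_neg.2 hn).ne]
    · have : downRate f g v = 0 := by
        simp [downRate, loss, lack, max_eq_right (sub_nonpos.2 hlt.le)]
      simp [this]
  · rcases (hg v).eq_or_lt with h0 | h0
    · have hf0 : f v = 0 := le_antisymm (h0 ▸ hle) (hf v)
      refine ⟨max (collision g v - collision f v) 0, tendsto_const_nhds.congr fun n => ?_, ?_⟩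
      · simp [slopeδ, posSlope, ← h0, hf0, renδ, betaδ, dampδ]
      · have : downRate f g v = 0 := by simp [downRate, loss, lack, ← h0, hf0]
        simp only [this, ENNReal.toReal_zero, add_zero]
        exact max_le (by simpa [this] using collision_sub_le hfm hgm hf hg h hle) ENNReal.toReal_nonneg
    · refine ⟨collision g v - collision f v, ?_, collision_sub_le hfm hgm hf hg h hle⟩
      have hlim := ((tendsto_dampδ (f v) v).mul_const (collision f v)).const_sub (collision g v)
      rw [one_mul] at hlim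
      refine hlim.congr fun n => ?_
      have hpos : 0 < g v - renδ (1 / ((n : ℝ) + 1)) (f v) v := by
        rcases (hf v).eq_or_lt with hf0 | hf0
        · simpa [← hf0, renδ, betaδ] using h0
        · linarith [renδ_lt (v := v) (δ := 1 / ((n : ℝ) + 1)) (by positivity) hf0]
      rw [slopeδ, posSlope, if_pos hpos]

/-- The moment of order three. -/
def moment3 (g : Vel → ℝ) : ℝ≥0∞ := ∫⁻ v, ENNReal.ofReal ((1 + ‖v‖ ^ 3) * g v)

/-- The weighted mass. -/
def wmass (f : Vel → ℝ) : ℝ≥0∞ := ∫⁻ v, ENNReal.ofReal (weight v * f v)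

lemma lintegral_norm_le_wmass (f : Vel → ℝ) :
    ∫⁻ v, ENNReal.ofReal (1 + ‖v‖) * ENNReal.ofReal (f v) ≤ 2 * wmass f := by
  rw [wmass, ← lintegral_const_mul' _ _ (by norm_num)]
  refine lintegral_mono fun v => ?_
  have h2 := ENNReal.ofReal_le_ofReal (one_add_norm_le_weight v)
  rw [ENNReal.ofReal_mul (by norm_num), ENNReal.ofReal_ofNat] at h2
  rw [ENNReal.ofReal_mul (weight_pos v).le, ← mul_assoc]
  exact mul_le_mul' h2 le_rfl

lemma lintegral_norm_weight_le (g : Vel → ℝ) :
    ∫⁻ v, ENNReal.ofReal (1 + ‖v‖) * (ENNReal.ofReal (weight v) * ENNReal.ofReal (g v)) ≤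
      4 * moment3 g := by
  rw [moment3, ← lintegral_const_mul' _ _ (by norm_num)]
  refine lintegral_mono fun v => ?_
  have h2 := ENNReal.ofReal_le_ofReal (one_add_norm_mul_weight_le v)
  rw [ENNReal.ofReal_mul (by norm_num : (0 : ℝ) ≤ 4), ENNReal.ofReal_ofNat,
    ENNReal.ofReal_mul (by positivity : (0 : ℝ) ≤ 1 + ‖v‖)] at h2
  rw [ENNReal.ofReal_mul (show (0 : ℝ) ≤ 1 + ‖v‖ ^ 3 by positivity), ← mul_assoc, ← mul_assoc]
  exact mul_le_mul' h2 le_rfl

/-- `∫ (1 + |v|) f`. -/
def nmass (f : Vel → ℝ) : ℝ≥0∞ := ∫⁻ v, ENNReal.ofReal (1 + ‖v‖) * ENNReal.ofReal (f v)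

/-- The loss with weight, controlled by the third moment and `∫ (1 + |v|) f`. -/
lemma weight_loss_le' (hgm : Measurable g) (hfm : Measurable f) :
    ∫⁻ v, ENNReal.ofReal (weight v) * loss g f v ≤ 4 * surf univ * moment3 g * nmass f := by
  have hp : Measurable fun v => ENNReal.ofReal (weight v) * ENNReal.ofReal (g v) :=
    measurable_weight.ennreal_ofReal.mul hgm.ennreal_ofReal
  simp only [loss, ← mul_assoc]
  rw [lintegral_mul_freq hfm]
  refine (collInt_prod_le hp hfm.ennreal_ofReal).trans ?_
  calc _ ≤ surf univ * (4 * moment3 g * nmass f) :=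
        mul_le_mul' le_rfl (mul_le_mul' (lintegral_norm_weight_le g) le_rfl)
    _ = _ := by ring

/-- The loss with weight, controlled by the third moment of its first factor. -/
lemma weight_loss_le (hgm : Measurable g) (hfm : Measurable f) :
    ∫⁻ v, ENNReal.ofReal (weight v) * loss g f v ≤ 8 * surf univ * moment3 g * wmass f := by
  have hp : Measurable fun v => ENNReal.ofReal (weight v) * ENNReal.ofReal (g v) :=
    measurable_weight.ennreal_ofReal.mul hgm.ennreal_ofReal
  simp only [loss, ← mul_assoc]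
  rw [lintegral_mul_freq hfm]
  refine (collInt_prod_le hp hfm.ennreal_ofReal).trans ?_
  calc _ ≤ surf univ * (4 * moment3 g * (2 * wmass f)) :=
        mul_le_mul' le_rfl (mul_le_mul' (lintegral_norm_weight_le g) (lintegral_norm_le_wmass f))
    _ = _ := by ring

/-- **The velocity average of the limiting rate.** -/
lemma weight_upRate_le' (hfm : Measurable f) (hgm : Measurable g) :
    ∫⁻ v, ENNReal.ofReal (weight v) * upRate f g v ≤
      (∫⁻ v, ENNReal.ofReal (weight v) * downRate f g v) +
        4 * surf univ * moment3 g * (nmass (lack f g) + nmass (lack g f)) := by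
  have hh := measurable_lack hfm hgm
  have hw := measurable_weight.ennreal_ofReal
  have hk : ∀ {a b : Vel → ℝ}, Measurable a → Measurable b →
      Measurable fun v => gain a b v := fun ha hb =>
    (measurable_gain (α := Unit) (A := fun _ => _) (B := fun _ => _) (ha.comp measurable_snd)
      (hb.comp measurable_snd)).comp (f := fun v : Vel => ((), v)) measurable_prodMk_left
  have hm1 : Measurable fun v => ENNReal.ofReal (weight v) * gain (lack f g) g v := hw.mul (hk hh hgm)
  have hm2 : Measurable fun v => ENNReal.ofReal (weight v) * gain g (lack f g) v := hw.mul (hk hgm hh)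
  simp only [upRate, mul_add]
  have hm12 : Measurable fun v => ENNReal.ofReal (weight v) * gain (lack f g) g v +
      ENNReal.ofReal (weight v) * gain g (lack f g) v := hm1.add hm2
  rw [lintegral_add_left hm12, lintegral_add_left hm1, lintegral_weight_gain_add hh hgm]
  have e1 : (collInt fun v u _ => ENNReal.ofReal (weight v) *
      (ENNReal.ofReal (lack f g v) * ENNReal.ofReal (g u))) =
      ∫⁻ v, ENNReal.ofReal (weight v) * downRate f g v := by
    simp only [downRate, loss, ← mul_assoc]
    rw [lintegral_mul_freq hgm]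
  have e2 : (collInt fun v u _ => ENNReal.ofReal (weight u) *
      (ENNReal.ofReal (lack f g v) * ENNReal.ofReal (g u))) ≤
      4 * surf univ * moment3 g * nmass (lack f g) := by
    have : (collInt fun v u _ => ENNReal.ofReal (weight u) *
        (ENNReal.ofReal (lack f g v) * ENNReal.ofReal (g u))) = collInt fun v u _ =>
          ENNReal.ofReal (lack f g v) * (ENNReal.ofReal (weight u) * ENNReal.ofReal (g u)) := by
      simp only [mul_left_comm]
    rw [this]
    refine (collInt_prod_le hh.ennreal_ofReal (hw.mul hgm.ennreal_ofReal)).trans ?_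
    calc _ ≤ surf univ * (nmass (lack f g) * (4 * moment3 g)) :=
          mul_le_mul' le_rfl (mul_le_mul' le_rfl (lintegral_norm_weight_le g))
      _ = _ := by ring
  have e3 := weight_loss_le' hgm (measurable_lack hgm hfm)
  rw [e1, add_assoc]
  exact add_le_add le_rfl (add_le_add e2 e3)

/-- The velocity average, with the weighted masses. -/
lemma weight_upRate_le (hfm : Measurable f) (hgm : Measurable g) :
    ∫⁻ v, ENNReal.ofReal (weight v) * upRate f g v ≤
      (∫⁻ v, ENNReal.ofReal (weight v) * downRate f g v) +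
        8 * surf univ * moment3 g * (wmass (lack f g) + wmass (lack g f)) := by
  refine (weight_upRate_le' hfm hgm).trans (add_le_add le_rfl ?_)
  calc 4 * surf univ * moment3 g * (nmass (lack f g) + nmass (lack g f))
      ≤ 4 * surf univ * moment3 g * (2 * wmass (lack f g) + 2 * wmass (lack g f)) := by
        gcongr <;> exact lintegral_norm_le_wmass _
    _ = _ := by ring

/-- The unweighted velocity average of the limiting rate. -/
lemma upRate_le_nmass (hfm : Measurable f) (hgm : Measurable g) :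
    ∫⁻ v, upRate f g v ≤ (∫⁻ v, downRate f g v) +
      surf univ * nmass g * (nmass (lack f g) + nmass (lack g f)) := by
  have hh := measurable_lack hfm hgm
  have he := measurable_lack hgm hfm
  have hk : ∀ {a b : Vel → ℝ}, Measurable a → Measurable b →
      Measurable fun v => gain a b v := fun ha hb =>
    (measurable_gain (α := Unit) (A := fun _ => _) (B := fun _ => _) (ha.comp measurable_snd)
      (hb.comp measurable_snd)).comp (f := fun v : Vel => ((), v)) measurable_prodMk_left
  have hgain : ∀ {a b : Vel → ℝ}, Measurable a → Measurable b → ∫⁻ v, gain a b v =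
      collInt fun v u _ => ENNReal.ofReal (a v) * ENNReal.ofReal (b u) := by
    intro a b ha hb
    simpa using lintegral_mul_gain (Φ := fun _ => (1 : ℝ≥0∞)) measurable_const ha hb
  have hloss : ∀ {a b : Vel → ℝ}, Measurable b → ∫⁻ v, loss a b v =
      collInt fun v u _ => ENNReal.ofReal (a v) * ENNReal.ofReal (b u) := fun {a b} hb =>
    lintegral_mul_freq (Φ := fun v => ENNReal.ofReal (a v)) hb
  simp only [upRate, downRate]
  have hm12 : Measurable fun v => gain (lack f g) g v + gain g (lack f g) v :=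
    (hk hh hgm).add (hk hgm hh)
  rw [lintegral_add_left hm12, lintegral_add_left (hk hh hgm), hgain hh hgm, hgain hgm hh,
    hloss he, hloss hgm, mul_add, add_assoc]
  refine add_le_add le_rfl (add_le_add ?_ ?_)
  · exact (collInt_prod_le hgm.ennreal_ofReal hh.ennreal_ofReal).trans_eq (mul_assoc _ _ _).symm
  · exact (collInt_prod_le hgm.ennreal_ofReal he.ennreal_ofReal).trans_eq (mul_assoc _ _ _).symm

end Vale.Agent.P140
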