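import Vale.Agent.P140.Defs

/-!
# P140: the torus, free transport and the test functions along the lines

Smooth functions supported in the open unit cell, periodised and moved with the flow, are test
functions; they separate integrable functions on the phase space.
-/

noncomputable section

namespace Vale.Agent.P140

open MeasureTheory Set Filter
open scoped Topology ENNReal ContDiff

/-- The covering map of the positions. -/
def mk (x : Vel) : Pos := fun i => (x i : UnitAddCircle)

/-- The covering map of the phase space. -/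
def pm (p : Vel × Vel) : Phase := (mk p.1, p.2)

/-- The open unit cell. -/
def cube : Set Vel := {x | ∀ i, x i ∈ Ioo (0 : ℝ) 1}

lemma continuous_mk : Continuous mk := by
  refine continuous_pi fun i => ?_
  exact (AddCircle.continuous_mk' (1 : ℝ)).comp (PiLp.continuous_apply 2 (fun _ : Fin 3 => ℝ) i)

lemma continuous_pm : Continuous pm := (continuous_mk.comp continuous_fst).prodMk continuous_snd

lemma isOpen_cube : IsOpen cube := by
  rw [show cube = ⋂ i, (fun x : Vel => x i) ⁻¹' Ioo 0 1 by ext; simp [cube]]
  exact isOpen_iInter_of_finite fun i => isOpen_Ioo.preimage (PiLp.continuous_apply 2 _ i)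

lemma mk_lift (x : Pos) : mk (lift x) = x := by
  funext i; simp [mk, lift]

lemma lift_mk_of_mem {x : Vel} (hx : x ∈ cube) : lift (mk x) = x := by
  ext i
  simp only [lift, mk]
  exact AddCircle.equivIco_coe_of_mem ⟨(hx i).1.le, by simpa using (hx i).2⟩

lemma measurable_lift : Measurable lift :=
  (MeasurableEquiv.toLp 2 (Fin 3 → ℝ)).measurable.comp (measurable_pi_lambda _ fun i =>
    measurable_subtype_coe.comp ((AddCircle.measurableEquivIco (1 : ℝ) 0).measurable.comp (measurable_pi_apply i)))

lemma measurePreserving_mk :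
    MeasurePreserving mk (volume.restrict cube) (volume : Measure Pos) := by
  have h1 : MeasurePreserving (fun (a : Fin 3 → ℝ) i => (a i : UnitAddCircle))
      (Measure.pi fun _ => (volume : Measure ℝ).restrict (Ioo 0 1)) volume := by
    rw [volume_pi]
    refine measurePreserving_pi _ _ fun _ => ?_
    have := UnitAddCircle.measurePreserving_mk 0
    rwa [zero_add, ← Measure.restrict_congr_set Ioo_ae_eq_Ioc] at this
  rw [← Measure.restrict_pi_pi, ← volume_pi] at h1
  have h2 : MeasurePreserving (@WithLp.ofLp 2 (Fin 3 → ℝ)) (volume.restrict cube)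
      (volume.restrict (Set.univ.pi fun _ => Ioo (0 : ℝ) 1)) := by
    have := (PiLp.volume_preserving_ofLp (Fin 3)).restrict_preimage
      (MeasurableSet.univ_pi fun _ => measurableSet_Ioo (a := (0 : ℝ)) (b := 1))
    rwa [show cube = (@WithLp.ofLp 2 (Fin 3 → ℝ)) ⁻¹' (Set.univ.pi fun _ => Ioo (0 : ℝ) 1) by
      ext x; simp only [cube, mem_ofPred_eq, mem_preimage, mem_univ_pi]]
  exact h1.comp h2

lemma measurePreserving_pm :
    MeasurePreserving pm (volume.restrict (cube ×ˢ (univ : Set Vel))) (volume : Measure Phase) := by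
  rw [Measure.volume_eq_prod, ← Measure.prod_restrict, Measure.restrict_univ]
  exact measurePreserving_mk.prod (MeasurePreserving.id _)

lemma lift_pm {p : Vel × Vel} (hp : p ∈ cube ×ˢ (univ : Set Vel)) :
    (lift (pm p).1, (pm p).2) = p := by
  simp only [pm, lift_mk_of_mem hp.1, Prod.mk.eta]

/-- A function on the cell, periodised. -/
def periodise (χ : Vel × Vel → ℝ) (p : Vel × Vel) : ℝ := χ (lift (mk p.1), p.2)

/-- A function on the cell, read on the phase space. -/
def onPhase (χ : Vel × Vel → ℝ) (y : Phase) : ℝ := χ (lift y.1, y.2)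

lemma periodise_eq (χ : Vel × Vel → ℝ) (p : Vel × Vel) : periodise χ p = onPhase χ (pm p) := rfl

lemma contDiff_periodise {χ : Vel × Vel → ℝ} (hχ : ContDiff ℝ ∞ χ) (hc : HasCompactSupport χ)
    (hs : tsupport χ ⊆ cube ×ˢ univ) : ContDiff ℝ ∞ (periodise χ) := by
  refine contDiff_iff_contDiffAt.2 fun p => ?_
  by_cases hp : ∀ i, (lift (mk p.1)) i ≠ 0
  · set n : Fin 3 → ℤ := fun i => ⌊p.1 i⌋ with hn
    have hev : ∀ᶠ q in 𝓝 p, periodise χ q = χ (q.1 - WithLp.toLp 2 (fun i => (n i : ℝ)), q.2) := by
      have hnb : ∀ᶠ q in 𝓝 p, ∀ i, q.1 i ∈ Ioo (n i : ℝ) (n i + 1) := by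
        refine eventually_all.2 fun i => ?_
        have hi : Continuous fun q : Vel × Vel => q.1 i :=
          (PiLp.continuous_apply 2 (fun _ : Fin 3 => ℝ) i).comp continuous_fst
        refine hi.continuousAt.preimage_mem_nhds (isOpen_Ioo.mem_nhds ⟨?_, Int.lt_floor_add_one _⟩)
        refine lt_of_le_of_ne (Int.floor_le _) fun e => hp i ?_
        simp only [lift, mk]
        rw [AddCircle.coe_equivIco_mk_apply, Int.fract, ← e, hn]
        simp
      refine hnb.mono fun q hq => ?_
      simp only [periodise]
      congr 2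
      ext i
      simp only [lift, mk, PiLp.sub_apply]
      rw [AddCircle.coe_equivIco_mk_apply]
      have : ⌊q.1 i⌋ = n i := Int.floor_eq_iff.2 ⟨(hq i).1.le, (hq i).2⟩
      simp [Int.fract, this]
    exact (hχ.contDiffAt.comp p
      ((contDiffAt_fst.sub contDiffAt_const).prodMk contDiffAt_snd)).congr_of_eventuallyEq hev
  · have hK : IsClosed (pm '' tsupport χ) := (hc.image continuous_pm).isClosed
    have hnot : pm p ∉ pm '' tsupport χ := by
      rintro ⟨k, hk, hkp⟩
      obtain ⟨i, hi⟩ := not_forall_not.1 hp
      have hk1 := (hs hk).1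
      have : mk k.1 = mk p.1 := congrArg Prod.fst hkp
      rw [← this, lift_mk_of_mem hk1] at hi
      exact (hk1 i).1.ne' hi
    refine (contDiffAt_const (c := (0 : ℝ))).congr_of_eventuallyEq ?_
    filter_upwards [(hK.isOpen_compl.preimage continuous_pm).mem_nhds hnot] with q hq
    by_contra hne
    have hmem : (lift (mk q.1), q.2) ∈ tsupport χ := subset_tsupport χ hne
    exact hq ⟨_, hmem, by simp [pm, mk_lift]⟩

lemma periodise_periodic (χ : Vel × Vel → ℝ) (x v : Vel) (i : Fin 3) :
    periodise χ (x + EuclideanSpace.single i 1, v) = periodise χ (x, v) := by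
  have : mk (x + EuclideanSpace.single i 1) = mk x := by
    funext j
    simp only [mk]
    by_cases h : j = i <;> simp [h]
  simp [periodise, this]

/-- The functions on the cell separate integrable functions. -/
lemma ae_eq_zero_of_forall_cell {E : Phase → ℝ} (hE : Integrable E)
    (h : ∀ χ : Vel × Vel → ℝ, ContDiff ℝ ∞ χ → HasCompactSupport χ → tsupport χ ⊆ cube ×ˢ univ →
      ∫ y, onPhase χ y * E y = 0) : E =ᵐ[volume] 0 := by
  have hU : IsOpen (cube ×ˢ (univ : Set Vel)) := isOpen_cube.prod isOpen_univ
  have hm := measurePreserving_pm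
  have hi : IntegrableOn (fun p => E (pm p)) (cube ×ˢ univ) :=
    hm.integrable_comp_of_integrable hE
  have h0 := hU.ae_eq_zero_of_integral_contDiff_smul_eq_zero
    (f := fun p => E (pm p)) (μ := volume) hi.locallyIntegrableOn fun χ h1 h2 h3 => by
      have hoff : ∀ p ∉ cube ×ˢ (univ : Set Vel), χ p • E (pm p) = 0 := fun p hp => by
        simp [image_eq_zero_of_notMem_tsupport fun hh => hp (h3 hh)]
      rw [← setIntegral_eq_integral_of_forall_compl_eq_zero hoff]
      have e : ∫ p in cube ×ˢ (univ : Set Vel), χ p • E (pm p) =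
          ∫ p in cube ×ˢ (univ : Set Vel), (fun y => onPhase χ y * E y) (pm p) :=
        setIntegral_congr_fun hU.measurableSet fun p hp => by simp [onPhase, lift_pm hp]
      have hae : AEStronglyMeasurable (fun y => onPhase χ y * E y) volume :=
        (h1.continuous.measurable.comp ((measurable_lift.comp measurable_fst).prodMk
          measurable_snd)).aestronglyMeasurable.mul hE.1
      have hmap := integral_map (f := fun y => onPhase χ y * E y) hm.measurable.aemeasurable
        (by rwa [hm.map_eq])
      rw [hm.map_eq] at hmap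
      rw [e]
      exact hmap.symm.trans (h χ h1 h2 h3)
  have h1 : ∀ᵐ p ∂volume.restrict (cube ×ˢ (univ : Set Vel)), E (pm p) = 0 := by
    rw [ae_restrict_iff' hU.measurableSet]; exact h0
  obtain ⟨E', hE'm, hE'⟩ := hE.aemeasurable
  refine hE'.trans ?_
  rw [← hm.map_eq]
  refine (ae_map_iff hm.measurable.aemeasurable (measurableSet_eq_fun hE'm measurable_const)).2 ?_
  filter_upwards [h1, hm.quasiMeasurePreserving.ae_eq_comp hE'] with p hp hp'
  simp only [Function.comp_apply] at hp'
  exact hp'.symm.trans hp

lemma shift_zero (z : Phase) : shift 0 z = z := by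
  ext <;> simp [shift]

lemma shift_shift (s t : ℝ) (z : Phase) : shift s (shift t z) = shift (s + t) z := by
  simp only [shift, Prod.mk.injEq, and_true]
  funext i
  rw [add_assoc, ← AddCircle.coe_add]
  ring_nf

lemma continuous_shift : Continuous fun p : ℝ × Phase => shift p.1 p.2 := by
  refine (continuous_pi fun i => ?_).prodMk continuous_snd.snd
  refine ((continuous_apply i).comp continuous_snd.fst).add ((AddCircle.continuous_mk' (1 : ℝ)).comp ?_)
  exact continuous_fst.mul ((PiLp.continuous_apply 2 (fun _ : Fin 3 => ℝ) i).comp continuous_snd.snd)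

lemma measurePreserving_shift (s : ℝ) : MeasurePreserving (shift s) (volume : Measure Phase) volume := by
  have hg : Measurable (Function.uncurry fun (v : Vel) (x : Pos) =>
      fun i => x i + ((s * v i : ℝ) : UnitAddCircle)) := by
    have : Continuous fun p : Vel × Pos => (shift s (p.2, p.1)).1 :=
      (continuous_shift.comp (continuous_const.prodMk (continuous_snd.prodMk continuous_fst))).fst
    exact this.measurable
  have h := (MeasurePreserving.id (volume : Measure Vel)).skew_product
    (g := fun (v : Vel) (x : Pos) i => x i + ((s * v i : ℝ) : UnitAddCircle))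
    (μc := (volume : Measure Pos)) (μd := (volume : Measure Pos)) hg (ae_of_all _ fun v =>
      (measurePreserving_add_right (volume : Measure Pos)
        (fun i => ((s * v i : ℝ) : UnitAddCircle))).map_eq)
  exact (Measure.measurePreserving_swap.comp h).comp Measure.measurePreserving_swap

lemma measurePreserving_flow (μ : Measure ℝ) [SFinite μ] :
    MeasurePreserving (fun p : ℝ × Phase => (p.1, shift p.1 p.2)) (μ.prod volume) (μ.prod volume) :=
  (MeasurePreserving.id μ).skew_product (g := shift) continuous_shift.measurable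
    (ae_of_all _ fun s => (measurePreserving_shift s).map_eq)

/-- The flow as a measurable equivalence. -/
def shiftEquiv (s : ℝ) : Phase ≃ᵐ Phase where
  toFun := shift s
  invFun := shift (-s)
  left_inv z := by rw [shift_shift, neg_add_cancel, shift_zero]
  right_inv z := by rw [shift_shift, add_neg_cancel, shift_zero]
  measurable_toFun := (continuous_shift.comp (continuous_const.prodMk continuous_id)).measurable
  measurable_invFun := (continuous_shift.comp (continuous_const.prodMk continuous_id)).measurable

lemma integral_comp_shift (s : ℝ) (f : Phase → ℝ) : ∫ y, f (shift s y) = ∫ y, f y :=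
  (measurePreserving_shift s).integral_comp (shiftEquiv s).measurableEmbedding f

lemma lintegral_comp_shift (s : ℝ) (f : Phase → ℝ≥0∞) : ∫⁻ y, f (shift s y) = ∫⁻ y, f y :=
  (measurePreserving_shift s).lintegral_comp_emb (shiftEquiv s).measurableEmbedding f

/-- The test function: `η(t)` times a periodised function, constant along the lines. -/
def lineTest (η : ℝ → ℝ) (χ : Vel × Vel → ℝ) (t : ℝ) (x v : Vel) : ℝ :=
  η t * periodise χ (x - t • v, v)

lemma isTest_lineTest {η : ℝ → ℝ} (hη : ContDiff ℝ ∞ η) (hηc : HasCompactSupport η)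
    {χ : Vel × Vel → ℝ} (hχ : ContDiff ℝ ∞ χ) (hc : HasCompactSupport χ)
    (hs : tsupport χ ⊆ cube ×ˢ univ) : IsTest (lineTest η χ) := by
  refine ⟨?_, fun t x v i => ?_, ?_⟩
  · have hq : ContDiff ℝ ∞ fun p : ℝ × Vel × Vel => (p.2.1 - p.1 • p.2.2, p.2.2) := by fun_prop
    have h1 : ContDiff ℝ ∞ fun p : ℝ × Vel × Vel => η p.1 := hη.comp contDiff_fst
    have h2 : ContDiff ℝ ∞ fun p : ℝ × Vel × Vel => periodise χ (p.2.1 - p.1 • p.2.2, p.2.2) :=
      (contDiff_periodise hχ hc hs).comp hq
    unfold lineTest
    exact h1.mul h2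
  · simp only [lineTest, add_sub_right_comm, periodise_periodic]
  · obtain ⟨R₁, hR₁⟩ := hηc.isCompact.isBounded.exists_norm_le
    obtain ⟨R₂, hR₂⟩ := hc.isCompact.isBounded.exists_norm_le
    refine ⟨max R₁ R₂, fun t x v h => ?_⟩
    rcases h with h | h
    · simp [lineTest, image_eq_zero_of_notMem_tsupport fun hh =>
        absurd ((Real.norm_eq_abs t).symm.le.trans (hR₁ t hh)) (not_le.2 ((le_max_left _ _).trans_lt h))]
    · simp only [lineTest, periodise]
      set q : Vel × Vel := (lift (mk (x - t • v)), v) with hq
      have hnot : q ∉ tsupport χ := fun hh => by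
        have h1 : ‖q.2‖ ≤ R₂ := (norm_snd_le q).trans (hR₂ q hh)
        have h2 : R₂ < ‖v‖ := (le_max_right R₁ R₂).trans_lt h
        exact absurd h1 (not_le.2 h2)
      rw [image_eq_zero_of_notMem_tsupport hnot, mul_zero]

lemma transport_lineTest {η : ℝ → ℝ} (hη : Differentiable ℝ η) (χ : Vel × Vel → ℝ) (t : ℝ)
    (x v : Vel) : transport (lineTest η χ) t x v = deriv η t * periodise χ (x - t • v, v) := by
  have e : (fun s => lineTest η χ (t + s) (x + s • v) v) =
      fun s => η (t + s) * periodise χ (x - t • v, v) := by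
    funext s
    simp only [lineTest, add_smul]
    congr 3
    abel
  simp only [transport, e]
  have h1 : HasDerivAt η (deriv η t) (t + 0) := by simpa using (hη t).hasDerivAt
  exact ((h1.comp_const_add t 0).mul_const _).deriv

lemma periodise_shift (χ : Vel × Vel → ℝ) (t : ℝ) (y : Phase) :
    periodise χ (lift (shift t y).1 - t • (shift t y).2, (shift t y).2) = onPhase χ y := by
  simp only [periodise, onPhase, shift]
  congr 3
  funext i
  simp [mk, lift]

end Vale.Agent.P140
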