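import Vale.Agent.P140.Collision
import Vale.Agent.P140.Torus

/-!
# P140: the renormalized equation along the lines of free transport

An equation `(∂_t + v · ∇_x) a = b` in distributions with integrable `a` and `b` holds, integrated
along almost every line, for almost every time.
-/

noncomputable section

namespace Vale.Agent.P140

open MeasureTheory Set Filter
open scoped Topology ENNReal ContDiff

/-- The weak equation tested on the functions which are constant along the lines. -/
def WeakLines (a b : ℝ → Phase → ℝ) (a₀ : Phase → ℝ) : Prop :=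
  ∀ φ, IsTest φ →
    (∫ p in Ioi (0 : ℝ) ×ˢ (univ : Set Phase),
        a p.1 p.2 * transport φ p.1 (lift p.2.1) p.2.2 + b p.1 p.2 * φ p.1 (lift p.2.1) p.2.2) +
      ∫ z : Phase, a₀ z * φ 0 (lift z.1) z.2 = 0

lemma volume_restrict_slab (s : Set ℝ) :
    (volume : Measure (ℝ × Phase)).restrict (s ×ˢ univ) = (volume.restrict s).prod volume := by
  rw [Measure.volume_eq_prod, ← Measure.prod_restrict, Measure.restrict_univ]

lemma measurable_onPhase {χ : Vel × Vel → ℝ} (hχ : Continuous χ) : Measurable (onPhase χ) :=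
  hχ.measurable.comp ((measurable_lift.comp measurable_fst).prodMk measurable_snd)

lemma exists_cutoff (T : ℝ) (hT : 0 < T) :
    ∃ θ : ℝ → ℝ, ContDiff ℝ ∞ θ ∧ HasCompactSupport θ ∧ ∀ t ∈ Icc (-1 : ℝ) (T + 1), θ t = 1 := by
  let f : ContDiffBump (T / 2) := ⟨T + 1, T + 2, by linarith, by linarith⟩
  refine ⟨f, f.contDiff, f.hasCompactSupport, fun t ht => f.one_of_mem_closedBall ?_⟩
  rw [Metric.mem_closedBall, Real.dist_eq, abs_le]
  constructor <;> simp only [f] <;> linarith [ht.1, ht.2]

lemma exists_antideriv {T : ℝ} (hT : 0 < T) {ψ : ℝ → ℝ} (hψ : ContDiff ℝ ∞ ψ)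
    (hs : tsupport ψ ⊆ Ioo 0 T) :
    ∃ η : ℝ → ℝ, ContDiff ℝ ∞ η ∧ HasCompactSupport η ∧ (∀ t, T < t → η t = 0) ∧
      (∀ t ∈ Ioc 0 T, deriv η t = -ψ t) ∧ ∀ t ∈ Icc 0 T, η t = ∫ s in t..T, ψ s := by
  obtain ⟨θ, hθ, hθc, hθ1⟩ := exists_cutoff T hT
  set P : ℝ → ℝ := fun t => ∫ s in T..t, ψ s with hP
  have hd : ∀ t, HasDerivAt P (ψ t) t := fun t =>
    intervalIntegral.integral_hasDerivAt_right (hψ.continuous.intervalIntegrable _ _)
      (hψ.continuous.stronglyMeasurableAtFilter _ _) hψ.continuous.continuousAt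
  have hPc : ContDiff ℝ ∞ P := by
    rw [contDiff_infty_iff_deriv]
    exact ⟨fun t => (hd t).differentiableAt, by rw [funext fun t => (hd t).deriv]; exact hψ⟩
  have hzero : ∀ t, T ≤ t → P t = 0 := fun t ht => by
    simp only [hP]
    rw [intervalIntegral.integral_congr (g := fun _ => (0 : ℝ)), intervalIntegral.integral_zero]
    intro s hs'
    rw [uIcc_of_le ht] at hs'
    exact image_eq_zero_of_notMem_tsupport fun hh => absurd (hs hh).2 (not_lt.2 hs'.1)
  refine ⟨fun t => -(θ t * P t), (hθ.mul hPc).neg, hθc.mul_right.neg,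
    fun t ht => by simp [hzero t ht.le], fun t ht => ?_, fun t ht => ?_⟩
  · have h : (fun t => -(θ t * P t)) =ᶠ[𝓝 t] fun t => -P t := by
      filter_upwards [Icc_mem_nhds (by linarith [ht.1] : (-1 : ℝ) < t) (by linarith [ht.2] : t < T + 1)]
        with s hs'
      rw [hθ1 s hs', one_mul]
    rw [h.deriv_eq]
    exact (hd t).neg.deriv
  · show -(θ t * P t) = _
    rw [hθ1 t ⟨by linarith [ht.1], by linarith [ht.2]⟩, one_mul]
    simp only [hP]
    rw [intervalIntegral.integral_symm t T, neg_neg]

variable {T : ℝ} {a b : ℝ → Phase → ℝ} {a₀ : Phase → ℝ}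

lemma integrable_flow (ha : Integrable (fun p : ℝ × Phase => a p.1 p.2)
      ((volume.restrict (Ioc 0 T)).prod volume)) :
    Integrable (fun p : ℝ × Phase => a p.1 (shift p.1 p.2))
      ((volume.restrict (Ioc 0 T)).prod volume) :=
  (measurePreserving_flow _).integrable_comp_of_integrable ha

lemma integrable_bdd_mul {α : Type*} [MeasurableSpace α] {μ : Measure α} {f g : α → ℝ}
    (hg : Integrable g μ) (hf : Measurable f) {C : ℝ} (hC : ∀ x, |f x| ≤ C) :
    Integrable (fun x => f x * g x) μ :=
  hg.bdd_mul hf.aestronglyMeasurable (ae_of_all _ fun x => (Real.norm_eq_abs _).le.trans (hC x))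

lemma exists_bound {E : Type*} [TopologicalSpace E] {f : E → ℝ} (hf : Continuous f)
    (hc : HasCompactSupport f) : ∃ C : ℝ, ∀ x, |f x| ≤ C := by
  obtain ⟨C, hC⟩ := hf.bounded_above_of_compact_support hc
  exact ⟨C, fun x => by simpa using hC x⟩

/-- The weak equation tested along the lines. -/
lemma weak_along
    (ha : Integrable (fun p : ℝ × Phase => a p.1 p.2) ((volume.restrict (Ioc 0 T)).prod volume))
    (hb : Integrable (fun p : ℝ × Phase => b p.1 p.2) ((volume.restrict (Ioc 0 T)).prod volume))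
    (hw : WeakLines a b a₀) {η : ℝ → ℝ} (hη : ContDiff ℝ ∞ η) (hηc : HasCompactSupport η)
    (hη0 : ∀ t, T < t → η t = 0) {χ : Vel × Vel → ℝ} (hχ : ContDiff ℝ ∞ χ)
    (hχc : HasCompactSupport χ) (hχs : tsupport χ ⊆ cube ×ˢ univ) :
    (∫ p, (deriv η p.1 * a p.1 (shift p.1 p.2) + η p.1 * b p.1 (shift p.1 p.2)) * onPhase χ p.2
        ∂(volume.restrict (Ioc 0 T)).prod volume) + η 0 * ∫ y, onPhase χ y * a₀ y = 0 := by
  have key := hw _ (isTest_lineTest hη hηc hχ hχc hχs)
  have hd : Differentiable ℝ η := hη.differentiable (by simp)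
  have hd0 : ∀ t, T < t → deriv η t = 0 := fun t ht => by
    have : η =ᶠ[𝓝 t] fun _ => (0 : ℝ) := by
      filter_upwards [Ioi_mem_nhds ht] with s hs using hη0 s hs
    rw [this.deriv_eq, deriv_const]
  simp only [transport_lineTest hd, lineTest, zero_smul, sub_zero] at key
  set G : ℝ × Phase → ℝ := fun p =>
    a p.1 p.2 * (deriv η p.1 * periodise χ (lift p.2.1 - p.1 • p.2.2, p.2.2)) +
      b p.1 p.2 * (η p.1 * periodise χ (lift p.2.1 - p.1 • p.2.2, p.2.2)) with hG
  have hslab : ∫ p in Ioi (0 : ℝ) ×ˢ (univ : Set Phase), G p =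
      ∫ p in Ioc (0 : ℝ) T ×ˢ (univ : Set Phase), G p := by
    refine setIntegral_eq_of_subset_of_forall_sdiff_eq_zero (measurableSet_Ioi.prod MeasurableSet.univ)
      (prod_mono Ioc_subset_Ioi_self subset_rfl) fun p hp => ?_
    have : T < p.1 := lt_of_not_ge fun h => hp.2 ⟨⟨hp.1.1, h⟩, trivial⟩
    simp [hG, hη0 _ this, hd0 _ this]
  rw [hslab, volume_restrict_slab] at key
  have hmp := measurePreserving_flow ((volume : Measure ℝ).restrict (Ioc 0 T))
  have hmapped : ∫ p, G p ∂((volume.restrict (Ioc 0 T)).prod volume) =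
      ∫ p, G (p.1, shift p.1 p.2) ∂((volume.restrict (Ioc 0 T)).prod volume) := by
    have hGm : AEStronglyMeasurable G ((volume.restrict (Ioc 0 T)).prod volume) := by
      have h1 : Measurable fun p : ℝ × Phase => periodise χ (lift p.2.1 - p.1 • p.2.2, p.2.2) :=
        (contDiff_periodise hχ hχc hχs).continuous.measurable.comp
          (((measurable_lift.comp measurable_snd.fst).sub
            (measurable_fst.smul measurable_snd.snd)).prodMk measurable_snd.snd)
      exact (ha.1.mul (((hη.continuous_deriv (by simp)).measurable.comp measurable_fst).mul h1).aestronglyMeasurable).add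
        (hb.1.mul ((hη.continuous.measurable.comp measurable_fst).mul h1).aestronglyMeasurable)
    have := integral_map hmp.measurable.aemeasurable (f := G) (by rwa [hmp.map_eq])
    rwa [hmp.map_eq] at this
  rw [hmapped] at key
  refine Eq.trans ?_ key
  congr 1
  · refine integral_congr_ae (ae_of_all _ fun p => ?_)
    simp only [hG, periodise_shift]
    ring
  · rw [← integral_const_mul]
    refine integral_congr_ae (ae_of_all _ fun y => ?_)
    simp only [periodise, onPhase, mk_lift]
    ring

/-- Integration by parts against a primitive. -/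
lemma integral_primitive {ψ f : ℝ → ℝ} (hψ : Continuous ψ)
    (hf : Integrable f (volume.restrict (Ioc 0 T))) :
    ∫ s in Ioc 0 T, (∫ t in s..T, ψ t) * f s = ∫ t in Ioc 0 T, ψ t * ∫ s in (0 : ℝ)..t, f s := by
  set μ := (volume : Measure ℝ).restrict (Ioc 0 T) with hμ
  set K : ℝ × ℝ → ℝ := {p : ℝ × ℝ | p.2 ≤ p.1}.indicator fun p => ψ p.1 * f p.2 with hK
  have hms : MeasurableSet {p : ℝ × ℝ | p.2 ≤ p.1} := measurableSet_le measurable_snd measurable_fst
  have hψi : Integrable ψ μ := hψ.integrableOn_Ioc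
  have hKi : Integrable K (μ.prod μ) := (hψi.mul_prod hf).indicator hms
  have h1 : ∀ s ∈ Ioc 0 T, ∫ t, K (t, s) ∂μ = (∫ t in s..T, ψ t) * f s := by
    intro s hs
    have e : (fun t => K (t, s)) = (Ici s).indicator fun t => ψ t * f s := by
      funext t; simp [hK, indicator_apply]
    rw [e, integral_indicator measurableSet_Ici, hμ, Measure.restrict_restrict measurableSet_Ici,
      intervalIntegral.integral_of_le hs.2, integral_mul_const]
    congr 1
    refine setIntegral_congr_set ?_
    have : Ici s ∩ Ioc 0 T = Icc s T := by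
      ext t; simp only [mem_inter_iff, mem_Ici, mem_Ioc, mem_Icc]
      exact ⟨fun h => ⟨h.1, h.2.2⟩, fun h => ⟨h.1, hs.1.trans_le h.1, h.2⟩⟩
    rw [this]
    exact Ioc_ae_eq_Icc.symm
  have h2 : ∀ t ∈ Ioc 0 T, ∫ s, K (t, s) ∂μ = ψ t * ∫ s in (0 : ℝ)..t, f s := by
    intro t ht
    have e : (fun s => K (t, s)) = (Iic t).indicator fun s => ψ t * f s := by
      funext s; simp [hK, indicator_apply]
    rw [e, integral_indicator measurableSet_Iic, hμ, Measure.restrict_restrict measurableSet_Iic,
      intervalIntegral.integral_of_le ht.1.le, integral_const_mul]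
    congr 2
    rw [show Iic t ∩ Ioc 0 T = Ioc 0 t by
      ext s; simp only [mem_inter_iff, mem_Iic, mem_Ioc]
      exact ⟨fun h => ⟨h.2.1, h.1⟩, fun h => ⟨h.2, h.1, h.2.trans ht.2⟩⟩]
  have := integral_integral_swap (f := fun t s => K (t, s)) hKi
  rw [setIntegral_congr_fun measurableSet_Ioc fun t ht => h2 t ht,
    setIntegral_congr_fun measurableSet_Ioc fun s hs => h1 s hs] at this
  exact this.symm

lemma integrable_primitive (hb : Integrable (fun p : ℝ × Phase => b p.1 p.2)
      ((volume.restrict (Ioc 0 T)).prod volume)) :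
    Integrable (fun p : ℝ × Phase => ∫ s in (0 : ℝ)..p.1, b s p.2)
      ((volume.restrict (Ioc 0 T)).prod volume) := by
  set μ := (volume : Measure ℝ).restrict (Ioc 0 T) with hμ
  set K : (ℝ × Phase) × ℝ → ℝ := {q : (ℝ × Phase) × ℝ | q.2 ≤ q.1.1}.indicator
    fun q => b q.2 q.1.2 with hK
  have hms : MeasurableSet {q : (ℝ × Phase) × ℝ | q.2 ≤ q.1.1} :=
    measurableSet_le measurable_snd measurable_fst.fst
  have hswap : MeasurePreserving (fun q : (ℝ × Phase) × ℝ => (q.1.1, (q.2, q.1.2)))
      ((μ.prod (volume : Measure Phase)).prod μ) (μ.prod (μ.prod volume)) :=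
    ((MeasurePreserving.id μ).prod Measure.measurePreserving_swap).comp
      (measurePreserving_prodAssoc μ volume μ)
  have hbase : Integrable (fun r : ℝ × (ℝ × Phase) => b r.2.1 r.2.2) (μ.prod (μ.prod volume)) :=
    hb.comp_snd μ
  have hKi : Integrable K ((μ.prod (volume : Measure Phase)).prod μ) :=
    (hswap.integrable_comp_of_integrable hbase).indicator hms
  refine hKi.integral_prod_left.congr ?_
  have : ∀ᵐ p ∂μ.prod (volume : Measure Phase), p.1 ∈ Ioc 0 T :=
    Measure.quasiMeasurePreserving_fst.ae (ae_restrict_mem measurableSet_Ioc)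
  filter_upwards [this] with p hp
  have e : (fun s => K (p, s)) = (Iic p.1).indicator fun s => b s p.2 := by
    funext s; simp [hK, indicator_apply]
  rw [e, integral_indicator measurableSet_Iic, hμ, Measure.restrict_restrict measurableSet_Iic,
    intervalIntegral.integral_of_le hp.1.le]
  rw [show Iic p.1 ∩ Ioc 0 T = Ioc 0 p.1 by
    ext s; simp only [mem_inter_iff, mem_Iic, mem_Ioc]
    exact ⟨fun h => ⟨h.2.1, h.1⟩, fun h => ⟨h.2, h.1, h.2.trans hp.2⟩⟩]

lemma integrable_mul_fst {ψ : ℝ → ℝ} (hψ : Continuous ψ) (hψc : HasCompactSupport ψ)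
    {f : ℝ × Phase → ℝ} (hf : Integrable f ((volume.restrict (Ioc 0 T)).prod volume)) :
    Integrable (fun p => ψ p.1 * f p) ((volume.restrict (Ioc 0 T)).prod volume) := by
  obtain ⟨C, hC⟩ := exists_bound hψ hψc
  exact integrable_bdd_mul hf (hψ.measurable.comp measurable_fst) fun p => hC p.1

/-- **The equation along almost every line.** -/
theorem mild_of_weak (hT : 0 < T)
    (ha : Integrable (fun p : ℝ × Phase => a p.1 p.2) ((volume.restrict (Ioc 0 T)).prod volume))
    (hb : Integrable (fun p : ℝ × Phase => b p.1 p.2) ((volume.restrict (Ioc 0 T)).prod volume))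
    (ha₀ : Integrable a₀) (hw : WeakLines a b a₀) :
    ∀ᵐ t ∂volume.restrict (Ioc 0 T), ∀ᵐ y : Phase,
      a t (shift t y) = a₀ y + ∫ s in (0 : ℝ)..t, b s (shift s y) := by
  set μ := (volume : Measure ℝ).restrict (Ioc 0 T) with hμ
  have hA := integrable_flow ha
  have hB := integrable_flow hb
  set D : ℝ × Phase → ℝ := fun p =>
    a p.1 (shift p.1 p.2) - a₀ p.2 - ∫ s in (0 : ℝ)..p.1, b s (shift s p.2) with hD
  have hP := integrable_primitive (b := fun s y => b s (shift s y)) hB
  have hDi : Integrable D (μ.prod volume) := (hA.sub (ha₀.comp_snd μ)).sub hP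
  have hcell : ∀ ψ : ℝ → ℝ, ContDiff ℝ ∞ ψ → HasCompactSupport ψ → tsupport ψ ⊆ Ioo 0 T →
      (fun y => ∫ t, ψ t * D (t, y) ∂μ) =ᵐ[volume] 0 := by
    intro ψ hψ hψc hψs
    refine ae_eq_zero_of_forall_cell (integrable_mul_fst hψ.continuous hψc hDi).integral_prod_right
      fun χ hχ hχc hχs => ?_
    obtain ⟨η, hη, hηc, hη0, hη', hη1⟩ := exists_antideriv hT hψ hψs
    have key := weak_along ha hb hw hη hηc hη0 hχ hχc hχs
    obtain ⟨C, hC⟩ := exists_bound hχ.continuous hχc
    have hbd : ∀ y, |onPhase χ y| ≤ C := fun y => hC _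
    have hmχ := measurable_onPhase hχ.continuous
    have i1 : Integrable (fun p : ℝ × Phase => ψ p.1 * a p.1 (shift p.1 p.2) * onPhase χ p.2)
        (μ.prod volume) :=
      (integrable_bdd_mul (integrable_mul_fst hψ.continuous hψc hA) (hmχ.comp measurable_snd)
        fun p => hbd p.2).congr (ae_of_all _ fun _ => mul_comm _ _)
    have i2 : Integrable (fun p : ℝ × Phase => η p.1 * b p.1 (shift p.1 p.2) * onPhase χ p.2)
        (μ.prod volume) :=
      (integrable_bdd_mul (integrable_mul_fst hη.continuous hηc hB) (hmχ.comp measurable_snd)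
        fun p => hbd p.2).congr (ae_of_all _ fun _ => mul_comm _ _)
    have hae : ∀ᵐ p ∂μ.prod (volume : Measure Phase),
        (deriv η p.1 * a p.1 (shift p.1 p.2) + η p.1 * b p.1 (shift p.1 p.2)) * onPhase χ p.2 =
          -(ψ p.1 * a p.1 (shift p.1 p.2) * onPhase χ p.2) +
            η p.1 * b p.1 (shift p.1 p.2) * onPhase χ p.2 := by
      have : ∀ᵐ p ∂μ.prod (volume : Measure Phase), p.1 ∈ Ioc 0 T :=
        Measure.quasiMeasurePreserving_fst.ae (ae_restrict_mem measurableSet_Ioc)
      filter_upwards [this] with p hp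
      rw [hη' p.1 hp]; ring
    rw [integral_congr_ae hae] at key
    have i3 : Integrable (fun p : ℝ × Phase => -(ψ p.1 * a p.1 (shift p.1 p.2) * onPhase χ p.2) +
        η p.1 * b p.1 (shift p.1 p.2) * onPhase χ p.2) (μ.prod volume) := i1.neg.add i2
    rw [integral_prod_symm _ i3, ← integral_const_mul,
      ← integral_add i3.integral_prod_right ((integrable_bdd_mul ha₀ hmχ hbd).const_mul _)] at key
    rw [← neg_eq_zero, ← integral_neg]
    refine Eq.trans (integral_congr_ae ?_) key
    filter_upwards [hA.prod_left_ae, hB.prod_left_ae, hP.prod_left_ae] with y hAy hBy hPy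
    obtain ⟨Cψ, hCψ⟩ := exists_bound hψ.continuous hψc
    obtain ⟨Cη, hCη⟩ := exists_bound hη.continuous hηc
    have j1 := integrable_bdd_mul hAy hψ.continuous.measurable hCψ
    have j2 := integrable_bdd_mul hBy hη.continuous.measurable hCη
    have j3 := integrable_bdd_mul hPy hψ.continuous.measurable hCψ
    have j0 : Integrable ψ μ := hψ.continuous.integrableOn_Ioc
    have eη : ∫ t, η t * b t (shift t y) ∂μ =
        ∫ t, (ψ t * ∫ s in (0 : ℝ)..t, b s (shift s y)) ∂μ := by
      rw [hμ]
      refine Eq.trans ?_ (integral_primitive (f := fun s => b s (shift s y)) hψ.continuous hBy)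
      exact setIntegral_congr_fun measurableSet_Ioc fun t ht => by rw [hη1 t ⟨ht.1.le, ht.2⟩]
    have e0 : η 0 = ∫ t, ψ t ∂μ := by
      rw [hη1 0 ⟨le_rfl, hT.le⟩, intervalIntegral.integral_of_le hT.le]
    have eD : ∫ t, ψ t * D (t, y) ∂μ = (∫ t, ψ t * a t (shift t y) ∂μ) - (∫ t, ψ t ∂μ) * a₀ y -
        ∫ t, (ψ t * ∫ s in (0 : ℝ)..t, b s (shift s y)) ∂μ := by
      have k1 := integral_sub (μ := μ) j1 (j0.mul_const (a₀ y))
      have k2 := integral_sub (μ := μ) (f := fun t => ψ t * a t (shift t y) - ψ t * a₀ y)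
        (j1.sub (j0.mul_const _)) j3
      rw [← integral_mul_const, ← k1]
      refine Eq.trans ?_ k2
      exact integral_congr_ae (ae_of_all _ fun t => by simp [hD]; ring)
    have k := integral_add (μ := μ) (f := fun t => -(ψ t * a t (shift t y) * onPhase χ y))
      (g := fun t => η t * b t (shift t y) * onPhase χ y) (j1.mul_const _).neg (j2.mul_const _)
    rw [k, integral_neg, integral_mul_const, integral_mul_const, eη, e0, eD]
    ring
  have hrect : ∀ A : Set ℝ, MeasurableSet A → ∀ B : Set Phase, MeasurableSet B →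
      ∫ p in A ×ˢ B, D p ∂μ.prod volume = 0 := by
    intro A hA' B hB'
    have hIB : Integrable (fun p => B.indicator (fun _ => (1 : ℝ)) p.2 * D p) (μ.prod volume) := by
      refine integrable_bdd_mul hDi ((measurable_const.indicator hB').comp measurable_snd)
        (C := 1) fun p => ?_
      by_cases h : p.2 ∈ B <;> simp [h]
    set e : ℝ → ℝ := fun t => ∫ y, B.indicator (fun _ => (1 : ℝ)) y * D (t, y) with he
    have hei : Integrable e μ := hIB.integral_prod_left
    have he0 : ∀ᵐ t ∂μ, e t = 0 := by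
      have hloc : LocallyIntegrableOn e (Ioo 0 T) :=
        (IntegrableOn.mono_set (show IntegrableOn e (Ioc 0 T) volume from hei)
          Ioo_subset_Ioc_self).locallyIntegrableOn
      have h0 := isOpen_Ioo.ae_eq_zero_of_integral_contDiff_smul_eq_zero (μ := volume) hloc
        fun ψ hψ hψc hψs => by
          have hoff : ∀ t ∉ Ioc (0 : ℝ) T, ψ t • e t = 0 := fun t ht => by
            simp [image_eq_zero_of_notMem_tsupport fun hh => ht (Ioo_subset_Ioc_self (hψs hh))]
          rw [← setIntegral_eq_integral_of_forall_compl_eq_zero hoff]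
          calc ∫ t in Ioc 0 T, ψ t • e t
              = ∫ t, ∫ y, ψ t * (B.indicator (fun _ => (1 : ℝ)) y * D (t, y)) ∂volume ∂μ := by
                simp only [smul_eq_mul, he, integral_const_mul, hμ]
            _ = ∫ y, ∫ t, ψ t * (B.indicator (fun _ => (1 : ℝ)) y * D (t, y)) ∂μ :=
                integral_integral_swap (integrable_mul_fst hψ.continuous hψc hIB)
            _ = ∫ _ : Phase, (0 : ℝ) := integral_congr_ae <| by
                filter_upwards [hcell ψ hψ hψc hψs] with y hy
                simp only [mul_left_comm (ψ _), integral_const_mul]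
                rw [hy, Pi.zero_apply, mul_zero]
            _ = 0 := integral_zero _ _
      rw [hμ, Measure.restrict_congr_set Ioo_ae_eq_Ioc.symm, ae_restrict_iff' measurableSet_Ioo]
      exact h0
    rw [setIntegral_prod _ hDi.integrableOn]
    have e2 : ∀ t, ∫ y in B, D (t, y) = e t := fun t => by
      rw [he, ← integral_indicator hB']
      exact integral_congr_ae (ae_of_all _ fun y => by by_cases h : y ∈ B <;> simp [h])
    simp only [e2]
    rw [integral_congr_ae (ae_restrict_of_ae he0), integral_zero]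
  have hall : ∀ S : Set (ℝ × Phase), MeasurableSet S → ∫ p in S, D p ∂μ.prod volume = 0 := by
    intro S hS
    induction S, hS using MeasurableSpace.induction_on_inter generateFrom_prod.symm isPiSystem_prod with
    | empty => simp
    | basic S hS =>
      obtain ⟨A, hA', B, hB', rfl⟩ := hS
      exact hrect A hA' B hB'
    | compl S hS ih =>
      have h := integral_add_compl hS hDi
      have huniv := hrect univ MeasurableSet.univ univ MeasurableSet.univ
      rw [univ_prod_univ, Measure.restrict_univ] at huniv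
      rw [ih, huniv, zero_add] at h
      exact h
    | iUnion f hd hf ih =>
      rw [integral_iUnion hf hd hDi.integrableOn]
      simp [ih]
  have hzero := hDi.ae_eq_zero_of_forall_setIntegral_eq_zero fun S hS _ => hall S hS
  filter_upwards [Measure.ae_ae_of_ae_prod hzero] with t ht
  filter_upwards [ht] with y hy
  simp only [hD, Pi.zero_apply] at hy
  linarith

end Vale.Agent.P140
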