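import Vale.Agent.P140.Collision
import Vale.Agent.P140.Torus
import Vale.Agent.P140.Transport

/-!
# P140: properties of strong solutions

The weighted gain and loss are integrable, the weighted mass is conserved, and equality with a
renormalized solution for almost every time is equality for every time.
-/

noncomputable section

namespace Vale.Agent.P140

open MeasureTheory Set Filter
open scoped Topology ENNReal

/-- The weight, as an extended number. -/
def wgt (z : Phase) : ℝ≥0∞ := ENNReal.ofReal (weight z.2)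

/-- The gain of a time-dependent density. -/
def gainAt (g : ℝ → Phase → ℝ) (t : ℝ) (z : Phase) : ℝ≥0∞ :=
  gain (slice (g t) z.1) (slice (g t) z.1) z.2

/-- The loss of a time-dependent density. -/
def lossAt (g : ℝ → Phase → ℝ) (t : ℝ) (z : Phase) : ℝ≥0∞ :=
  loss (slice (g t) z.1) (slice (g t) z.1) z.2

lemma measurable_wgt : Measurable wgt := (measurable_weight.comp measurable_snd).ennreal_ofReal

lemma wgt_ne_zero (z : Phase) : wgt z ≠ 0 := (ENNReal.ofReal_pos.2 (weight_pos z.2)).ne'

lemma one_le_wgt (z : Phase) : 1 ≤ wgt z :=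
  ENNReal.one_le_ofReal.2 (le_add_of_nonneg_right (sq_nonneg _))

section Meas

variable {g : ℝ → Phase → ℝ}

lemma measurable_slab (hg : Measurable fun p : ℝ × Phase => g p.1 p.2) :
    Measurable fun p : (ℝ × Pos) × Vel => slice (g p.1.1) p.1.2 p.2 :=
  hg.comp (measurable_fst.fst.prodMk (measurable_fst.snd.prodMk measurable_snd))

lemma measurable_gainAt (hg : Measurable fun p : ℝ × Phase => g p.1 p.2) :
    Measurable fun p : ℝ × Phase => gainAt g p.1 p.2 :=
  (measurable_gain (A := fun q : ℝ × Pos => slice (g q.1) q.2) (B := fun q : ℝ × Pos => slice (g q.1) q.2)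
    (measurable_slab hg) (measurable_slab hg)).comp
    (f := fun p : ℝ × Phase => ((p.1, p.2.1), p.2.2))
    ((measurable_fst.prodMk measurable_snd.fst).prodMk measurable_snd.snd)

lemma measurable_lossAt (hg : Measurable fun p : ℝ × Phase => g p.1 p.2) :
    Measurable fun p : ℝ × Phase => lossAt g p.1 p.2 := by
  have hf := (measurable_freq (B := fun q : ℝ × Pos => slice (g q.1) q.2) (measurable_slab hg)).comp
    (f := fun p : ℝ × Phase => ((p.1, p.2.1), p.2.2))
    ((measurable_fst.prodMk measurable_snd.fst).prodMk measurable_snd.snd)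
  exact hg.ennreal_ofReal.mul hf

/-- Collision invariance of the weight. -/
lemma lintegral_weight_gain_eq_loss {f : Vel → ℝ} (hf : Measurable f) :
    ∫⁻ v, ENNReal.ofReal (weight v) * gain f f v = ∫⁻ v, ENNReal.ofReal (weight v) * loss f f v := by
  have hw := measurable_weight.ennreal_ofReal
  have hfo := hf.ennreal_ofReal
  have hΦ : Measurable fun p : Vel × Vel × Sph =>
      ENNReal.ofReal (weight p.1) * (ENNReal.ofReal (f p.1) * ENNReal.ofReal (f p.2.1)) :=
    (hw.comp measurable_fst).mul ((hfo.comp measurable_fst).mul (hfo.comp measurable_snd.fst))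
  have h := lintegral_weight_gain_add hf hf
  have hs : (collInt fun v u _ => ENNReal.ofReal (weight u) * (ENNReal.ofReal (f v) * ENNReal.ofReal (f u))) =
      collInt fun v u _ => ENNReal.ofReal (weight v) * (ENNReal.ofReal (f v) * ENNReal.ofReal (f u)) := by
    refine Eq.trans ?_ (collInt_swap
      (Φ := fun v u _ => ENNReal.ofReal (weight v) * (ENNReal.ofReal (f v) * ENNReal.ofReal (f u))) hΦ)
    simp only [mul_comm (ENNReal.ofReal (f _)) (ENNReal.ofReal (f _))]
  rw [hs, ← two_mul, ← two_mul, ENNReal.mul_right_inj two_ne_zero ENNReal.ofNat_ne_top] at h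
  rw [h]
  simp only [loss, ← mul_assoc]
  rw [lintegral_mul_freq (Φ := fun v => ENNReal.ofReal (weight v) * ENNReal.ofReal (f v)) hf]

/-- The weighted loss at one position. -/
lemma lintegral_weight_loss_le {f : Vel → ℝ} (hf : Measurable f) (hf0 : ∀ v, 0 ≤ f v) :
    ∫⁻ v, ENNReal.ofReal (weight v) * loss f f v ≤
      surf univ * (4 * ∫⁻ v, ENNReal.ofReal ((1 + ‖v‖ ^ 3) * f v)) *
        (2 * ∫⁻ u, ENNReal.ofReal (weight u * f u)) := by
  rw [show (∫⁻ v, ENNReal.ofReal (weight v) * loss f f v) =
      ∫⁻ v, ENNReal.ofReal (weight v) * ENNReal.ofReal (f v) * freq f v from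
      lintegral_congr fun v => (mul_assoc _ _ _).symm,
    lintegral_mul_freq (Φ := fun v => ENNReal.ofReal (weight v) * ENNReal.ofReal (f v)) hf]
  refine (collInt_prod_le (p := fun v => ENNReal.ofReal (weight v) * ENNReal.ofReal (f v))
    (q := fun u => ENNReal.ofReal (f u)) (measurable_weight.ennreal_ofReal.mul hf.ennreal_ofReal)
    hf.ennreal_ofReal).trans ?_
  refine (mul_le_mul' le_rfl (mul_le_mul' ?_ ?_)).trans (le_of_eq (mul_assoc _ _ _).symm)
  · rw [← lintegral_const_mul' 4 _ ENNReal.ofNat_ne_top]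
    refine lintegral_mono fun v => ?_
    have hw := (weight_pos v).le
    rw [← ENNReal.ofReal_mul hw, ← ENNReal.ofReal_mul (by positivity),
      ← ENNReal.ofReal_ofNat 4, ← ENNReal.ofReal_mul (by norm_num)]
    refine ENNReal.ofReal_le_ofReal ?_
    rw [← mul_assoc, ← mul_assoc]
    exact mul_le_mul_of_nonneg_right (one_add_norm_mul_weight_le v) (hf0 v)
  · rw [← lintegral_const_mul' 2 _ ENNReal.ofNat_ne_top]
    refine lintegral_mono fun u => ?_
    rw [← ENNReal.ofReal_mul (by positivity),
      show (2 : ℝ≥0∞) * ENNReal.ofReal (weight u * f u) = ENNReal.ofReal (2 * (weight u * f u)) by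
        rw [ENNReal.ofReal_mul (zero_le_two (α := ℝ))]; simp]
    refine ENNReal.ofReal_le_ofReal ?_
    rw [← mul_assoc]
    exact mul_le_mul_of_nonneg_right (one_add_norm_le_weight u) (hf0 u)

end Meas

namespace StrongSolution

variable {T : ℝ} {g₀ : Phase → ℝ} {g : ℝ → Phase → ℝ}

lemma lintegral_gainAt_eq (hg : StrongSolution T g₀ g) (t : ℝ) :
    ∫⁻ z, wgt z * gainAt g t z = ∫⁻ z, wgt z * lossAt g t z := by
  have hm : Measurable (g t) := hg.measurable.comp measurable_prodMk_left
  rw [Measure.volume_eq_prod, lintegral_prod (fun z => wgt z * gainAt g t z) (measurable_wgt.mul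
      ((measurable_gainAt hg.measurable).comp measurable_prodMk_left)).aemeasurable,
    lintegral_prod (fun z => wgt z * lossAt g t z) (measurable_wgt.mul
      ((measurable_lossAt hg.measurable).comp measurable_prodMk_left)).aemeasurable]
  exact lintegral_congr fun x => lintegral_weight_gain_eq_loss (hm.comp measurable_prodMk_left)

theorem loss_lt_top (hg : StrongSolution T g₀ g) :
    ∫⁻ p in Icc (0 : ℝ) T ×ˢ (univ : Set Phase), ENNReal.ofReal (weight p.2.2) *
      loss (slice (g p.1) p.2.1) (slice (g p.1) p.2.1) p.2.2 < ⊤ := by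
  show ∫⁻ p in Icc (0 : ℝ) T ×ˢ (univ : Set Phase), wgt p.2 * lossAt g p.1 p.2 < ⊤
  obtain ⟨C, hC⟩ := hg.energy_bound
  obtain ⟨k, hk, hmom⟩ := hg.moment
  rw [volume_restrict_slab, lintegral_prod (fun p : ℝ × Phase => wgt p.2 * lossAt g p.1 p.2)
    ((measurable_wgt.comp measurable_snd).mul (measurable_lossAt hg.measurable)).aemeasurable]
  set c : ℝ≥0∞ := surf univ * 4 * (2 * ENNReal.ofReal C)
  have hc : c ≠ ⊤ := ENNReal.mul_ne_top (ENNReal.mul_ne_top (measure_ne_top _ _) ENNReal.ofNat_ne_top)
    (ENNReal.mul_ne_top ENNReal.ofNat_ne_top ENNReal.ofReal_ne_top)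
  have hle : ∀ᵐ t ∂(volume : Measure ℝ).restrict (Icc 0 T),
      ∫⁻ z, wgt z * lossAt g t z ≤ c * ENNReal.ofReal (k t) := by
    filter_upwards [ae_restrict_of_ae hmom, ae_restrict_mem measurableSet_Icc] with t ht htI
    have hm : Measurable (g t) := hg.measurable.comp measurable_prodMk_left
    have hmz : Measurable fun z : Phase => ENNReal.ofReal (weight z.2 * g t z) :=
      ((measurable_weight.comp measurable_snd).mul hm).ennreal_ofReal
    rw [Measure.volume_eq_prod, lintegral_prod (fun z => wgt z * lossAt g t z) (measurable_wgt.mul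
      ((measurable_lossAt hg.measurable).comp measurable_prodMk_left)).aemeasurable]
    calc ∫⁻ x, ∫⁻ v, wgt (x, v) * lossAt g t (x, v)
        ≤ ∫⁻ x, surf univ * (4 * ENNReal.ofReal (k t)) *
            (2 * ∫⁻ u, ENNReal.ofReal (weight u * g t (x, u))) := by
          refine lintegral_mono_ae ?_
          filter_upwards [ht htI] with x hx
          refine (lintegral_weight_loss_le (hm.comp measurable_prodMk_left) fun v => hg.nonneg t _).trans ?_
          exact mul_le_mul' (mul_le_mul' le_rfl (mul_le_mul' le_rfl hx)) le_rfl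
      _ = surf univ * (4 * ENNReal.ofReal (k t)) *
            (2 * ∫⁻ z, ENNReal.ofReal (weight z.2 * g t z)) := by
          rw [lintegral_const_mul' _ _ (ENNReal.mul_ne_top (measure_ne_top _ _)
              (ENNReal.mul_ne_top ENNReal.ofNat_ne_top ENNReal.ofReal_ne_top)),
            lintegral_const_mul' _ _ ENNReal.ofNat_ne_top, Measure.volume_eq_prod,
            lintegral_prod _ hmz.aemeasurable]
      _ ≤ surf univ * (4 * ENNReal.ofReal (k t)) * (2 * ENNReal.ofReal C) :=
          mul_le_mul' le_rfl (mul_le_mul' le_rfl (hC t htI))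
      _ = c * ENNReal.ofReal (k t) := by simp only [c]; ring
  refine (lintegral_mono_ae hle).trans_lt ?_
  rw [lintegral_const_mul' _ _ hc]
  refine ENNReal.mul_lt_top hc.lt_top ((lintegral_mono fun t => ?_).trans_lt hk.hasFiniteIntegral)
  rw [Real.enorm_eq_ofReal_abs]
  exact ENNReal.ofReal_le_ofReal (le_abs_self _)

theorem gain_lt_top (hg : StrongSolution T g₀ g) :
    ∫⁻ p in Icc (0 : ℝ) T ×ˢ (univ : Set Phase), ENNReal.ofReal (weight p.2.2) *
      gain (slice (g p.1) p.2.1) (slice (g p.1) p.2.1) p.2.2 < ⊤ := by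
  refine lt_of_eq_of_lt ?_ hg.loss_lt_top
  show ∫⁻ p in Icc (0 : ℝ) T ×ˢ (univ : Set Phase), wgt p.2 * gainAt g p.1 p.2 =
    ∫⁻ p in Icc (0 : ℝ) T ×ˢ (univ : Set Phase), wgt p.2 * lossAt g p.1 p.2
  rw [volume_restrict_slab, lintegral_prod (fun p : ℝ × Phase => wgt p.2 * gainAt g p.1 p.2)
    ((measurable_wgt.comp measurable_snd).mul (measurable_gainAt hg.measurable)).aemeasurable,
    lintegral_prod (fun p : ℝ × Phase => wgt p.2 * lossAt g p.1 p.2)
    ((measurable_wgt.comp measurable_snd).mul (measurable_lossAt hg.measurable)).aemeasurable]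
  exact lintegral_congr fun t => hg.lintegral_gainAt_eq t

/-- Integrals along the lines, exchanged. -/
lemma lintegral_along {A : ℝ → Phase → ℝ≥0∞} (hA : Measurable fun p : ℝ × Phase => A p.1 p.2)
    (μ : Measure ℝ) [SFinite μ] :
    ∫⁻ y, wgt y * ∫⁻ s, A s (shift s y) ∂μ = ∫⁻ s, ∫⁻ z, wgt z * A s z ∂volume ∂μ := by
  have hAs : Measurable fun q : Phase × ℝ => A q.2 (shift q.2 q.1) :=
    hA.comp (measurable_snd.prodMk
      (continuous_shift.measurable.comp (measurable_snd.prodMk measurable_fst)))
  calc ∫⁻ y, wgt y * ∫⁻ s, A s (shift s y) ∂μ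
      = ∫⁻ y, ∫⁻ s, wgt y * A s (shift s y) ∂μ ∂volume :=
        lintegral_congr fun y => (lintegral_const_mul _ (hAs.comp measurable_prodMk_left)).symm
    _ = ∫⁻ s, ∫⁻ y, wgt y * A s (shift s y) ∂volume ∂μ :=
        lintegral_lintegral_swap ((measurable_wgt.comp measurable_fst).mul hAs).aemeasurable
    _ = _ := lintegral_congr fun s => lintegral_comp_shift s (fun z => wgt z * A s z)

/-- Both collision terms are integrable along almost every line. -/
lemma along_lt_top (hg : StrongSolution T g₀ g) {t : ℝ} (ht : t ∈ Icc 0 T) :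
    (∫⁻ s in Ioc 0 t, ∫⁻ z, wgt z * lossAt g s z) ≠ ⊤ ∧
    ∀ᵐ y : Phase, ∫⁻ s in Ioc 0 t, gainAt g s (shift s y) ≠ ⊤ ∧
      ∫⁻ s in Ioc 0 t, lossAt g s (shift s y) ≠ ⊤ := by
  have hfin : (∫⁻ s in Ioc 0 t, ∫⁻ z, wgt z * lossAt g s z) ≠ ⊤ := by
    refine ne_top_of_le_ne_top hg.loss_lt_top.ne ?_
    show _ ≤ ∫⁻ p in Icc (0 : ℝ) T ×ˢ (univ : Set Phase), wgt p.2 * lossAt g p.1 p.2
    rw [volume_restrict_slab, lintegral_prod (fun p : ℝ × Phase => wgt p.2 * lossAt g p.1 p.2)
      ((measurable_wgt.comp measurable_snd).mul (measurable_lossAt hg.measurable)).aemeasurable]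
    exact lintegral_mono_set fun s hs => ⟨hs.1.le, hs.2.trans ht.2⟩
  refine ⟨hfin, ?_⟩
  have key : ∀ A : ℝ → Phase → ℝ≥0∞, (Measurable fun p : ℝ × Phase => A p.1 p.2) →
      (∫⁻ s in Ioc 0 t, ∫⁻ z, wgt z * A s z) ≠ ⊤ →
      ∀ᵐ y : Phase, ∫⁻ s in Ioc 0 t, A s (shift s y) ≠ ⊤ := fun A hA hfA => by
    rw [← lintegral_along hA] at hfA
    have hm : Measurable fun y : Phase => wgt y * ∫⁻ s in Ioc 0 t, A s (shift s y) :=
      measurable_wgt.mul (hA.comp (measurable_snd.prodMk
        (continuous_shift.measurable.comp (measurable_snd.prodMk measurable_fst)))).lintegral_prod_right'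
    filter_upwards [ae_lt_top hm hfA] with y hy htop
    rw [htop, ENNReal.mul_top (wgt_ne_zero y)] at hy
    exact lt_irrefl _ hy
  have hG : (∫⁻ s in Ioc 0 t, ∫⁻ z, wgt z * gainAt g s z) ≠ ⊤ := by
    simpa only [hg.lintegral_gainAt_eq] using hfin
  filter_upwards [key _ (measurable_gainAt hg.measurable) hG,
    key _ (measurable_lossAt hg.measurable) hfin] with y h1 h2 using ⟨h1, h2⟩

lemma integrable_collision_line (hg : StrongSolution T g₀ g) {t : ℝ} (y : Phase)
    (h1 : ∫⁻ s in Ioc 0 t, gainAt g s (shift s y) ≠ ⊤)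
    (h2 : ∫⁻ s in Ioc 0 t, lossAt g s (shift s y) ≠ ⊤) :
    IntegrableOn (fun s => collision (slice (g s) (shift s y).1) y.2) (Ioc 0 t) ∧
    ∫ s in Ioc 0 t, collision (slice (g s) (shift s y).1) y.2 =
      (∫⁻ s in Ioc 0 t, gainAt g s (shift s y)).toReal -
        (∫⁻ s in Ioc 0 t, lossAt g s (shift s y)).toReal := by
  have hs : Measurable fun s => (s, shift s y) :=
    measurable_id.prodMk (continuous_shift.measurable.comp measurable_prodMk_right)
  have m1 : Measurable fun s => gainAt g s (shift s y) := by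
    have h := (measurable_gainAt hg.measurable).comp hs
    simpa only [Function.comp_def] using h
  have m2 : Measurable fun s => lossAt g s (shift s y) := by
    have h := (measurable_lossAt hg.measurable).comp hs
    simpa only [Function.comp_def] using h
  have i1 := integrable_toReal_of_lintegral_ne_top m1.aemeasurable h1
  have i2 := integrable_toReal_of_lintegral_ne_top m2.aemeasurable h2
  have e : (fun s => collision (slice (g s) (shift s y).1) y.2) =
      fun s => (gainAt g s (shift s y)).toReal - (lossAt g s (shift s y)).toReal := by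
    funext s
    simp only [collision, gainAt, lossAt, shift]
  rw [e]
  refine ⟨i1.sub i2, ?_⟩
  rw [integral_sub i1 i2, integral_toReal m1.aemeasurable (ae_lt_top m1 h1),
    integral_toReal m2.aemeasurable (ae_lt_top m2 h2)]

theorem energy_eq (hg : StrongSolution T g₀ g) : ∀ t ∈ Icc 0 T,
    ∫⁻ z, ENNReal.ofReal (weight z.2 * g t z) = ∫⁻ z, ENNReal.ofReal (weight z.2 * g 0 z) := by
  intro t ht
  obtain ⟨hfin, hae⟩ := hg.along_lt_top ht
  have hgt : Measurable (g t) := hg.measurable.comp measurable_prodMk_left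
  have hg0 : Measurable (g 0) := hg.measurable.comp measurable_prodMk_left
  have hw : ∀ (f : Phase → ℝ) (z : Phase),
      ENNReal.ofReal (weight z.2 * f z) = wgt z * ENNReal.ofReal (f z) := fun f z => by
    rw [ENNReal.ofReal_mul (weight_pos _).le, wgt]
  simp only [hw]
  rw [← lintegral_comp_shift t (fun z => wgt z * ENNReal.ofReal (g t z))]
  set G := fun y => ∫⁻ s in Ioc 0 t, gainAt g s (shift s y)
  set L := fun y => ∫⁻ s in Ioc 0 t, lossAt g s (shift s y)
  have hkey : ∀ᵐ y : Phase, wgt y * ENNReal.ofReal (g t (shift t y)) + wgt y * L y =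
      wgt y * ENNReal.ofReal (g 0 y) + wgt y * G y := by
    filter_upwards [hae, hg.mild t ht] with y hy hmild
    rw [← mul_add, ← mul_add]
    congr 1
    rw [intervalIntegral.integral_of_le ht.1, (hg.integrable_collision_line y hy.1 hy.2).2] at hmild
    simp only [G, L]
    rw [← ENNReal.ofReal_toReal hy.1, ← ENNReal.ofReal_toReal hy.2,
      ← ENNReal.ofReal_add (hg.nonneg _ _) ENNReal.toReal_nonneg,
      ← ENNReal.ofReal_add (hg.nonneg _ _) ENNReal.toReal_nonneg, hmild]
    ring_nf
  have h := lintegral_congr_ae hkey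
  have hmA : Measurable fun y : Phase => wgt y * ENNReal.ofReal (g t (shift t y)) :=
    measurable_wgt.mul (hgt.comp (measurePreserving_shift t).measurable).ennreal_ofReal
  rw [lintegral_add_left hmA,
    lintegral_add_left (f := fun y => wgt y * ENNReal.ofReal (g 0 y)) (measurable_wgt.mul hg0.ennreal_ofReal)] at h
  simp only [G, L] at h
  rw [lintegral_along (measurable_gainAt hg.measurable), lintegral_along (measurable_lossAt hg.measurable)]
    at h
  simp only [hg.lintegral_gainAt_eq] at h
  exact (ENNReal.add_left_inj hfin).1 h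

lemma integrable_time (hg : StrongSolution T g₀ g) {t : ℝ} (ht : t ∈ Icc 0 T) :
    Integrable (g t) := by
  obtain ⟨C, hC⟩ := hg.energy_bound
  refine ⟨(hg.measurable.comp measurable_prodMk_left).aestronglyMeasurable, ?_⟩
  rw [hasFiniteIntegral_iff_ofReal (Eventually.of_forall fun z => hg.nonneg t z)]
  refine ((lintegral_mono fun z => ENNReal.ofReal_le_ofReal ?_).trans (hC t ht)).trans_lt
    ENNReal.ofReal_lt_top
  exact le_mul_of_one_le_left (hg.nonneg t z) (le_add_of_nonneg_right (sq_nonneg _))

lemma integrable_collision_flow (hg : StrongSolution T g₀ g) :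
    Integrable (fun p : ℝ × Phase => collision (slice (g p.1) (shift p.1 p.2).1) p.2.2)
      ((volume.restrict (Ioc 0 T)).prod volume) := by
  set ν := ((volume : Measure ℝ).restrict (Ioc 0 T)).prod (volume : Measure Phase)
  have h : ∀ A : ℝ → Phase → ℝ≥0∞, (Measurable fun p : ℝ × Phase => A p.1 p.2) →
      ∫⁻ p in Icc (0 : ℝ) T ×ˢ (univ : Set Phase), wgt p.2 * A p.1 p.2 ≠ ⊤ →
      Integrable (fun p : ℝ × Phase => (A p.1 p.2).toReal) ν := fun A hA hfA => by
    refine integrable_toReal_of_lintegral_ne_top hA.aemeasurable (ne_top_of_le_ne_top hfA ?_)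
    rw [volume_restrict_slab]
    refine (lintegral_mono' (Measure.prod_mono (Measure.restrict_mono Ioc_subset_Icc_self le_rfl) le_rfl)
      fun p => ?_).trans le_rfl
    exact le_mul_of_one_le_left' (one_le_wgt p.2)
  have hb : Integrable (fun p : ℝ × Phase => collision (slice (g p.1) p.2.1) p.2.2) ν :=
    (h (gainAt g) (measurable_gainAt hg.measurable) hg.gain_lt_top.ne).sub
      (h (lossAt g) (measurable_lossAt hg.measurable) hg.loss_lt_top.ne)
  exact integrable_flow (a := fun t z => collision (slice (g t) z.1) z.2) hb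

theorem eq_of_ae_time {F₀ : Phase → ℝ} {F : ℝ → Phase → ℝ} (hF : RenSolution F₀ F)
    (hg : StrongSolution T F₀ g)
    (h : ∀ᵐ t ∂(volume.restrict (Ioc 0 T)), F t =ᵐ[volume] g t) :
    ∀ t ∈ Icc 0 T, F t =ᵐ[volume] g t := by
  intro t₁ ht₁
  rcases eq_or_lt_of_le (ht₁.1.trans ht₁.2) with hT | hT
  · have : t₁ = 0 := le_antisymm (ht₁.2.trans_eq hT.symm) ht₁.1
    rw [this]
    exact hF.init.trans hg.init.symm
  set b : ℝ → Phase → ℝ := fun s y => collision (slice (g s) (shift s y).1) y.2
  have hb : Integrable (fun p : ℝ × Phase => b p.1 p.2) ((volume.restrict (Ioc 0 T)).prod volume) :=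
    hg.integrable_collision_flow
  have hline := hb.prod_left_ae
  have hFint : Integrable (F t₁) := by
    obtain ⟨C, hC⟩ := hF.bounded T
    refine (hC t₁ ht₁).1.mono (hF.measurable.comp measurable_prodMk_left).aestronglyMeasurable
      (Eventually.of_forall fun z => ?_)
    rw [Real.norm_of_nonneg (hF.nonneg _ _),
      Real.norm_of_nonneg (mul_nonneg (weight_pos _).le (hF.nonneg _ _))]
    exact le_mul_of_one_le_left (hF.nonneg _ _) (le_add_of_nonneg_right (sq_nonneg _))
  have key : ∀ χ : BoundedContinuousFunction Phase ℝ,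
      ∫ z, χ z * F t₁ z = ∫ z, χ z * g t₁ z := fun χ => by
    have hχm : Measurable fun z => χ z := χ.continuous.measurable
    have hχb : ∀ z, |χ z| ≤ ‖χ‖ := fun z => by simpa using χ.norm_coe_le_norm z
    set Φ : ℝ → Phase → ℝ := fun t y => χ (shift t y) * (g 0 y + ∫ s in (0 : ℝ)..t, b s y)
    have hgI : ∀ t ∈ Icc 0 T, ∫ z, χ z * g t z = ∫ y, Φ t y := fun t ht => by
      rw [← integral_comp_shift t]
      refine integral_congr_ae ?_
      filter_upwards [hg.mild t ht] with y hy
      simp only [Φ, b, hy]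
    have hcont : ContinuousOn (fun t => ∫ z, χ z * g t z) (Icc 0 T) := by
      refine ContinuousOn.congr ?_ hgI
      refine continuousOn_of_dominated
        (bound := fun y => ‖χ‖ * (|g 0 y| + ∫ s in Ioc 0 T, ‖b s y‖)) (fun t ht => ?_)
        (fun t ht => ?_) ?_ ?_
      · refine AEStronglyMeasurable.congr
          (f := fun y => χ (shift t y) * g t (shift t y)) ?_ ?_
        · exact ((hχm.comp (measurePreserving_shift t).measurable).mul ((hg.measurable.comp
            measurable_prodMk_left).comp (measurePreserving_shift t).measurable)).aestronglyMeasurable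
        · filter_upwards [hg.mild t ht] with y hy
          simp only [Φ, b, hy]
      · filter_upwards [hline] with y hy
        rw [Real.norm_eq_abs, abs_mul]
        refine mul_le_mul (hχb _) ((abs_add_le _ _).trans (add_le_add le_rfl ?_)) (abs_nonneg _)
          (norm_nonneg _)
        rw [intervalIntegral.integral_of_le ht.1, ← Real.norm_eq_abs]
        exact (norm_integral_le_integral_norm _).trans (setIntegral_mono_set hy.norm
          (Eventually.of_forall fun s => norm_nonneg _)
          (LE.le.eventuallyLE (Ioc_subset_Ioc_right ht.2)))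
      · exact ((hg.integrable_time ⟨le_rfl, hT.le⟩).abs.add hb.norm.integral_prod_right).const_mul _
      · filter_upwards [hline] with y hy
        refine ((χ.continuous.comp (continuous_shift.comp
          (continuous_id.prodMk continuous_const))).continuousOn).mul (continuousOn_const.add ?_)
        rw [← uIcc_of_le hT.le]
        refine intervalIntegral.continuousOn_primitive_interval ?_
        rw [uIcc_of_le hT.le]
        exact (integrableOn_Icc_iff_integrableOn_Ioc).2 hy
    have hF' : ContinuousOn (fun t => ∫ z, χ z * F t z) (Icc 0 T) :=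
      (hF.wcont _ hχm ⟨‖χ‖, hχb⟩).mono Icc_subset_Ici_self
    have hae : (fun t => ∫ z, χ z * F t z) =ᵐ[volume.restrict (Icc 0 T)]
        fun t => ∫ z, χ z * g t z := by
      rw [← Measure.restrict_congr_set Ioc_ae_eq_Icc]
      filter_upwards [h] with t ht
      exact integral_congr_ae (ht.mono fun z hz => by simp only [hz])
    exact Measure.eqOn_Icc_of_ae_eq volume hT.ne hae hF' hcont ht₁
  have hgint := hg.integrable_time ht₁
  have hFm : Measurable (F t₁) := hF.measurable.comp measurable_prodMk_left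
  have hgm : Measurable (g t₁) := hg.measurable.comp measurable_prodMk_left
  have hFfin : ∫⁻ z, ENNReal.ofReal (F t₁ z) ≠ ⊤ := hFint.lintegral_lt_top.ne
  have hgfin : ∫⁻ z, ENNReal.ofReal (g t₁ z) ≠ ⊤ := hgint.lintegral_lt_top.ne
  have := isFiniteMeasure_withDensity hFfin
  have := isFiniteMeasure_withDensity hgfin
  have hmeas : volume.withDensity (fun z => ENNReal.ofReal (F t₁ z)) =
      volume.withDensity fun z => ENNReal.ofReal (g t₁ z) := by
    refine ext_of_forall_integral_eq_of_IsFiniteMeasure fun χ => ?_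
    rw [integral_withDensity_eq_integral_toReal_smul hFm.ennreal_ofReal
        (Eventually.of_forall fun _ => ENNReal.ofReal_lt_top),
      integral_withDensity_eq_integral_toReal_smul hgm.ennreal_ofReal
        (Eventually.of_forall fun _ => ENNReal.ofReal_lt_top)]
    simpa [ENNReal.toReal_ofReal (hF.nonneg _ _), ENNReal.toReal_ofReal (hg.nonneg _ _), mul_comm]
      using key χ
  filter_upwards [(withDensity_eq_iff hFm.ennreal_ofReal.aemeasurable hgm.ennreal_ofReal.aemeasurable
    hFfin).1 hmeas] with z hz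
  exact (ENNReal.ofReal_eq_ofReal_iff (hF.nonneg _ _) (hg.nonneg _ _)).1 hz

end StrongSolution

end Vale.Agent.P140
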