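import Vale.Agent.P140.Kinetic
import Vale.Agent.P140.Strong
import Vale.Agent.P140.Transport

/-!
# P140: the rates on time and phase space

Measurability, finiteness and integrability of the collision rates of a renormalized and of a strong
solution, and the renormalized equation along the lines.
-/

noncomputable section

namespace Vale.Agent.P140

open MeasureTheory Set Filter
open scoped Topology ENNReal

/-- `1 + |v|²` with values in `ℝ≥0∞`. -/
def ew (v : Vel) : ℝ≥0∞ := ENNReal.ofReal (weight v)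

/-- Time and phase space, up to the time `T`. -/
def slab (T : ℝ) : Measure (ℝ × Phase) := ((volume : Measure ℝ).restrict (Ioc 0 T)).prod volume

instance (T : ℝ) : SFinite (slab T) := by unfold slab; infer_instance

lemma slab_eq (T : ℝ) :
    slab T = (volume : Measure (ℝ × Phase)).restrict (Ioc 0 T ×ˢ univ) :=
  (volume_restrict_slab _).symm

lemma lintegral_slab_le {T : ℝ} (Φ : ℝ × Phase → ℝ≥0∞) :
    ∫⁻ p, Φ p ∂slab T ≤ ∫⁻ p in Icc (0 : ℝ) T ×ˢ (univ : Set Phase), Φ p := by
  rw [slab_eq]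
  exact lintegral_mono_set (prod_mono Ioc_subset_Icc_self subset_rfl)

/-- The profile of `F` at a point of the slab. -/
def prof (F : ℝ → Phase → ℝ) (p : ℝ × Phase) : Vel → ℝ := slice (F p.1) p.2.1

variable {T δ : ℝ} {F₀ g₀ : Phase → ℝ} {F g : ℝ → Phase → ℝ}

lemma measurable_apply {A : ℝ → Phase → ℝ} (hA : Measurable fun p : ℝ × Phase => A p.1 p.2) (t : ℝ) :
    Measurable (A t) :=
  hA.comp measurable_prodMk_left

lemma measurable_slice {A : ℝ → Phase → ℝ} (hA : Measurable fun p : ℝ × Phase => A p.1 p.2)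
    (t : ℝ) (x : Pos) : Measurable (slice (A t) x) :=
  (measurable_apply hA t).comp measurable_prodMk_left

lemma measurable_uncurried {A : ℝ → Phase → ℝ} (hA : Measurable fun p : ℝ × Phase => A p.1 p.2) :
    Measurable fun q : (ℝ × Pos) × Vel => slice (A q.1.1) q.1.2 q.2 :=
  hA.comp (f := fun q : (ℝ × Pos) × Vel => (q.1.1, (q.1.2, q.2))) (by fun_prop)

lemma measurable_gainPair {A B : ℝ → Phase → ℝ} (hA : Measurable fun p : ℝ × Phase => A p.1 p.2)
    (hB : Measurable fun p : ℝ × Phase => B p.1 p.2) :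
    Measurable fun p : ℝ × Phase => gain (prof A p) (prof B p) p.2.2 :=
  (measurable_gain (α := ℝ × Pos) (A := fun a => slice (A a.1) a.2) (B := fun a => slice (B a.1) a.2)
    (measurable_uncurried hA) (measurable_uncurried hB)).comp
    (f := fun p : ℝ × Phase => ((p.1, p.2.1), p.2.2)) (by fun_prop)

lemma measurable_lossPair {A B : ℝ → Phase → ℝ} (hA : Measurable fun p : ℝ × Phase => A p.1 p.2)
    (hB : Measurable fun p : ℝ × Phase => B p.1 p.2) :
    Measurable fun p : ℝ × Phase => loss (prof A p) (prof B p) p.2.2 := by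
  have h := (measurable_freq (α := ℝ × Pos) (B := fun a => slice (B a.1) a.2) (measurable_uncurried hB)).comp
    (f := fun p : ℝ × Phase => ((p.1, p.2.1), p.2.2)) (by fun_prop)
  exact hA.ennreal_ofReal.mul h

lemma measurable_collisionAt {A : ℝ → Phase → ℝ} (hA : Measurable fun p : ℝ × Phase => A p.1 p.2) :
    Measurable fun p : ℝ × Phase => collision (prof A p) p.2.2 :=
  (measurable_gainPair hA hA).ennreal_toReal.sub (measurable_lossPair hA hA).ennreal_toReal

lemma measurable_ew : Measurable fun p : ℝ × Phase => ew p.2.2 :=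
  (measurable_weight.comp (measurable_snd.comp measurable_snd)).ennreal_ofReal

lemma one_le_ew (v : Vel) : 1 ≤ ew v :=
  ENNReal.one_le_ofReal.2 (le_add_of_nonneg_right (by positivity))

/-- A measurable bound of the third moment. -/
lemma StrongSolution.exists_moment (hg : StrongSolution T g₀ g) :
    ∃ k : ℝ → ℝ≥0∞, Measurable k ∧ ∫⁻ t in Ioc 0 T, k t < ⊤ ∧
      ∀ᵐ t ∂volume.restrict (Ioc 0 T), ∀ᵐ x : Pos, moment3 (slice (g t) x) ≤ k t := by
  obtain ⟨k, hk, hk'⟩ := hg.moment
  have hk₂ : IntegrableOn k (Ioc 0 T) := hk.mono_set Ioc_subset_Icc_self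
  refine ⟨fun t => ENNReal.ofReal (hk₂.aemeasurable.mk k t), hk₂.aemeasurable.measurable_mk.ennreal_ofReal,
    ?_, ?_⟩
  · exact (hk₂.congr hk₂.aemeasurable.ae_eq_mk).lintegral_lt_top
  · filter_upwards [ae_restrict_of_ae hk', ae_restrict_mem measurableSet_Ioc,
      hk₂.aemeasurable.ae_eq_mk] with t ht htm hteq
    rw [← hteq]
    exact ht (Ioc_subset_Icc_self htm)

/-- Integrating a bound in the velocity which is linear in the third moment. -/
lemma lintegral_slab_le_moment {t : ℝ} {Φ : ℝ × Phase → ℝ≥0∞} (hΦ : Measurable Φ)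
    {R : ℝ → Phase → ℝ≥0∞} (hR : Measurable fun p : ℝ × Phase => R p.1 p.2) {c : ℝ≥0∞}
    {k : ℝ → ℝ≥0∞} (h : ∀ᵐ s ∂volume.restrict (Ioc 0 t), ∀ᵐ x : Pos,
      ∫⁻ v, Φ (s, (x, v)) ≤ c * k s * ∫⁻ v, R s (x, v)) (hk : Measurable k) :
    ∫⁻ p, Φ p ∂slab t ≤ c * ∫⁻ s in Ioc 0 t, k s * ∫⁻ z, R s z := by
  rw [slab, lintegral_prod _ hΦ.aemeasurable,
    ← lintegral_const_mul _ (hk.fun_mul hR.lintegral_prod_right')]
  refine lintegral_mono_ae ?_
  filter_upwards [h] with s hs
  have hm : Measurable (R s) := hR.comp measurable_prodMk_left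
  have hm' : Measurable fun z : Phase => Φ (s, z) := hΦ.comp measurable_prodMk_left
  rw [Measure.volume_eq_prod, lintegral_prod _ hm'.aemeasurable, lintegral_prod _ hm.aemeasurable,
    ← mul_assoc, ← lintegral_const_mul _ hm.lintegral_prod_right']
  exact lintegral_mono_ae hs

/-- The weighted mass at the time `t`. -/
def wtot (F : ℝ → Phase → ℝ) (t : ℝ) : ℝ≥0∞ := ∫⁻ z, ENNReal.ofReal (weight z.2 * F t z)

lemma RenSolution.exists_wtot_le (hF : RenSolution F₀ F) (T : ℝ) :
    ∃ C : ℝ, ∀ t ∈ Icc 0 T, wtot F t ≤ ENNReal.ofReal C := by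
  obtain ⟨C, hC⟩ := hF.bounded T
  refine ⟨C, fun t ht => ?_⟩
  rw [wtot, ← ofReal_integral_eq_lintegral_ofReal (hC t ht).1
    (ae_of_all _ fun z => mul_nonneg (weight_pos z.2).le (hF.nonneg t z))]
  exact ENNReal.ofReal_le_ofReal (hC t ht).2

lemma RenSolution.wtot_le (hF : RenSolution F₀ F) {t : ℝ} (ht : 0 ≤ t) : wtot F t ≤ wtot F 0 := by
  obtain ⟨C, hC⟩ := hF.bounded t
  have e : ∀ s ∈ Icc 0 t, Integrable (F s) ∧ Integrable (fun z : Phase => ‖z.2‖ ^ 2 * F s z) := by
    intro s hs
    have hm := measurable_apply hF.measurable s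
    refine ⟨(hC s hs).1.mono' hm.aestronglyMeasurable (ae_of_all _ fun z => ?_),
      (hC s hs).1.mono' ((measurable_snd.norm.pow_const 2).mul hm).aestronglyMeasurable
        (ae_of_all _ fun z => ?_)⟩
    · rw [Real.norm_of_nonneg (hF.nonneg s z)]
      exact le_mul_of_one_le_left (hF.nonneg s z) (le_add_of_nonneg_right (by positivity))
    · rw [Real.norm_of_nonneg (mul_nonneg (by positivity) (hF.nonneg s z))]
      exact mul_le_mul_of_nonneg_right (le_add_of_nonneg_left zero_le_one) (hF.nonneg s z)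
  have split : ∀ s ∈ Icc 0 t, wtot F s = ENNReal.ofReal ((∫ z, F s z) + ∫ z : Phase, ‖z.2‖ ^ 2 * F s z) := by
    intro s hs
    rw [wtot, ← ofReal_integral_eq_lintegral_ofReal (hC s hs).1
      (ae_of_all _ fun z => mul_nonneg (weight_pos z.2).le (hF.nonneg s z)),
      ← integral_add (e s hs).1 (e s hs).2]
    congr 1
    exact integral_congr_ae (ae_of_all _ fun z => by simp only [weight]; ring)
  have e0 : ∫ z : Phase, ‖z.2‖ ^ 2 * F₀ z = ∫ z : Phase, ‖z.2‖ ^ 2 * F 0 z := by
    refine integral_congr_ae ?_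
    filter_upwards [hF.init] with z hz
    rw [hz]
  rw [split t ⟨ht, le_rfl⟩, split 0 ⟨le_rfl, ht⟩, hF.mass t ht, hF.mass 0 le_rfl, ← e0]
  exact ENNReal.ofReal_le_ofReal (add_le_add le_rfl (hF.energy t ht))

lemma StrongSolution.integrable (hg : StrongSolution T g₀ g) :
    Integrable (fun p : ℝ × Phase => g p.1 p.2) (slab T) := by
  obtain ⟨C, hC⟩ := hg.energy_bound
  refine ⟨hg.measurable.aestronglyMeasurable, lt_of_le_of_lt (b := ∫⁻ _ : ℝ in Ioc 0 T, ENNReal.ofReal C) ?_
    (by rw [setLIntegral_const]; exact ENNReal.mul_lt_top ENNReal.ofReal_lt_top measure_Ioc_lt_top)⟩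
  rw [slab, lintegral_prod _ hg.measurable.enorm.aemeasurable]
  refine setLIntegral_mono measurable_const fun t ht => le_trans ?_ (hC t (Ioc_subset_Icc_self ht))
  refine lintegral_mono fun z => ?_
  rw [Real.enorm_eq_ofReal (hg.nonneg t z)]
  exact ENNReal.ofReal_le_ofReal (le_mul_of_one_le_left (hg.nonneg t z) (le_add_of_nonneg_right (by positivity)))

lemma RenSolution.integrable (hF : RenSolution F₀ F) (T : ℝ) :
    Integrable (fun p : ℝ × Phase => F p.1 p.2) (slab T) := by
  obtain ⟨C, hC⟩ := hF.exists_wtot_le T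
  refine ⟨hF.measurable.aestronglyMeasurable, lt_of_le_of_lt (b := ∫⁻ _ : ℝ in Ioc 0 T, ENNReal.ofReal C) ?_
    (by rw [setLIntegral_const]; exact ENNReal.mul_lt_top ENNReal.ofReal_lt_top measure_Ioc_lt_top)⟩
  rw [slab, lintegral_prod _ hF.measurable.enorm.aemeasurable]
  refine setLIntegral_mono measurable_const fun t ht => le_trans ?_ (hC t (Ioc_subset_Icc_self ht))
  refine lintegral_mono fun z => ?_
  rw [Real.enorm_eq_ofReal (hF.nonneg t z)]
  exact ENNReal.ofReal_le_ofReal (le_mul_of_one_le_left (hF.nonneg t z) (le_add_of_nonneg_right (by positivity)))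

/-- The weighted dominating rate is integrable. -/
lemma lintegral_domRate_lt_top (hF : RenSolution F₀ F) (hg : StrongSolution T g₀ g) :
    ∫⁻ p, ew p.2.2 * domRate (prof F p) (prof g p) p.2.2 ∂slab T < ⊤ := by
  simp only [domRate, mul_add]
  have hm : Measurable fun p : ℝ × Phase => ew p.2.2 * gain (prof g p) (prof g p) p.2.2 :=
    measurable_ew.mul (measurable_gainPair hg.measurable hg.measurable)
  rw [lintegral_add_left hm]
  refine ENNReal.add_lt_top.2 ⟨(lintegral_slab_le _).trans_lt hg.gain_lt_top, ?_⟩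
  obtain ⟨k, hk, hkfin, hk'⟩ := hg.exists_moment
  obtain ⟨C, hC⟩ := hF.exists_wtot_le T
  refine lt_of_le_of_lt (lintegral_slab_le_moment (c := 8 * surf univ) (k := k)
    (R := fun s z => ENNReal.ofReal (weight z.2 * F s z))
    (measurable_ew.mul (measurable_lossPair hg.measurable hF.measurable))
    (((measurable_weight.comp measurable_snd.snd).mul hF.measurable).ennreal_ofReal) ?_ hk) ?_
  · filter_upwards [hk'] with s hs
    filter_upwards [hs] with x hx
    refine (weight_loss_le (measurable_slice hg.measurable s x) (measurable_slice hF.measurable s x)).trans ?_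
    calc 8 * surf univ * moment3 (slice (g s) x) * wmass (slice (F s) x)
        ≤ 8 * surf univ * k s * wmass (slice (F s) x) := by gcongr
      _ = _ := rfl
  · refine ENNReal.mul_lt_top (ENNReal.mul_lt_top (by norm_num) (measure_lt_top _ _)) ?_
    refine lt_of_le_of_lt (setLIntegral_mono (hk.mul_const (ENNReal.ofReal C)) fun s hs =>
      mul_le_mul' le_rfl (hC s (Ioc_subset_Icc_self hs))) ?_
    rw [lintegral_mul_const _ hk]
    exact ENNReal.mul_lt_top hkfin ENNReal.ofReal_lt_top

/-- The five rates are finite almost everywhere. -/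
lemma finite_ae (hF : RenSolution F₀ F) (hg : StrongSolution T g₀ g) :
    ∀ᵐ p ∂slab T, Finite (prof F p) (prof g p) p.2.2 := by
  have hG : Measurable fun p : ℝ × Phase => ENNReal.ofReal (1 + F p.1 p.2 / stdMax p.2.2) :=
    (measurable_const.add (hF.measurable.div
      (continuous_stdMax.measurable.comp measurable_snd.snd))).ennreal_ofReal
  have h1 := ae_lt_top ((measurable_gainPair hF.measurable hF.measurable).div hG)
    ((lintegral_slab_le _).trans_lt (hF.gain_int T)).ne
  have h2 := ae_lt_top ((measurable_lossPair hF.measurable hF.measurable).div hG)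
    ((lintegral_slab_le _).trans_lt (hF.loss_int T)).ne
  have h3 := ae_lt_top (measurable_ew.mul (measurable_gainPair hg.measurable hg.measurable))
    ((lintegral_slab_le _).trans_lt hg.gain_lt_top).ne
  have h4 := ae_lt_top (measurable_ew.mul (measurable_lossPair hg.measurable hg.measurable))
    ((lintegral_slab_le _).trans_lt hg.loss_lt_top).ne
  have h5 := ae_lt_top (measurable_ew.mul ((measurable_gainPair hg.measurable hg.measurable).add
    (measurable_lossPair hg.measurable hF.measurable))) (lintegral_domRate_lt_top hF hg).ne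
  filter_upwards [h1, h2, h3, h4, h5] with p a1 a2 a3 a4 a5
  have aux : ∀ {x : ℝ≥0∞}, x / ENNReal.ofReal (1 + F p.1 p.2 / stdMax p.2.2) < ⊤ → x ≠ ⊤ := by
    intro x hx hxt
    rw [hxt, ENNReal.top_div_of_ne_top ENNReal.ofReal_ne_top] at hx
    exact lt_irrefl _ hx
  have aux' : ∀ {x : ℝ≥0∞}, ew p.2.2 * x < ⊤ → x ≠ ⊤ := fun {x} hx hxt =>
    (ne_top_of_le_ne_top hx.ne (le_mul_of_one_le_left zero_le (one_le_ew _))) hxt
  exact ⟨aux a1, aux a2, aux' a3, aux' a4, (ENNReal.add_ne_top.1 (aux' a5)).2⟩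

lemma integrable_collisionAt (hg : StrongSolution T g₀ g) :
    Integrable (fun p : ℝ × Phase => collision (prof g p) p.2.2) (slab T) := by
  refine Integrable.sub
    (integrable_toReal_of_lintegral_ne_top (measurable_gainPair hg.measurable hg.measurable).aemeasurable ?_)
    (integrable_toReal_of_lintegral_ne_top (measurable_lossPair hg.measurable hg.measurable).aemeasurable ?_)
  · refine ne_top_of_le_ne_top ((lintegral_slab_le _).trans_lt hg.gain_lt_top).ne ?_
    exact lintegral_mono fun p => le_mul_of_one_le_left zero_le (one_le_ew _)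
  · refine ne_top_of_le_ne_top ((lintegral_slab_le _).trans_lt hg.loss_lt_top).ne ?_
    exact lintegral_mono fun p => le_mul_of_one_le_left zero_le (one_le_ew _)

lemma integrable_dampedAt (hF : RenSolution F₀ F) (hδ : 0 < δ) (T : ℝ) :
    Integrable (fun p : ℝ × Phase => dampδ δ (F p.1 p.2) p.2.2 * collision (prof F p) p.2.2) (slab T) := by
  have hG : Measurable fun p : ℝ × Phase => ENNReal.ofReal (1 + F p.1 p.2 / stdMax p.2.2) :=
    (measurable_const.add (hF.measurable.div
      (continuous_stdMax.measurable.comp measurable_snd.snd))).ennreal_ofReal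
  have hd : Measurable fun p : ℝ × Phase => dampδ δ (F p.1 p.2) p.2.2 :=
    (measurable_const.add ((hF.measurable.div
      (continuous_stdMax.measurable.comp measurable_snd.snd)).const_mul δ)).inv
  have hb : ∀ {Q : ℝ × Phase → ℝ≥0∞}, Measurable Q →
      ∫⁻ p, Q p / ENNReal.ofReal (1 + F p.1 p.2 / stdMax p.2.2) ∂slab T ≠ ⊤ →
      Integrable (fun p => dampδ δ (F p.1 p.2) p.2.2 * (Q p).toReal) (slab T) := by
    intro Q hQ hfin
    refine (((integrable_toReal_of_lintegral_ne_top (hQ.div hG).aemeasurable hfin).const_mul (1 + 1 / δ))).mono'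
      (hd.mul hQ.ennreal_toReal).aestronglyMeasurable (ae_of_all _ fun p => ?_)
    have hr : 0 ≤ F p.1 p.2 / stdMax p.2.2 := div_nonneg (hF.nonneg _ _) (stdMax_pos _).le
    rw [Pi.div_apply, ENNReal.toReal_div, ENNReal.toReal_ofReal (by linarith),
      Real.norm_of_nonneg (mul_nonneg (dampδ_pos hδ (hF.nonneg _ _)).le ENNReal.toReal_nonneg),
      mul_div_assoc', mul_comm _ (Q p).toReal, mul_comm _ (Q p).toReal, mul_div_assoc]
    refine mul_le_mul_of_nonneg_left ?_ ENNReal.toReal_nonneg
    rw [dampδ, le_div_iff₀ (by linarith), inv_mul_le_iff₀ (by positivity)]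
    have h1 : δ * (1 / δ) = 1 := by field_simp
    nlinarith [mul_nonneg hδ.le hr, div_nonneg zero_le_one hδ.le]
  refine ((hb (measurable_gainPair hF.measurable hF.measurable)
      ((lintegral_slab_le _).trans_lt (hF.gain_int T)).ne).sub
    (hb (measurable_lossPair hF.measurable hF.measurable)
      ((lintegral_slab_le _).trans_lt (hF.loss_int T)).ne)).congr (ae_of_all _ fun p => ?_)
  simp only [Pi.sub_apply, collision, mul_sub, prof]

lemma measurable_renδ {A : ℝ → Phase → ℝ} (hA : Measurable fun p : ℝ × Phase => A p.1 p.2) (δ : ℝ) :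
    Measurable fun p : ℝ × Phase => renδ δ (A p.1 p.2) p.2.2 := by
  have hM : Measurable fun p : ℝ × Phase => stdMax p.2.2 :=
    continuous_stdMax.measurable.comp measurable_snd.snd
  exact hM.mul ((Real.measurable_log.comp (measurable_const.add ((hA.div hM).const_mul δ))).div_const δ)

lemma integrable_renδ (hF : RenSolution F₀ F) (hδ : 0 < δ) (T : ℝ) :
    Integrable (fun p : ℝ × Phase => renδ δ (F p.1 p.2) p.2.2) (slab T) :=
  (hF.integrable T).mono' (measurable_renδ hF.measurable δ).aestronglyMeasurable (ae_of_all _ fun _ =>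
    (Real.norm_of_nonneg (renδ_nonneg hδ (hF.nonneg _ _))).trans_le (renδ_le hδ (hF.nonneg _ _)))

lemma isRenorm_betaδ (hδ : 0 < δ) : IsRenorm (betaδ δ) := by
  have hp : ∀ r, 0 ≤ r → 0 < 1 + δ * r := fun r hr => by positivity
  refine ⟨?_, by simp [betaδ], 1 + 1 / δ, fun r hr => ?_⟩
  · exact ((contDiffOn_const.add (contDiffOn_const.mul contDiffOn_id)).log
      fun r hr => (hp r hr).ne').div_const δ
  · have h : HasDerivAt (betaδ δ) ((δ * 1) / (1 + δ * r) / δ) r :=
      ((((hasDerivAt_id r).const_mul δ).const_add 1).log (hp r hr).ne').div_const δ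
    rw [h.hasDerivWithinAt.derivWithin (uniqueDiffOn_Ici 0 r hr),
      show δ * 1 / (1 + δ * r) / δ = (1 + δ * r)⁻¹ by field_simp,
      abs_of_pos (inv_pos.2 (hp r hr)), le_div_iff₀ (by linarith), inv_mul_le_iff₀ (hp r hr)]
    have h1 : δ * (1 / δ) = 1 := by field_simp
    nlinarith [mul_nonneg hδ.le hr, div_nonneg zero_le_one hδ.le]

lemma derivWithin_betaδ (hδ : 0 < δ) {r : ℝ} (hr : 0 ≤ r) :
    derivWithin (betaδ δ) (Ici 0) r = (1 + δ * r)⁻¹ := by
  have hp : 0 < 1 + δ * r := by positivity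
  have h : HasDerivAt (betaδ δ) ((δ * 1) / (1 + δ * r) / δ) r :=
    ((((hasDerivAt_id r).const_mul δ).const_add 1).log hp.ne').div_const δ
  rw [h.hasDerivWithinAt.derivWithin (uniqueDiffOn_Ici 0 r hr)]
  field_simp

/-- The renormalized equation along almost every line. -/
lemma RenSolution.mild (hF : RenSolution F₀ F) (hT : 0 < T) (hδ : 0 < δ) :
    ∀ᵐ t ∂volume.restrict (Ioc 0 T), ∀ᵐ y : Phase,
      renδ δ (F t (shift t y)) y.2 = renδ δ (F 0 y) y.2 +
        ∫ s in (0 : ℝ)..t, dampδ δ (F s (shift s y)) y.2 * collision (prof F (s, shift s y)) y.2 := by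
  have hw : WeakLines (fun t z => renδ δ (F t z) z.2)
      (fun t z => dampδ δ (F t z) z.2 * collision (prof F (t, z)) z.2)
      (fun z => renδ δ (F 0 z) z.2) := by
    intro φ hφ
    refine Eq.trans ?_ (hF.renorm (betaδ δ) (isRenorm_betaδ hδ) φ hφ)
    congr 1
    · refine integral_congr_ae (ae_of_all _ fun p => ?_)
      simp only [renδ, dampδ, prof,
        derivWithin_betaδ hδ (div_nonneg (hF.nonneg p.1 p.2) (stdMax_pos p.2.2).le)]
    · refine integral_congr_ae ?_
      filter_upwards [hF.init] with z hz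
      rw [hz]; rfl
  have ha₀ : Integrable fun z : Phase => renδ δ (F 0 z) z.2 := by
    obtain ⟨C, hC⟩ := hF.bounded 0
    refine (hC 0 ⟨le_rfl, le_rfl⟩).1.mono'
      ((measurable_renδ hF.measurable δ).comp measurable_prodMk_left).aestronglyMeasurable
      (ae_of_all _ fun z => ?_)
    rw [Real.norm_of_nonneg (renδ_nonneg hδ (hF.nonneg 0 z))]
    exact (renδ_le hδ (hF.nonneg 0 z)).trans
      (le_mul_of_one_le_left (hF.nonneg 0 z) (le_add_of_nonneg_right (by positivity)))
  exact mild_of_weak hT (integrable_renδ hF hδ T) (integrable_dampedAt hF hδ T) ha₀ hw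

end Vale.Agent.P140
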