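import Vale.Agent.P140.Compare
import Vale.Agent.P140.Homogeneous

/-!
# P140: comparison with a homogeneous strong solution of a smaller datum

The unweighted gap grows like `ε + t · sup (weighted gap + η)`, and this compensates the factor `1/t`
in the third moment which drives the weighted gap: here `ε` and `η` are the mass and the weighted
mass of the difference of the data.
-/

noncomputable section

namespace Vale.Agent.P140

open MeasureTheory Set Filter
open scoped Topology ENNReal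

/-- `1 + |v|` as an extended number. -/
def nw (v : Vel) : ℝ≥0∞ := ENNReal.ofReal (1 + ‖v‖)

/-- The weight `1`. -/
def uw : Vel → ℝ≥0∞ := fun _ => 1

/-- The mass for a weight `φ`. -/
def totW (φ : Vel → ℝ≥0∞) (A : ℝ → Phase → ℝ) (t : ℝ) : ℝ≥0∞ :=
  ∫⁻ z, φ z.2 * ENNReal.ofReal (A t z)

variable {T : ℝ} {F₀ g₀ : Phase → ℝ} {F G : ℝ → Phase → ℝ} {φ : Vel → ℝ≥0∞}

lemma measurable_nw : Measurable nw := by unfold nw; fun_prop

lemma measurable_uw : Measurable uw := measurable_const

lemma uw_le_ew (v : Vel) : uw v ≤ ew v := one_le_ew v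

lemma measurable_ew' : Measurable ew := measurable_weight.ennreal_ofReal

lemma gapW_ew (A B : ℝ → Phase → ℝ) (t : ℝ) : gapW ew A B t = gap A B t := rfl

lemma totW_ew (A : ℝ → Phase → ℝ) (t : ℝ) : totW ew A t = wtot A t := by
  refine lintegral_congr fun z => ?_
  rw [ew, ENNReal.ofReal_mul (weight_pos z.2).le]

lemma gapW_mono {ψ : Vel → ℝ≥0∞} (h : ∀ v, φ v ≤ ψ v) (A B : ℝ → Phase → ℝ) (t : ℝ) :
    gapW φ A B t ≤ gapW ψ A B t :=
  lintegral_mono fun z => mul_le_mul' (h z.2) le_rfl

lemma measurable_gap_integrand (hφ : Measurable φ) {A B : ℝ → Phase → ℝ}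
    (hA : Measurable fun p : ℝ × Phase => A p.1 p.2) (hB : Measurable fun p : ℝ × Phase => B p.1 p.2) :
    Measurable fun p : ℝ × Phase => φ p.2.2 * ENNReal.ofReal (max (B p.1 p.2 - A p.1 p.2) 0) :=
  (hφ.comp measurable_snd.snd).mul ((hB.sub hA).max measurable_const).ennreal_ofReal

lemma measurable_gapW (hφ : Measurable φ) {A B : ℝ → Phase → ℝ}
    (hA : Measurable fun p : ℝ × Phase => A p.1 p.2) (hB : Measurable fun p : ℝ × Phase => B p.1 p.2) :
    Measurable (gapW φ A B) :=
  (measurable_gap_integrand hφ hA hB).lintegral_prod_right'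

/-- `tot B + gap B A = tot A + gap A B`. -/
lemma totW_add_gapW (hφ : Measurable φ) {A B : ℝ → Phase → ℝ}
    (hA : Measurable fun p : ℝ × Phase => A p.1 p.2) (hB : Measurable fun p : ℝ × Phase => B p.1 p.2)
    (hA0 : ∀ t z, 0 ≤ A t z) (hB0 : ∀ t z, 0 ≤ B t z) (t : ℝ) :
    totW φ B t + gapW φ B A t = totW φ A t + gapW φ A B t := by
  have hm : ∀ {C : ℝ → Phase → ℝ}, (Measurable fun p : ℝ × Phase => C p.1 p.2) →
      Measurable fun z : Phase => φ z.2 * ENNReal.ofReal (C t z) := fun hC =>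
    (hφ.comp measurable_snd).mul (measurable_apply hC t).ennreal_ofReal
  rw [totW, gapW, totW, gapW, ← lintegral_add_left (hm hB), ← lintegral_add_left (hm hA)]
  refine lintegral_congr fun z => ?_
  rw [← mul_add, ← mul_add, ← ENNReal.ofReal_add (hB0 t z) (le_max_right _ _),
    ← ENNReal.ofReal_add (hA0 t z) (le_max_right _ _)]
  rcases le_total (B t z) (A t z) with h | h
  · rw [max_eq_left (sub_nonneg.2 h), max_eq_right (sub_nonpos.2 h)]; ring_nf
  · rw [max_eq_right (sub_nonpos.2 h), max_eq_left (sub_nonneg.2 h)]; ring_nf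

lemma totW_uw_eq {A : ℝ → Phase → ℝ} {t : ℝ} (hA : Integrable (A t)) (h0 : ∀ z, 0 ≤ A t z) :
    totW uw A t = ENNReal.ofReal (∫ z, A t z) := by
  rw [ofReal_integral_eq_lintegral_ofReal hA (ae_of_all _ h0)]
  simp [totW, uw]

lemma RenSolution.integrable_at (hF : RenSolution F₀ F) {t : ℝ} (ht : 0 ≤ t) : Integrable (F t) := by
  obtain ⟨C, hC⟩ := hF.bounded t
  refine (hC t ⟨ht, le_rfl⟩).1.mono' (measurable_apply hF.measurable t).aestronglyMeasurable
    (ae_of_all _ fun z => ?_)
  rw [Real.norm_of_nonneg (hF.nonneg t z)]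
  exact le_mul_of_one_le_left (hF.nonneg t z) (le_add_of_nonneg_right (by positivity))

lemma lintegral_gain_eq_loss {f : Vel → ℝ} (hf : Measurable f) :
    ∫⁻ v, gain f f v = ∫⁻ v, loss f f v := by
  have h1 := lintegral_mul_gain (Φ := fun _ => (1 : ℝ≥0∞)) measurable_const hf hf
  simp only [one_mul] at h1
  rw [h1]
  exact (lintegral_mul_freq (Φ := fun v => ENNReal.ofReal (f v)) hf).symm

lemma lintegral_gainPair_eq (hG : Measurable fun p : ℝ × Phase => G p.1 p.2) (t : ℝ) :
    ∫⁻ p, gain (prof G p) (prof G p) p.2.2 ∂slab t = ∫⁻ p, loss (prof G p) (prof G p) p.2.2 ∂slab t := by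
  have mG := measurable_gainPair hG hG
  have mL := measurable_lossPair hG hG
  rw [slab, lintegral_prod _ mG.aemeasurable, lintegral_prod _ mL.aemeasurable]
  refine lintegral_congr fun s => ?_
  have hG' : Measurable fun z : Phase => gain (prof G (s, z)) (prof G (s, z)) z.2 := by
    have h := mG.comp (measurable_prodMk_left (x := s))
    simpa only [Function.comp_def] using h
  have hL' : Measurable fun z : Phase => loss (prof G (s, z)) (prof G (s, z)) z.2 := by
    have h := mL.comp (measurable_prodMk_left (x := s))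
    simpa only [Function.comp_def] using h
  rw [Measure.volume_eq_prod, lintegral_prod _ hG'.aemeasurable, lintegral_prod _ hL'.aemeasurable]
  refine lintegral_congr fun x => ?_
  simp only [prof]
  exact lintegral_gain_eq_loss (measurable_slice hG s x)

/-- The collision integral has total zero. -/
lemma integral_collision_slab (hg : StrongSolution T g₀ G) {t : ℝ} (ht : t ≤ T) :
    ∫ p, collision (prof G p) p.2.2 ∂slab t = 0 := by
  have mG := measurable_gainPair hg.measurable hg.measurable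
  have mL := measurable_lossPair hg.measurable hg.measurable
  have h1 : ∫⁻ p, ew p.2.2 * gain (prof G p) (prof G p) p.2.2 ∂slab T ≠ ⊤ :=
    ((lintegral_slab_le _).trans_lt hg.gain_lt_top).ne
  have h2 : ∀ p : ℝ × Phase, gain (prof G p) (prof G p) p.2.2 ≤
      ew p.2.2 * gain (prof G p) (prof G p) p.2.2 := fun p => le_mul_of_one_le_left zero_le (one_le_ew _)
  have fG : ∫⁻ p, gain (prof G p) (prof G p) p.2.2 ∂slab t ≠ ⊤ :=
    ne_top_of_le_ne_top h1 ((lintegral_mono h2).trans (lintegral_mono' (slab_mono ht) le_rfl))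
  have e := lintegral_gainPair_eq hg.measurable t
  have fL : ∫⁻ p, loss (prof G p) (prof G p) p.2.2 ∂slab t ≠ ⊤ := e ▸ fG
  have i1 := integrable_toReal_of_lintegral_ne_top mG.aemeasurable fG
  have i2 := integrable_toReal_of_lintegral_ne_top mL.aemeasurable fL
  show ∫ p, ((gain (prof G p) (prof G p) p.2.2).toReal - (loss (prof G p) (prof G p) p.2.2).toReal) ∂slab t = 0
  rw [integral_sub i1 i2, integral_toReal mG.aemeasurable (ae_lt_top mG fG),
    integral_toReal mL.aemeasurable (ae_lt_top mL fL), e, sub_self]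

namespace StrongSolution

/-- The mass of a strong solution is constant. -/
theorem mass_eq (hg : StrongSolution T g₀ G) {t : ℝ} (ht : t ∈ Icc 0 T) :
    ∫ z, G t z = ∫ z, G 0 z := by
  have hsub : slab t ≤ slab T := slab_mono ht.2
  have hb : Integrable (fun p : ℝ × Phase => collision (prof G p) p.2.2) (slab t) :=
    (integrable_collisionAt hg).mono_measure hsub
  have hflow := measurePreserving_flow ((volume : Measure ℝ).restrict (Ioc 0 t))
  have hbf : Integrable (fun p : ℝ × Phase => collision (prof G (p.1, shift p.1 p.2)) p.2.2) (slab t) :=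
    hflow.integrable_comp_of_integrable (g := fun p : ℝ × Phase => collision (prof G p) p.2.2) hb
  have hz := integral_collision_slab hg ht.2
  have hmap : ∫ p, collision (prof G (p.1, shift p.1 p.2)) p.2.2 ∂slab t = 0 := by
    have := integral_map hflow.measurable.aemeasurable
      (f := fun p : ℝ × Phase => collision (prof G p) p.2.2)
      (by rw [hflow.map_eq]; exact hb.1)
    rw [hflow.map_eq] at this
    exact this.symm.trans hz
  rw [← integral_comp_shift t (G t), integral_congr_ae (hg.mild t ht)]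
  have hi : Integrable fun y : Phase => ∫ s in (0 : ℝ)..t, collision (slice (G s) (shift s y).1) y.2 := by
    refine hbf.integral_prod_right.congr (ae_of_all _ fun y => ?_)
    simp only [intervalIntegral.integral_of_le ht.1, prof]
  rw [integral_add (hg.integrable_time ⟨le_rfl, ht.1.trans ht.2⟩) hi]
  have : ∫ y : Phase, ∫ s in (0 : ℝ)..t, collision (slice (G s) (shift s y).1) y.2 = 0 := by
    rw [slab] at hmap hbf
    rw [integral_prod_symm _ hbf] at hmap
    refine Eq.trans (integral_congr_ae (ae_of_all _ fun y => ?_)) hmap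
    simp only [intervalIntegral.integral_of_le ht.1, prof]
  rw [this, add_zero]

end StrongSolution

/-- The rate bound of a velocity average at one time. -/
lemma slice_rate_le (hF : RenSolution F₀ F) (hg : StrongSolution T g₀ G) (hφ : Measurable φ) (s : ℝ)
    {c : ℝ≥0∞}
    (h : ∀ᵐ x : Pos, ∫⁻ v, φ v * upRate (slice (F s) x) (slice (G s) x) v ≤
      (∫⁻ v, φ v * downRate (slice (F s) x) (slice (G s) x) v) +
        c * (nmass (lack (slice (F s) x) (slice (G s) x)) + nmass (lack (slice (G s) x) (slice (F s) x)))) :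
    ∫⁻ z : Phase, φ z.2 * upAt F G (s, z) ≤
      (∫⁻ z : Phase, φ z.2 * downAt F G (s, z)) + c * (gapW nw F G s + gapW nw G F s) := by
  have hφ' : Measurable fun z : Phase => φ z.2 := hφ.comp measurable_snd
  have hU : Measurable fun z : Phase => upAt F G (s, z) := by
    have h := (measurable_upAt hF.measurable hg.measurable).comp (measurable_prodMk_left (x := s))
    simpa only [Function.comp_def] using h
  have hD : Measurable fun z : Phase => downAt F G (s, z) := by
    have h := (measurable_downAt hF.measurable hg.measurable).comp (measurable_prodMk_left (x := s))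
    simpa only [Function.comp_def] using h
  have hmU : Measurable fun z : Phase => φ z.2 * upAt F G (s, z) := hφ'.mul hU
  have hmD : Measurable fun z : Phase => φ z.2 * downAt F G (s, z) := hφ'.mul hD
  have hm1 : Measurable fun z : Phase => nw z.2 * ENNReal.ofReal (max (G s z - F s z) 0) := by
    have h := (measurable_gap_integrand measurable_nw hF.measurable hg.measurable).comp
      (measurable_prodMk_left (x := s))
    simpa only [Function.comp_def] using h
  have hm2 : Measurable fun z : Phase => nw z.2 * ENNReal.ofReal (max (F s z - G s z) 0) := by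
    have h := (measurable_gap_integrand measurable_nw hg.measurable hF.measurable).comp
      (measurable_prodMk_left (x := s))
    simpa only [Function.comp_def] using h
  have hsum : Measurable fun x : Pos => (∫⁻ v, nw v * ENNReal.ofReal (max (G s (x, v) - F s (x, v)) 0)) +
      ∫⁻ v, nw v * ENNReal.ofReal (max (F s (x, v) - G s (x, v)) 0) :=
    hm1.lintegral_prod_right'.add hm2.lintegral_prod_right'
  simp only [gapW]
  rw [Measure.volume_eq_prod, lintegral_prod _ hmU.aemeasurable, lintegral_prod _ hmD.aemeasurable,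
    lintegral_prod _ hm1.aemeasurable, lintegral_prod _ hm2.aemeasurable,
    ← lintegral_add_left hm1.lintegral_prod_right', ← lintegral_const_mul _ hsum,
    ← lintegral_add_left hmD.lintegral_prod_right']
  refine lintegral_mono_ae ?_
  filter_upwards [h] with x hx
  simp only [upAt, downAt, prof]
  exact hx

lemma gapW_nw_le (hA : Measurable fun p : ℝ × Phase => F p.1 p.2)
    (hB : Measurable fun p : ℝ × Phase => G p.1 p.2) (t : ℝ) {l : ℝ} (hl : 0 < l) :
    gapW nw F G t ≤ ENNReal.ofReal l⁻¹ * gapW uw F G t + ENNReal.ofReal l * gapW ew F G t := by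
  have hm : ∀ {ψ : Vel → ℝ≥0∞}, Measurable ψ →
      Measurable fun z : Phase => ψ z.2 * ENNReal.ofReal (max (G t z - F t z) 0) := fun hψ =>
    (measurable_gap_integrand hψ hA hB).comp measurable_prodMk_left
  simp only [gapW]
  rw [← lintegral_const_mul _ (hm measurable_uw), ← lintegral_const_mul _ (hm measurable_ew'),
    ← lintegral_add_left ((hm measurable_uw).const_mul _)]
  refine lintegral_mono fun z => ?_
  rw [← mul_assoc, ← mul_assoc, ← add_mul]
  refine mul_le_mul' ?_ le_rfl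
  rw [uw, mul_one, ew, ← ENNReal.ofReal_mul hl.le,
    ← ENNReal.ofReal_add (inv_nonneg.2 hl.le) (mul_nonneg hl.le (weight_pos _).le), nw]
  refine ENNReal.ofReal_le_ofReal ?_
  have h1 : l * l⁻¹ = 1 := mul_inv_cancel₀ hl.ne'
  refine le_of_mul_le_mul_left ?_ hl
  rw [mul_add l l⁻¹, h1]
  unfold weight
  nlinarith [sq_nonneg (l - 1 / 2), sq_nonneg (l * ‖z.2‖ - 1 / 2)]

lemma lintegral_inv_sq_le {δ T : ℝ} (hδ : 0 < δ) (hT : 0 ≤ T) :
    ∫⁻ s in Ioc 0 T, ENNReal.ofReal ((s + δ)⁻¹ ^ 2) ≤ ENNReal.ofReal δ⁻¹ := by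
  have hd : ∀ s ∈ uIcc 0 T, HasDerivAt (fun s => -(s + δ)⁻¹) ((s + δ)⁻¹ ^ 2) s := by
    intro s hs
    rw [uIcc_of_le hT] at hs
    have hne : s + δ ≠ 0 := by linarith [hs.1]
    refine (((hasDerivAt_id s).add_const δ).inv hne).neg.congr_deriv ?_
    simp [inv_pow, neg_div]
  have hc : ContinuousOn (fun s : ℝ => (s + δ)⁻¹ ^ 2) (uIcc 0 T) :=
    (ContinuousOn.inv₀ (by fun_prop) fun s hs => by
      rw [uIcc_of_le hT] at hs; linarith [hs.1]).pow 2
  have hi := hc.intervalIntegrable (μ := volume)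
  rw [← ofReal_integral_eq_lintegral_ofReal hi.1 (ae_of_all _ fun s => sq_nonneg _),
    ← intervalIntegral.integral_of_le hT, intervalIntegral.integral_eq_sub_of_hasDerivAt hd hi]
  refine ENNReal.ofReal_le_ofReal ?_
  have : (0 : ℝ) < (T + δ)⁻¹ := inv_pos.2 (by linarith)
  rw [zero_add]
  linarith

lemma lintegral_time_add {a : ℝ → ℝ≥0∞} (ha : Measurable a) (ε : ℝ≥0∞) {t : ℝ} :
    ∫⁻ s in Ioc 0 t, (2 * a s + ε) = 2 * (∫⁻ s in Ioc 0 t, a s) + ε * ENNReal.ofReal t := by
  rw [lintegral_add_left (ha.const_mul 2), lintegral_const_mul _ ha, setLIntegral_const, Real.volume_Ioc,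
    sub_zero]

/-- The first tier: `a ≤ ε + 8 c² t ∫ (2 b + η)`. -/
lemma first_tier {T : ℝ} {a b : ℝ → ℝ≥0∞} (ha : Measurable a) {c : ℝ} (hc : 0 < c)
    {E ε η : ℝ≥0∞} (hE : E ≠ ⊤) (haE : ∀ t ∈ Ioc 0 T, a t ≤ E) {B : ℝ → ℝ≥0∞}
    (hB : ∀ s ∈ Ioc 0 T, ∀ l : ℝ, 0 < l →
      B s ≤ ENNReal.ofReal c * (ENNReal.ofReal l⁻¹ * (2 * a s + ε) + ENNReal.ofReal l * (2 * b s + η)))
    (hle : ∀ᵐ t ∂volume.restrict (Ioc 0 T), a t ≤ ∫⁻ s in Ioc 0 t, B s) :
    ∀ᵐ t ∂volume.restrict (Ioc 0 T),
      a t ≤ ε + ENNReal.ofReal (8 * c ^ 2 * t) * ∫⁻ s in Ioc 0 t, (2 * b s + η) := by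
  filter_upwards [hle, ae_restrict_mem measurableSet_Ioc] with t ht htm
  set I := ∫⁻ s in Ioc 0 t, a s
  set Y := ∫⁻ s in Ioc 0 t, (2 * b s + η)
  set l := 4 * c * t with hl_def
  have hl : 0 < l := by have := htm.1; positivity
  set R := ENNReal.ofReal c * (ENNReal.ofReal l⁻¹ * (2 * I + ε * ENNReal.ofReal t) + ENNReal.ofReal l * Y)
  have hBR : ∀ r, r ≤ t → ∫⁻ s in Ioc 0 r, B s ≤ R := by
    intro r hr
    refine (lintegral_mono_set (Ioc_subset_Ioc_right hr)).trans ?_
    refine (setLIntegral_mono' measurableSet_Ioc fun s hs =>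
      hB s ⟨hs.1, hs.2.trans htm.2⟩ l hl).trans_eq ?_
    rw [lintegral_const_mul' _ _ ENNReal.ofReal_ne_top,
      lintegral_add_left (((ha.const_mul 2).add_const ε).const_mul _),
      lintegral_const_mul' _ _ ENNReal.ofReal_ne_top, lintegral_const_mul' _ _ ENNReal.ofReal_ne_top,
      lintegral_time_add ha]
  have hI : I ≤ ENNReal.ofReal t * R := by
    refine (lintegral_mono_ae (g := fun _ => R) ?_).trans_eq ?_
    · filter_upwards [ae_mono (Measure.restrict_mono (Ioc_subset_Ioc_right htm.2) le_rfl) hle,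
        ae_restrict_mem measurableSet_Ioc] with r hr hrm
      exact hr.trans (hBR r hrm.2)
    · rw [setLIntegral_const, Real.volume_Ioc, sub_zero, mul_comm]
  have hIfin : I ≠ ⊤ := by
    refine ne_top_of_le_ne_top ?_ (setLIntegral_mono measurable_const fun s hs => haE s ⟨hs.1, hs.2.trans htm.2⟩)
    rw [setLIntegral_const]
    exact ENNReal.mul_ne_top hE measure_Ioc_lt_top.ne
  rcases eq_or_ne Y ⊤ with hY | hY
  · rw [hY, ENNReal.mul_top (ENNReal.ofReal_pos.2 (by have := htm.1; positivity)).ne', add_top]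
    exact le_top
  rcases eq_or_ne ε ⊤ with he | he
  · simp [he]
  have hRfin : R ≠ ⊤ :=
    ENNReal.mul_ne_top ENNReal.ofReal_ne_top (ENNReal.add_ne_top.2
      ⟨ENNReal.mul_ne_top ENNReal.ofReal_ne_top (ENNReal.add_ne_top.2
        ⟨ENNReal.mul_ne_top ENNReal.ofNat_ne_top hIfin, ENNReal.mul_ne_top he ENNReal.ofReal_ne_top⟩),
        ENNReal.mul_ne_top ENNReal.ofReal_ne_top hY⟩)
  have hat : a t ≤ R := ht.trans (hBR t le_rfl)
  have hatfin : a t ≠ ⊤ := ne_top_of_le_ne_top hRfin hat
  have e1 := ENNReal.toReal_mono (ENNReal.mul_ne_top ENNReal.ofReal_ne_top hRfin) hI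
  have e2 := ENNReal.toReal_mono hRfin hat
  have eR : R.toReal = c * (l⁻¹ * (2 * I.toReal + ε.toReal * t) + l * Y.toReal) := by
    simp only [R]
    rw [ENNReal.toReal_mul, ENNReal.toReal_add, ENNReal.toReal_mul, ENNReal.toReal_mul,
      ENNReal.toReal_add, ENNReal.toReal_mul, ENNReal.toReal_mul, ENNReal.toReal_ofReal hc.le,
      ENNReal.toReal_ofReal (inv_nonneg.2 hl.le), ENNReal.toReal_ofReal hl.le,
      ENNReal.toReal_ofReal htm.1.le, ENNReal.toReal_ofNat]
    · exact ENNReal.mul_ne_top ENNReal.ofNat_ne_top hIfin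
    · exact ENNReal.mul_ne_top he ENNReal.ofReal_ne_top
    · exact ENNReal.mul_ne_top ENNReal.ofReal_ne_top (ENNReal.add_ne_top.2
        ⟨ENNReal.mul_ne_top ENNReal.ofNat_ne_top hIfin, ENNReal.mul_ne_top he ENNReal.ofReal_ne_top⟩)
    · exact ENNReal.mul_ne_top ENNReal.ofReal_ne_top hY
  rw [ENNReal.toReal_mul, ENNReal.toReal_ofReal htm.1.le, eR] at e1
  rw [eR] at e2
  have hcl : c * l⁻¹ = (4 * t)⁻¹ := by rw [hl_def]; field_simp
  have k1 : t * (c * (l⁻¹ * (2 * I.toReal + ε.toReal * t) + l * Y.toReal)) =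
      I.toReal / 2 + ε.toReal * t / 4 + 4 * c ^ 2 * t ^ 2 * Y.toReal := by
    have := htm.1.ne'
    rw [hl_def]; field_simp; ring
  have k2 : c * (l⁻¹ * (2 * I.toReal + ε.toReal * t) + l * Y.toReal) =
      (2 * I.toReal + ε.toReal * t) / (4 * t) + 4 * c ^ 2 * t * Y.toReal := by
    have := htm.1.ne'
    rw [hl_def]; field_simp
  rw [k1] at e1
  rw [k2] at e2
  have e3 : (2 * I.toReal + ε.toReal * t) / (4 * t) ≤ ε.toReal / 2 + 4 * c ^ 2 * t * Y.toReal := by
    rw [div_le_iff₀ (by have := htm.1; positivity)]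
    nlinarith
  rw [← ENNReal.ofReal_toReal hatfin, ← ENNReal.ofReal_toReal he, ← ENNReal.ofReal_toReal hY,
    ← ENNReal.ofReal_mul (by have := htm.1; positivity),
    ← ENNReal.ofReal_add ENNReal.toReal_nonneg (by have := htm.1; positivity)]
  refine ENNReal.ofReal_le_ofReal ?_
  linarith [ENNReal.toReal_nonneg (a := ε)]

/-- A monotone bound of `b` bounds its time integral. -/
lemma lintegral_two_mul_add_le {b M : ℝ → ℝ≥0∞} (η : ℝ≥0∞) (hM : Monotone M) {t : ℝ}
    (hb : ∀ᵐ s ∂volume.restrict (Ioc 0 t), b s ≤ M s) :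
    ∫⁻ s in Ioc 0 t, (2 * b s + η) ≤ ENNReal.ofReal t * (2 * M t + η) := by
  refine (lintegral_mono_ae (g := fun _ => 2 * M t + η) ?_).trans_eq ?_
  · filter_upwards [hb, ae_restrict_mem measurableSet_Ioc] with s hs hsm
    exact add_le_add (mul_le_mul' le_rfl (hs.trans (hM hsm.2))) le_rfl
  · rw [setLIntegral_const, Real.volume_Ioc, sub_zero, mul_comm]

/-- The second tier. -/
lemma second_tier {T : ℝ} (hT : 0 ≤ T) {a b : ℝ → ℝ≥0∞} {c d δ : ℝ} (hd : 0 ≤ d)
    (hδ : 0 < δ) {E ε η : ℝ≥0∞} (hbE : ∀ t ∈ Ioc 0 T, b t ≤ E) {B : ℝ → ℝ≥0∞}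
    (ha : ∀ᵐ t ∂volume.restrict (Ioc 0 T),
      a t ≤ ε + ENNReal.ofReal (8 * c ^ 2 * t) * ∫⁻ s in Ioc 0 t, (2 * b s + η))
    (hB : ∀ᵐ s ∂volume.restrict (Ioc 0 T), B s ≤ ENNReal.ofReal (d / (s + δ)) *
      (ENNReal.ofReal (s + δ)⁻¹ * (2 * a s + ε) + ENNReal.ofReal (s + δ) * (2 * b s + η)))
    (hle : ∀ᵐ t ∂volume.restrict (Ioc 0 T), b t ≤ ∫⁻ s in Ioc 0 t, B s) :
    ∃ M : ℝ → ℝ≥0∞, Monotone M ∧ (∀ t, M t ≤ E) ∧
      (∀ᵐ t ∂volume.restrict (Ioc 0 T), b t ≤ M t) ∧
      ∀ t ∈ Icc 0 T, M t ≤ ENNReal.ofReal (3 * d) * (ε * ENNReal.ofReal δ⁻¹) +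
        ENNReal.ofReal (d * (1 + 16 * c ^ 2)) * ∫⁻ s in Icc 0 t, (2 * M s + η) := by
  set M : ℝ → ℝ≥0∞ := fun t => min (∫⁻ s in Ioc 0 t, B s) E with hMdef
  have hM : Monotone M := fun s t hst =>
    min_le_min (lintegral_mono_set (Ioc_subset_Ioc_right hst)) le_rfl
  have hbM : ∀ᵐ t ∂volume.restrict (Ioc 0 T), b t ≤ M t := by
    filter_upwards [hle, ae_restrict_mem measurableSet_Ioc] with t ht htm
    exact le_min ht (hbE t htm)
  refine ⟨M, hM, fun t => min_le_right _ _, hbM, fun t ht => ?_⟩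
  refine (min_le_left _ _).trans ?_
  have hpt : ∀ᵐ s ∂volume.restrict (Ioc 0 t), B s ≤
      ENNReal.ofReal (3 * d) * (ε * ENNReal.ofReal ((s + δ)⁻¹ ^ 2)) +
        ENNReal.ofReal (d * (1 + 16 * c ^ 2)) * (2 * M s + η) := by
    have hsub : (volume : Measure ℝ).restrict (Ioc 0 t) ≤ volume.restrict (Ioc 0 T) :=
      Measure.restrict_mono (Ioc_subset_Ioc_right ht.2) le_rfl
    filter_upwards [ae_mono hsub hB, ae_mono hsub ha, ae_mono hsub hbM,
      ae_restrict_mem measurableSet_Ioc] with s hBs has hbs hsm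
    have hs0 := hsm.1
    have hsd : 0 < s + δ := by linarith
    have hY := lintegral_two_mul_add_le η hM (b := b) (t := s)
      (ae_mono (Measure.restrict_mono (Ioc_subset_Ioc_right (hsm.2.trans ht.2)) le_rfl) hbM)
    have has' : 2 * a s + ε ≤ 3 * ε + ENNReal.ofReal (16 * c ^ 2 * s ^ 2) * (2 * M s + η) := by
      calc 2 * a s + ε ≤ 2 * (ε + ENNReal.ofReal (8 * c ^ 2 * s) *
              (ENNReal.ofReal s * (2 * M s + η))) + ε := by
            gcongr
            exact has.trans (add_le_add le_rfl (mul_le_mul' le_rfl hY))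
        _ = 3 * ε + ENNReal.ofReal (16 * c ^ 2 * s ^ 2) * (2 * M s + η) := by
            rw [← mul_assoc (ENNReal.ofReal (8 * c ^ 2 * s)), ← ENNReal.ofReal_mul (by positivity),
              show 16 * c ^ 2 * s ^ 2 = 2 * (8 * c ^ 2 * s * s) by ring,
              ENNReal.ofReal_mul (zero_le_two (α := ℝ)), ENNReal.ofReal_ofNat]
            ring
    refine hBs.trans ?_
    calc ENNReal.ofReal (d / (s + δ)) * (ENNReal.ofReal (s + δ)⁻¹ * (2 * a s + ε) +
          ENNReal.ofReal (s + δ) * (2 * b s + η))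
        ≤ ENNReal.ofReal (d / (s + δ)) * (ENNReal.ofReal (s + δ)⁻¹ *
          (3 * ε + ENNReal.ofReal (16 * c ^ 2 * s ^ 2) * (2 * M s + η)) +
          ENNReal.ofReal (s + δ) * (2 * M s + η)) := by gcongr
      _ = ENNReal.ofReal (d / (s + δ) * (s + δ)⁻¹) * 3 * ε +
          (ENNReal.ofReal (d / (s + δ) * (s + δ)⁻¹ * (16 * c ^ 2 * s ^ 2)) +
            ENNReal.ofReal (d / (s + δ) * (s + δ))) * (2 * M s + η) := by
          rw [ENNReal.ofReal_mul (show 0 ≤ d / (s + δ) * (s + δ)⁻¹ by positivity),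
            ENNReal.ofReal_mul (show 0 ≤ d / (s + δ) by positivity),
            ENNReal.ofReal_mul (show 0 ≤ d / (s + δ) by positivity)]
          ring
      _ ≤ _ := by
          rw [← ENNReal.ofReal_add (by positivity) (by positivity)]
          refine add_le_add (le_of_eq ?_) (mul_le_mul' (ENNReal.ofReal_le_ofReal ?_) le_rfl)
          · rw [ENNReal.ofReal_mul (by norm_num : (0 : ℝ) ≤ 3), ENNReal.ofReal_ofNat,
              show d / (s + δ) * (s + δ)⁻¹ = d * (s + δ)⁻¹ ^ 2 by rw [div_eq_mul_inv]; ring,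
              ENNReal.ofReal_mul hd]
            ring
          · rw [div_mul_cancel₀ _ hsd.ne', div_eq_mul_inv]
            have h1 : s ^ 2 * ((s + δ)⁻¹ * (s + δ)⁻¹) ≤ 1 := by
              rw [← mul_inv, mul_inv_le_iff₀ (mul_pos hsd hsd)]
              nlinarith
            nlinarith [mul_le_mul_of_nonneg_left h1 (show 0 ≤ d * (16 * c ^ 2) by positivity)]
  refine (lintegral_mono_ae hpt).trans ?_
  have hm : Measurable fun s : ℝ => ENNReal.ofReal (3 * d) * (ε * ENNReal.ofReal ((s + δ)⁻¹ ^ 2)) :=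
    (by fun_prop : Measurable fun s : ℝ => (s + δ)⁻¹ ^ 2).ennreal_ofReal.const_mul _ |>.const_mul _
  rw [lintegral_add_left hm]
  refine add_le_add ?_ ?_
  · rw [lintegral_const_mul' _ _ ENNReal.ofReal_ne_top]
    refine mul_le_mul' le_rfl ?_
    have hms : Measurable fun s : ℝ => ENNReal.ofReal ((s + δ)⁻¹ ^ 2) := by fun_prop
    rw [lintegral_const_mul _ hms]
    exact mul_le_mul' le_rfl ((lintegral_mono_set (Ioc_subset_Ioc_right ht.2)).trans
      (lintegral_inv_sq_le hδ hT))
  · rw [lintegral_const_mul' _ _ ENNReal.ofReal_ne_top]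
    exact mul_le_mul' le_rfl (lintegral_mono_set Ioc_subset_Icc_self)

variable {g : ℝ → Vel → ℝ}

lemma wmass_hom_eq (hg : StrongSolution T g₀ (fun t z => g t z.2)) (s : ℝ) :
    wmass (g s) = wtot (fun t z => g t z.2) s := by
  have hm : Measurable (g s) := measurable_slice (A := fun t z => g t z.2) hg.measurable s (fun _ => 0)
  exact (Homogeneous.lintegral_phase (measurable_weight.mul hm).ennreal_ofReal).symm

/-- **Comparison with a homogeneous strong solution with a smaller datum.** -/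
theorem stability (hF : RenSolution F₀ F) (hT : 0 < T) {A δ : ℝ} (hA : 0 ≤ A) (hδ : 0 < δ)
    (hg : StrongSolution T g₀ (fun t z => g t z.2)) (hle : g₀ ≤ᵐ[volume] F₀)
    (hm3 : ∀ᵐ t ∂volume.restrict (Ioc 0 T), moment3 (g t) ≤ ENNReal.ofReal (A / (t + δ))) :
    ∃ M : ℝ → ℝ≥0∞, Monotone M ∧ (∀ t, M t ≤ wtot F 0) ∧
      (∀ᵐ t ∂volume.restrict (Ioc 0 T), gap F (fun t z => g t z.2) t ≤ M t ∧
        gap (fun t z => g t z.2) F t ≤ M t + gap (fun t z => g t z.2) F 0) ∧
      ∀ t ∈ Icc 0 T, M t ≤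
        ENNReal.ofReal (3 * (4 * surf.real univ * A)) *
            (gapW uw (fun t z => g t z.2) F 0 * ENNReal.ofReal δ⁻¹) +
          ENNReal.ofReal (4 * surf.real univ * A *
            (1 + 16 * (2 * surf.real univ * (wtot F 0).toReal + 1) ^ 2)) *
            ∫⁻ s in Icc 0 t, (2 * M s + gap (fun t z => g t z.2) F 0) := by
  set G : ℝ → Phase → ℝ := fun t z => g t z.2 with hGdef
  set E := wtot F 0
  set ε := gapW uw G F 0
  set η := gap G F 0 with hη
  have hle0 : G 0 ≤ᵐ[volume] F 0 := by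
    filter_upwards [hF.init, hg.init, hle] with z h1 h2 h3
    rw [h1, h2]; exact h3
  have hG0 : ∀ φ : Vel → ℝ≥0∞, gapW φ F G 0 = 0 := fun φ => by
    refine (lintegral_congr_ae ?_).trans lintegral_zero
    filter_upwards [hle0] with z hz
    simp [hz]
  have hE : E ≠ ⊤ := by
    obtain ⟨C, hC⟩ := hF.exists_wtot_le 0
    exact ne_top_of_le_ne_top ENNReal.ofReal_ne_top (hC 0 ⟨le_rfl, le_rfl⟩)
  have hgE : ∀ t ∈ Icc 0 T, wtot G t ≤ E := fun t ht => by
    have h := hg.energy_eq t ht
    have h' := totW_add_gapW measurable_ew' hF.measurable hg.measurable hF.nonneg hg.nonneg 0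
    rw [hG0, add_zero, totW_ew, totW_ew] at h'
    exact h.trans_le (le_self_add.trans_eq h')
  have hswap : ∀ t ∈ Icc 0 T, gapW uw G F t ≤ gapW uw F G t + ε ∧ gap G F t ≤ gap F G t + η := by
    intro t ht
    have hfin : wtot G t ≠ ⊤ := ne_top_of_le_ne_top hE (hgE t ht)
    have key : ∀ {φ : Vel → ℝ≥0∞}, Measurable φ → totW φ G t ≠ ⊤ → totW φ F t ≤ totW φ F 0 →
        totW φ G t = totW φ G 0 → gapW φ G F t ≤ gapW φ F G t + gapW φ G F 0 := by
      intro φ hφ hf h1 h2
      have e0 := totW_add_gapW hφ hF.measurable hg.measurable hF.nonneg hg.nonneg 0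
      rw [hG0, add_zero] at e0
      refine (ENNReal.add_le_add_iff_left hf).1 ?_
      rw [totW_add_gapW hφ hF.measurable hg.measurable hF.nonneg hg.nonneg t]
      calc totW φ F t + gapW φ F G t ≤ totW φ G 0 + gapW φ G F 0 + gapW φ F G t := by
            rw [e0]; exact add_le_add h1 le_rfl
        _ = _ := by rw [← h2]; ring
    refine ⟨key measurable_uw ?_ ?_ ?_, key measurable_ew' ?_ ?_ ?_⟩
    · refine ne_top_of_le_ne_top hfin (le_of_le_of_eq ?_ (totW_ew G t))
      exact lintegral_mono fun z => mul_le_mul' (uw_le_ew z.2) le_rfl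
    · rw [totW_uw_eq (hF.integrable_at ht.1) (hF.nonneg t), totW_uw_eq (hF.integrable_at le_rfl) (hF.nonneg 0),
        hF.mass t ht.1, hF.mass 0 le_rfl]
    · rw [totW_uw_eq (hg.integrable_time ht) (hg.nonneg t),
        totW_uw_eq (hg.integrable_time (left_mem_Icc.2 hT.le)) (hg.nonneg 0), hg.mass_eq ht]
    · rwa [totW_ew]
    · rw [totW_ew, totW_ew]; exact hF.wtot_le ht.1
    · rw [totW_ew, totW_ew]; exact hg.energy_eq t ht
  have hbE : ∀ t ∈ Ioc 0 T, gap F G t ≤ E := fun t ht =>
    (gap_le_wtot hF hg t).trans (hgE t (Ioc_subset_Icc_self ht))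
  have hnw : ∀ t ∈ Icc 0 T, ∀ l : ℝ, 0 < l → gapW nw F G t + gapW nw G F t ≤
      ENNReal.ofReal l⁻¹ * (2 * gapW uw F G t + ε) + ENNReal.ofReal l * (2 * gap F G t + η) := by
    intro t ht l hl
    calc gapW nw F G t + gapW nw G F t
        ≤ (ENNReal.ofReal l⁻¹ * gapW uw F G t + ENNReal.ofReal l * gap F G t) +
          (ENNReal.ofReal l⁻¹ * (gapW uw F G t + ε) + ENNReal.ofReal l * (gap F G t + η)) := by
          refine add_le_add (gapW_nw_le hF.measurable hg.measurable t hl)
            ((gapW_nw_le hg.measurable hF.measurable t hl).trans ?_)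
          exact add_le_add (mul_le_mul' le_rfl (hswap t ht).1) (mul_le_mul' le_rfl (hswap t ht).2)
      _ = _ := by ring
  set c := 2 * surf.real univ * E.toReal + 1 with hcdef
  have hc : 0 < c := add_pos_of_nonneg_of_pos
    (mul_nonneg (mul_nonneg zero_le_two measureReal_nonneg) ENNReal.toReal_nonneg) one_pos
  have hsu : surf univ = ENNReal.ofReal (surf.real univ) := (ofReal_measureReal (measure_ne_top _ _)).symm
  have hs0 : (0 : ℝ) ≤ surf.real univ := measureReal_nonneg
  have hu : ∀ᵐ s ∂volume.restrict (Ioc 0 T), ∫⁻ z : Phase, uw z.2 * upAt F G (s, z) ≤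
      (∫⁻ z : Phase, uw z.2 * downAt F G (s, z)) +
        ENNReal.ofReal c * (gapW nw F G s + gapW nw G F s) := by
    filter_upwards [ae_restrict_mem measurableSet_Ioc] with s hs
    refine slice_rate_le hF hg measurable_uw s (ae_of_all _ fun x => ?_)
    simp only [uw, one_mul]
    refine (upRate_le_nmass (measurable_slice hF.measurable s x) (measurable_slice hg.measurable s x)).trans
      (add_le_add le_rfl (mul_le_mul' ?_ le_rfl))
    calc surf univ * nmass (g s) ≤ surf univ * (2 * E) := by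
          gcongr
          refine (lintegral_norm_le_wmass _).trans (mul_le_mul' le_rfl ?_)
          exact (wmass_hom_eq hg s).trans_le (hgE s (Ioc_subset_Icc_self hs))
      _ ≤ ENNReal.ofReal c := by
          rw [hsu, ← ENNReal.ofReal_toReal hE]
          have h22 : ENNReal.ofReal (surf.real univ * (2 * E.toReal)) =
              ENNReal.ofReal (surf.real univ) * (2 * ENNReal.ofReal E.toReal) := by
            rw [ENNReal.ofReal_mul hs0, ENNReal.ofReal_mul zero_le_two, ENNReal.ofReal_ofNat]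
          rw [← h22]
          refine ENNReal.ofReal_le_ofReal ?_
          rw [hcdef]
          linarith
  have hw : ∀ᵐ s ∂volume.restrict (Ioc 0 T), ∫⁻ z : Phase, ew z.2 * upAt F G (s, z) ≤
      (∫⁻ z : Phase, ew z.2 * downAt F G (s, z)) +
        4 * surf univ * moment3 (g s) * (gapW nw F G s + gapW nw G F s) :=
    ae_of_all _ fun s => slice_rate_le hF hg measurable_ew' s (ae_of_all _ fun x =>
      weight_upRate_le' (measurable_slice hF.measurable s x) (measurable_slice hg.measurable s x))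
  have t1 := gapW_le hF hg hT hle0 measurable_uw uw_le_ew hu
  have t2 := gapW_le hF hg hT hle0 measurable_ew' (fun _ => le_rfl) hw
  have ha := first_tier (b := gap F G) (η := η) (ε := ε) (measurable_gapW measurable_uw hF.measurable hg.measurable) hc hE
    (fun t ht => (gapW_mono uw_le_ew F G t).trans (hbE t ht))
    (fun s hs l hl => mul_le_mul' le_rfl (hnw s (Ioc_subset_Icc_self hs) l hl)) t1
  have hd : 0 ≤ 4 * surf.real univ * A := by positivity
  obtain ⟨M, hM, hME, hbM, hMle⟩ := second_tier hT.le hd hδ hbE ha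
    (by
      filter_upwards [hm3, ae_restrict_mem measurableSet_Ioc] with s hs hsm
      refine mul_le_mul' ?_ (hnw s (Ioc_subset_Icc_self hsm) (s + δ) (by linarith [hsm.1]))
      refine (mul_le_mul' le_rfl hs).trans_eq ?_
      rw [mul_div_assoc, ENNReal.ofReal_mul (by positivity : (0 : ℝ) ≤ 4 * surf.real univ),
        ENNReal.ofReal_mul (by norm_num : (0 : ℝ) ≤ 4), ENNReal.ofReal_ofNat, hsu]) t2
  refine ⟨M, hM, hME, ?_, hMle⟩
  filter_upwards [hbM, ae_restrict_mem measurableSet_Ioc] with t ht htm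
  exact ⟨ht, (hswap t (Ioc_subset_Icc_self htm)).2.trans (add_le_add ht le_rfl)⟩

end Vale.Agent.P140
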